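import Vale.Agent.P106.U.H459.End7Defs

/-!
# P106 / U / H459 : the blocks of `PC1`, exact statements

Geometry (given the cell `Zh h` of a point):
* `PTY` : the slope is an affine function of `(Q 0, Q 1, 2^-q Q 2)` up to `C 2^-h`.
* `PQ3` : three slopes whose lifted points are on two transversal planes.
* `PFew2` : two transversal planes ⇒ the slope has few values; `PFew1` : one steep plane, thin slab; `PFewI` : small covector.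
Labels (consequences of `Env.Lab`):
* `PE1`, `PE2`, `PGrowE`, `PLabC1`.
-/

set_option autoImplicit false

namespace Vale.Agent.P106.U.End7

open Finset Vale.Agent.P127 Vale.Agent.P127.Stk Vale.Agent.P127.U.CellD Vale.Agent.P127.U.Mic Vale.Agent.P106.W
open Vale.Agent.P106.K (Ry RyOk bl Bin)
open Vale.Agent.P122.C2 (fw fn)

/-- the slope is an affine function of `(Q 0, Q 1, 2^-q Q 2)` given the cell -/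
def PTY : Prop := ∃ C : ℝ, 1 ≤ C ∧ ∀ {Ω : Type} [Fintype Ω] (E : Env Ω) (P : Law Ω), E.Supp P →
  ∀ z : ℤ × (Fin 3 → ℤ), ∃ (T : Fin 2 → Fin 3 → ℝ) (T0 : Fin 2 → ℝ), (∀ i j, |T i j| ≤ C) ∧ (∀ i, |T0 i| ≤ C) ∧
    ∀ ω, 0 < P.w ω → E.Zh E.h ω = z → ∀ i,
      |(E.l ω).s i - (T i 0 * E.Q ω 0 + T i 1 * E.Q ω 1 + T i 2 * ((1 / 2 : ℝ) ^ E.q * E.Q ω 2) + T0 i)| ≤
        C * (1 / 2 : ℝ) ^ E.h

/-- three slopes, lifted points on two transversal planes -/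
def PQ3 : Prop := ∀ K : ℝ, 1 ≤ K → ∃ C : ℝ, 1 ≤ C ∧ ∀ (s : Fin 3 → Fin 2 → ℝ) (u : Fin 3 → Fin 3 → ℝ) (T : Fin 2 → Fin 3 → ℝ)
    (T0 : Fin 2 → ℝ) (π π' : Fin 3 → ℝ) (o o' ρ δ : ℝ) (k0 : Fin 3), 0 ≤ ρ → ρ ≤ 1 → 0 ≤ δ →
    (∀ i j, |s i j| ≤ 1) → (∀ i j, |u i j| ≤ 1) → (∀ i j, |T i j| ≤ K) →
    (∀ i k, |s i k - (∑ j, T k j * u i j + T0 k)| ≤ K * ρ) →
    (∀ i, |u i 1 - (s i 0 ^ 2 + s i 1 ^ 2) / 2| ≤ K * ρ) →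
    (∀ k, |π k| ≤ 1) → (∀ k, |π' k| ≤ 1) → 1 / 2 ≤ |π k0| → π' k0 = 0 → (∃ k, 1 / 2 ≤ |π' k|) →
    (∀ i, |∑ k, π k * u i k - o| ≤ K * ρ) → (∀ i, |∑ k, π' k * u i k - o'| ≤ K * ρ) →
    (∀ i j, i ≠ j → ∃ k, δ ≤ |s i k - s j k|) → δ ≤ C * Real.sqrt ρ

section few

/-- two transversal planes given `Y` (which determines the cell): the slope has few values -/
def PFew2 : Prop := ∃ C : ℝ, 1 ≤ C ∧ ∀ {Ω : Type} [Fintype Ω] {ζ : Type} (E : Env Ω) (P : Law Ω) (Y : Ω → ζ)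
    (π π' : ζ → Fin 3 → ℝ) (o o' : ζ → ℝ) (k0 : ζ → Fin 3) (ρ : ℝ) (b : ℕ), E.Supp P → Fn P (E.Zh E.h) Y → 0 ≤ ρ →
    (∀ ω, 0 < P.w ω → (∀ k, |π (Y ω) k| ≤ 1) ∧ (∀ k, |π' (Y ω) k| ≤ 1) ∧ |π (Y ω) (k0 (Y ω))| = 1 ∧
      π' (Y ω) (k0 (Y ω)) = 0 ∧ (∃ k, 1 / 2 ≤ |π' (Y ω) k|) ∧
      |∑ k, π (Y ω) k * E.Q ω k - o (Y ω)| ≤ ρ ∧ |∑ k, π' (Y ω) k * E.Q ω k - o' (Y ω)| ≤ ρ) →
    C * Real.sqrt (ρ + (1 / 2 : ℝ) ^ E.h) ≤ (1 / 2 : ℝ) ^ b →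
    Stk.hc P (fun ω => fl b (E.l ω).s) Y ≤ C

/-- one steep plane given `Y` -/
def PFew1 : Prop := ∃ C : ℝ, 1 ≤ C ∧ ∀ {Ω : Type} [Fintype Ω] {ζ : Type} (E : Env Ω) (P : Law Ω) (Y : Ω → ζ)
    (π : ζ → Fin 3 → ℝ) (o : ζ → ℝ) (ρ : ℝ) (b : ℕ), E.Supp P → Fn P (E.Zh E.h) Y → 0 ≤ ρ →
    (∀ ω, 0 < P.w ω → (∀ k, |π (Y ω) k| ≤ 1) ∧ (∃ k, |π (Y ω) k| = 1) ∧ |π (Y ω) 2| ≤ ρ ∧
      |∑ k, π (Y ω) k * E.Q ω k - o (Y ω)| ≤ ρ) →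
    C * Real.sqrt (ρ + (1 / 2 : ℝ) ^ E.h + (1 / 2 : ℝ) ^ E.q) ≤ (1 / 2 : ℝ) ^ b →
    Stk.hc P (fun ω => fl b (E.l ω).s) Y ≤ C

end few

/-- screen covector of the functional `∑ π_k X_k` at the ray -/
noncomputable def cov {Ω : Type} (E : Env Ω) (π : Fin 3 → ℝ) (l : Ry) : Fin 2 → ℝ := fun k =>
  π 0 * (![Real.cos E.B0.θ, Real.sin E.B0.θ] : Fin 2 → ℝ) k / 2 + π 1 * l.s k + π 2 * (2 ^ E.q * E.B0.nn l.y l.s k)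

/-- plane section with small screen covector (a circle of small radius) -/
def PFewI : Prop := ∃ C : ℝ, 1 ≤ C ∧ ∀ {Ω : Type} [Fintype Ω] {ζ : Type} (E : Env Ω) (P : Law Ω) (Y : Ω → ζ)
    (π : ζ → Fin 3 → ℝ) (o : ζ → ℝ) (ρ : ℝ) (b : ℕ), E.Supp P → Fn P (E.Zh E.h) Y → 0 ≤ ρ →
    (∀ ω, 0 < P.w ω → (∀ k, |π (Y ω) k| ≤ 1) ∧ (∃ k, |π (Y ω) k| = 1) ∧ (∀ k, |cov E (π (Y ω)) (E.l ω) k| ≤ ρ) ∧
      |∑ k, π (Y ω) k * E.Q ω k - o (Y ω)| ≤ ρ ^ 2) →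
    C * (ρ + Real.sqrt ((2 : ℝ) ^ E.q * (1 / 2 : ℝ) ^ E.h)) ≤ (1 / 2 : ℝ) ^ b →
    Stk.hc P (fun ω => fl b (E.l ω).s) Y ≤ C

/-! ### labels -/

/-- [E1] : label `B0` of level `0` -/
def PE1 : Prop := ∃ C : ℝ, ∀ (p : Par), p.Ok → ∀ {Ω : Type} [Fintype Ω] (E : Env Ω) (P : Law Ω) (μ : ℝ), E.Supp P →
    E.Lab p P μ → mi P E.l (E.Zh E.h) (fun _ => ()) ≤ (3 - p.β) * E.h * Real.log 2 + μ + C

/-- [E2] : label `(h - b; b; b)` -/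
def PE2 : Prop := ∃ C : ℝ, ∀ (p : Par), p.Ok → ∀ {Ω : Type} [Fintype Ω] (E : Env Ω) (P : Law Ω) (μ : ℝ) (b : ℕ), E.Supp P →
    E.Lab p P μ → b ≤ E.h →
    ((p.β - 2 * p.k) * b - (1 + p.k) * E.q) * Real.log 2 - μ - C ≤ Stk.hc P (fun ω => fl b (E.l ω).s) (E.Zh E.h)

/-- [GROW] : label `(h; b; q)` -/
def PGrowE : Prop := ∃ C : ℝ, ∀ (p : Par), p.Ok → ∀ {Ω : Type} [Fintype Ω] (E : Env Ω) (P : Law Ω) (μ : ℝ) (b : ℕ), E.Supp P →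
    E.Lab p P μ → b ≤ E.q →
    (p.lam - p.k) * b * Real.log 2 - μ - C ≤ Stk.hc P (fun ω => fl b (E.l ω).s) (E.Zh E.h)

/-- the slab label at the level `a`, with the side letter, in integers -/
noncomputable def Apl {Ω ζ : Type} (E : Env Ω) (G : Ω → ζ) (π : ζ → Fin 3 → ℝ) (a : ℕ) (ω : Ω) :
    ζ × (ℤ × (Fin 3 → ℤ)) × ℤ :=
  (G ω, E.Zh a ω, fl1 E.h (∑ k, π (G ω) k * (E.X ω k + rd a (E.t ω) * E.Q ω k)))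

/-- [C1-label] : label `(h - r; b; q + r - b - C)`, functional `∑ π_k X_k` divided by the length of its screen covector -/
def PLabC1 : Prop := ∃ C : ℝ, ∀ (p : Par), p.Ok → ∀ {Ω : Type} [Fintype Ω] {ζ : Type} (E : Env Ω) (P : Law Ω) (μ : ℝ)
    (r b s : ℕ) (G : Ω → ζ) (π : ζ → Fin 3 → ℝ) (o : ζ → ℝ), E.Supp P → E.Lab p P μ → 2 * b + C ≤ r → r ≤ E.h → r ≤ s →
    (∀ ω, 0 < P.w ω → (∀ k, |π (G ω) k| ≤ 1) ∧ (∃ k, |π (G ω) k| = 1) ∧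
      |∑ k, π (G ω) k * E.Q ω k - o (G ω)| ≤ (1 / 2 : ℝ) ^ s ∧
      (2 : ℝ) ^ E.q / 2 ^ b ≤ |cov E (π (G ω)) (E.l ω) 0| + |cov E (π (G ω)) (E.l ω) 1|) →
    Stk.hc P E.l (Apl E G π (E.h - r)) ≤
      Stk.hc P E.l (E.Zh E.h) + ((2 - (p.β - p.lam - p.k)) * r + C * (b + 1)) * Real.log 2 + μ

end Vale.Agent.P106.U.End7
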