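import Vale.Agent.P106.U.H785.MtrOk
import Vale.Agent.P106.U.H364.Nhc

/-!
# P106 / U / H459 : price of the letter of the V cells given the cell of the path (helper459)

`Lk` : the path `C` and helper785's data `D` have the same rays, times, time digits, the slab functional of `C` is within
`K 2^-rk` of the true one and has the curvature `D.g i`.
* `u_eq` : `D.u i` is a function of `(C.T i, D.nN i)` up to `4 K 2^-rk`.
* `hc_lt` : `H(D.lt i | C.cell i b, D.pf i) ≤ log (2 ⌈2 K⌉ + 3) + log (2 ⌈8 K⌉ + 3)`.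
-/

set_option autoImplicit false

namespace Vale.Agent.P106.U.H459

open Finset Vale.Agent.P127 Vale.Agent.P127.Stk Vale.Agent.P106.U.Cell Vale.Agent.P106.U.Cell.Pth
open Vale.Agent.P106.U.H785.Mtr
open Vale.Agent.P127.U.CellD (q2 rd q2_pos q2_le fl1_fl1)

variable {Ω τ π : Type}

/-- the path and the true data at the step `i`, one point -/
structure Lk (C : Pth Ω τ) (D : Mtd Ω π) (K : ℝ) (i : ℕ) (ω : Ω) : Prop where
  w1 : |(D.l ω).w| ≤ 2
  ka : |D.κ i ω - (C.F i ω).ka| ≤ K * q2 (D.rk i)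
  cN : |D.un ω - (C.F i ω).cN (C.l ω) (C.s i ω)| ≤ K * q2 (D.rk i)
  ap : |D.al i ω - D.g i ω| * q2 (D.a i) ≤ K * q2 (D.rk i)
  al : (C.F i ω).al = D.g i ω

variable {C : Pth Ω τ} {D : Mtd Ω π} {K : ℝ} {i b : ℕ} {ω ω' : Ω}

lemma s_same (hl : C.t = D.t) (ha : C.a i = D.a i) (ω : Ω) : C.s i ω = D.s i ω := by
  unfold Pth.s Mtd.s
  rw [hl, ha]

/-- gamma (relative) is a function of the letter of the path and of the digits of `N`, up to `4 K` units -/
theorem u_eq (hK : 0 ≤ K) (hl : C.l = D.l) (ht : C.t = D.t) (ha : C.a i = D.a i) (h : Lk C D K i ω) :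
    |D.u i ω - ((C.F i ω).ga - (C.F i ω).al * D.Nr i ω)| ≤ 4 * K * q2 (D.rk i) := by
  have q := q2_pos (D.rk i)
  have e0 : (C.F i ω).cN (C.l ω) (C.s i ω) =
      (C.F i ω).ga - (C.F i ω).ka * (D.l ω).w - (C.F i ω).al * (D.l ω).N (D.s i ω) := by
    rw [s_same ht ha, hl]
    rfl
  have e1 : D.u i ω - ((C.F i ω).ga - (C.F i ω).al * D.Nr i ω) =
      (D.un ω - (C.F i ω).cN (C.l ω) (C.s i ω)) + (D.κ i ω - (C.F i ω).ka) * (D.l ω).w +
        (D.al i ω - D.g i ω) * ((D.l ω).N (D.s i ω) - D.Nr i ω) := by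
    rw [e0, h.al]
    unfold Mtd.u
    ring
  have t1 := h.cN
  have t2 : |(D.κ i ω - (C.F i ω).ka) * (D.l ω).w| ≤ K * q2 (D.rk i) * 2 := by
    rw [abs_mul]
    exact mul_le_mul h.ka h.w1 (abs_nonneg _) (mul_nonneg hK q.le)
  have t3 : |(D.al i ω - D.g i ω) * ((D.l ω).N (D.s i ω) - D.Nr i ω)| ≤ K * q2 (D.rk i) :=
    Mtd.prod_le h.ap (Mtd.Nr_near D i ω)
  rw [e1]
  rw [abs_le] at t1 t2 t3 ⊢
  constructor <;> linarith [t1.1, t1.2, t2.1, t2.2, t3.1, t3.2]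

/-- number of values of the digits of a real number which is known up to `M` units -/
theorem hc_fl1 {Ω : Type} [Fintype Ω] (P : Law Ω) {T : Type*} (x : Ω → ℝ) (Y : Ω → T) (n M : ℕ)
    (h : ∀ ω ω', 0 < P.w ω → 0 < P.w ω' → Y ω' = Y ω → |x ω' - x ω| ≤ M * q2 n) :
    hc P (fun ω => fl1 n (x ω)) Y ≤ Real.log (2 * M + 3) := by
  classical
  have e := hc_le_log P (fun ω => fl1 n (x ω)) Y (2 * M + 3) (fun ω hω => by
    refine ⟨Finset.Icc (fl1 n (x ω) - (M + 1)) (fl1 n (x ω) + (M + 1)), ?_, fun ω' hω' e => ?_⟩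
    · rw [Int.card_Icc]
      have : fl1 n (x ω) + ((M : ℤ) + 1) + 1 - (fl1 n (x ω) - (M + 1)) = ((2 * M + 3 : ℕ) : ℤ) := by
        push_cast; ring
      rw [this, Int.toNat_natCast]
    · have h4 := H364.fl1_le_of_near (h ω ω' hω hω' e)
      rw [Finset.mem_Icc]
      have := abs_le.1 h4
      constructor <;> linarith)
  push_cast at e
  exact e

/-- **price of the letter of the V cell** given the cell of the path and the prefix letter -/
theorem hc_lt [Fintype Ω] (P : Law Ω) (hK : 0 ≤ K) (hl : C.l = D.l) (ht : C.t = D.t) (ha : C.a i = D.a i)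
    (ho : C.o 2 = D.o 2) (hb : C.μ ≤ b) (h : ∀ ω, 0 < P.w ω → Lk C D K i ω) :
    hc P (D.lt i) (fun ω => (C.cell i b ω, D.pf i ω)) ≤
      Real.log (2 * (⌈2 * K⌉₊ : ℕ) + 3) + Real.log (2 * (⌈8 * K⌉₊ : ℕ) + 3) := by
  set Y : Ω → (τ × Pth.Dg) × π := fun ω => (C.cell i b ω, D.pf i ω) with hY
  have hrk : q2 (D.rk i) ≤ q2 (D.rr i) := q2_le (Nat.sub_le _ _)
  have q := q2_pos (D.rk i)
  -- what is determined by the cell
  have hT : ∀ ω ω', Y ω' = Y ω → C.T i ω' = C.T i ω := fun ω ω' e => (cell_iff.1 (congrArg Prod.fst e)).1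
  have hN : ∀ ω ω', Y ω' = Y ω → D.nN i ω' = D.nN i ω := by
    intro ω ω' e
    have h2 := (cell_iff.1 (congrArg Prod.fst e)).2.2 2
    rw [va2, va2, lv2] at h2
    have h3 := fl1_fl1 (show D.a i ≤ C.a i + b - C.μ by omega) h2
    unfold Mtd.nN
    rw [← s_same ht ha, ← s_same ht ha, ← hl, ← ho]
    exact h3
  -- kappa
  have e1 : hc P (D.kN i) Y ≤ Real.log (2 * (⌈2 * K⌉₊ : ℕ) + 3) := by
    refine hc_fl1 P (fun ω => D.κ i ω + D.oκ) Y (D.rr i) ⌈2 * K⌉₊ fun ω ω' p p' e => ?_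
    have a1 := (h ω p).ka
    have a2 := (h ω' p').ka
    rw [F_ka (hT ω ω' e).symm] at a2
    have a3 : (2 * K) * q2 (D.rr i) ≤ (⌈2 * K⌉₊ : ℕ) * q2 (D.rr i) :=
      mul_le_mul_of_nonneg_right (Nat.le_ceil _) (q2_pos _).le
    have a4 : 2 * K * q2 (D.rk i) ≤ 2 * K * q2 (D.rr i) := mul_le_mul_of_nonneg_left hrk (by linarith)
    rw [add_sub_add_right_eq_sub]
    rw [abs_le] at a1 a2 ⊢
    constructor <;> linarith [a1.1, a1.2, a2.1, a2.2]
  -- gamma
  have e2 : hc P (D.uN i) (fun ω => (D.kN i ω, Y ω)) ≤ Real.log (2 * (⌈8 * K⌉₊ : ℕ) + 3) := by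
    refine hc_fl1 P (fun ω => D.u i ω + D.oγ) _ (D.rr i) ⌈8 * K⌉₊ fun ω ω' p p' e => ?_
    have eY : Y ω' = Y ω := congrArg Prod.snd e
    have a1 := u_eq hK hl ht ha (h ω p)
    have a2 := u_eq hK hl ht ha (h ω' p')
    have eN : D.Nr i ω' = D.Nr i ω := by
      unfold Mtd.Nr
      rw [hN ω ω' eY]
    rw [F_ga (hT ω ω' eY).symm, F_al (hT ω ω' eY).symm, eN] at a2
    have a3 : (8 * K) * q2 (D.rr i) ≤ (⌈8 * K⌉₊ : ℕ) * q2 (D.rr i) :=
      mul_le_mul_of_nonneg_right (Nat.le_ceil _) (q2_pos _).le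
    have a4 : 8 * K * q2 (D.rk i) ≤ 8 * K * q2 (D.rr i) := mul_le_mul_of_nonneg_left hrk (by linarith)
    rw [add_sub_add_right_eq_sub]
    rw [abs_le] at a1 a2 ⊢
    constructor <;> linarith [a1.1, a1.2, a2.1, a2.2]
  have e3 := hc_le_add P (D.lt i) (D.kN i) Y
  have e4 := hc_le_add P (D.lt i) (D.uN i) (fun ω => (D.kN i ω, Y ω))
  have e5 : hc P (D.lt i) (fun ω => (D.uN i ω, (D.kN i ω, Y ω))) = 0 := by
    refine hc_zero P fun ω ω' p p' e => ?_
    simp only [Prod.mk.injEq] at e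
    obtain ⟨f1, f2, f3⟩ := e
    have f4 : fl1 (D.a i) (D.t ω) = fl1 (D.a i) (D.t ω') := by
      have g1 := hT ω' ω f3
      have g2 := C.htm i ω
      have g3 := C.htm i ω'
      rw [← g1] at g3
      have g4 := g2.symm.trans g3
      rwa [ht, ha] at g4
    have f5 : D.pf i ω = D.pf i ω' := congrArg Prod.snd f3
    unfold Mtd.lt
    rw [f4, f5, f2, f1, hN ω' ω f3]
  linarith

end Vale.Agent.P106.U.H459
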