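import Vale.Agent.P106.U.H336.Sw
import Vale.Agent.P106.U.H931.Nxt
import Vale.Agent.P106.U.MIC.PSat
import Vale.Agent.P106.U.S3.F2

/-!
# P106 / U / H459 : [XE], the time steps without reading index or without regime (helper459)

`f = ix R i0`, `a = az R i0`, `N = nz R i0` : the compressed path.  For an a-step `j` the reading index, `d` levels after the level of
`f (j + 1)`, is `rxI R i0 d j` (the a-step of this level).

* `rx_spec` : the reading index, if the level exists; `rx_at` : it is in `At' R p B d (f (j + 1))` if there are `≤ B` unit steps.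
* `id_of` : an index outside the levels of `Xs` is in `IdO`, `IdK` or `IdP`.
* `XA`, `XT` : the exceptional a-steps of helper357's `eH`; `XA_spec`.
* `card_XT` : at most `#(SwL d) + d + 2`;  **`XT_le`** : `m #XT ≤ small h`.
-/

set_option autoImplicit false

namespace Vale.Agent.P106.U.H459

open Finset Vale.Agent.P127 Vale.Agent.P127.Stk
open Vale.Agent.P106.U.S3
open Vale.Agent.P106.U.MIC (bc ix az rz nz)
open Vale.Agent.P106.U.H833 (aN RN lev_a aN_mono)
open Vale.Agent.P106.U.H118 (Sdat)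
open Vale.Agent.P106.U.H823
open Vale.Agent.P106.U.H931 (nx lvi nx_le le_nx nx_spec nx_const a_lvi lvi_le_n)
open Vale.Agent.P106.U.H336 (SwL)

section

variable {Ω : Type} [Fintype Ω] {τ υ π : Type} {R : Run Ω τ υ} {p : Run.Num} {F : Pf R π} {K : ℝ} {B bS bV : ℕ}
  {Vs Xs : Finset ℕ}

/-! ### the regime -/

/-- an index outside the exceptional levels is of one of the three kinds -/
theorem id_of (h : F2 R p K B bS bV F Vs Xs) (hm : 1 ≤ R.m) (hB : 1 ≤ B) {k : ℕ} (k1 : 1 ≤ k) (kn : k ≤ R.n)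
    (hX : lv R k ∉ Xs) : k ∈ IdO R Vs Xs ∨ k ∈ IdK R Vs Xs ∨ k ∈ IdP R F B Vs Xs := by
  classical
  by_cases hV : lv R k ∈ Vs
  · right
    have h1 := h.reg k k1 kn hV hX
    have h2 := h.loS
    have h3 := h.loV
    have h4 : 0 < R.m * B := Nat.mul_pos hm hB
    rw [Nat.mul_add] at h2
    rcases h1 with h1 | h1
    · left
      unfold IdK
      rw [Finset.mem_filter, Finset.mem_Icc]
      exact ⟨⟨k1, kn⟩, hV, hX, by omega⟩
    · right
      unfold IdP
      rw [Finset.mem_filter, Finset.mem_Icc]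
      exact ⟨⟨k1, kn⟩, hV, hX, h1⟩
  · left
    unfold IdO
    rw [Finset.mem_filter, Finset.mem_Icc]
    exact ⟨⟨k1, kn⟩, hV, hX⟩

/-! ### the reading index -/

/-- the reading index of the a-step `j` -/
noncomputable def rxI (R : Run Ω τ υ) (i0 d j : ℕ) : ℕ :=
  ix R i0 (nx (nz R i0) (az R i0) (lvi (nz R i0) (az R i0) (az R i0 (j + 1) + d)))

variable {i0 : ℕ} {g : ℕ → Prop}

theorem ix_n (i0 j : ℕ) : ix R i0 j ≤ R.n := Cmp.idx_le _

/-- the a-steps of the compressed path are time steps of the run -/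
theorem isA_of (hP : R.Path p) {q : ℕ} (hq : q < nz R i0) (h : az R i0 (q + 1) = az R i0 q + 1) : R.IsA (ix R i0 q) := by
  have h1 : i0 + q < Cmp.Nc R R.b1 := by
    unfold nz at hq
    omega
  rcases Cmp.step2 (x := R.b1) hP h1 with ⟨h2, _⟩ | ⟨_, h2, _⟩
  · exact h2
  · exfalso
    have h3 : az R i0 (q + 1) = az R i0 q := h2
    omega

theorem ix_strict (hP : R.Path p) {j k : ℕ} (h : j < k) (hj : j < nz R i0) : ix R i0 j < ix R i0 k :=
  Cmp.idx_strict hP (Nat.add_lt_add_left h i0) (by unfold nz at hj; omega)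

theorem a_ix (hP : R.Path p) (j : ℕ) : R.C.a (ix R i0 j) = R.m * az R i0 j :=
  lev_a hP (by have := ix_n (R := R) i0 j; omega)

/-- **the reading index** -/
theorem rx_spec (hP : R.Path p) (D : Sdat (nz R i0) g (az R i0) (rz R i0)) {d j : ℕ} (hd : 1 ≤ d) (hj : j < nz R i0)
    (hl : az R i0 (j + 1) + d < az R i0 (nz R i0)) :
    ∃ q, q < nz R i0 ∧ j + 1 < q ∧ az R i0 q = az R i0 (j + 1) + d ∧ az R i0 (q + 1) = az R i0 q + 1 ∧
      rxI R i0 d j = ix R i0 q ∧ R.IsA (rxI R i0 d j) ∧ ix R i0 (j + 1) < rxI R i0 d j ∧ rxI R i0 d j ≤ R.n ∧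
      R.C.a (rxI R i0 d j) = R.C.a (ix R i0 (j + 1)) + d * R.m := by
  set a := az R i0 with ha
  set N := nz R i0 with hN
  set y := lvi N a (a (j + 1) + d) with hy
  have h0 : a 0 ≤ a (j + 1) := D.am (Nat.zero_le _) hj
  have e1 : a y = a (j + 1) + d := a_lvi D (by omega) le_rfl hl.le
  have y1 : y ≤ N := lvi_le_n N a _
  have q1 : y ≤ nx N a y := le_nx y1
  have e2 : a (nx N a y) = a y := nx_const D q1 le_rfl
  have q2 : nx N a y < N := by
    refine lt_of_le_of_ne (nx_le N a y) fun h => ?_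
    rw [h] at e2
    omega
  have q3 := nx_spec q2
  have q4 : j + 1 < nx N a y := by
    by_contra hcon
    have := D.am (i := nx N a y) (j := j + 1) (by omega) hj
    omega
  have hr : rxI R i0 d j = ix R i0 (nx N a y) := rfl
  refine ⟨nx N a y, q2, q4, by omega, q3, hr, ?_, ?_, ?_, ?_⟩
  · rw [hr]
    exact isA_of hP q2 q3
  · rw [hr]
    exact ix_strict hP q4 (by omega)
  · rw [hr]
    exact ix_n _ _
  · rw [hr, a_ix hP, a_ix hP]
    have : az R i0 (nx N a y) = az R i0 (j + 1) + d := by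
      rw [← ha]
      omega
    rw [this]
    ring

/-- it is a pair of the sums if there are few unit steps -/
theorem rx_at (hP : R.Path p) (D : Sdat (nz R i0) g (az R i0) (rz R i0)) {d j : ℕ} (hd : 1 ≤ d) (hj : j < nz R i0)
    (hl : az R i0 (j + 1) + d < az R i0 (nz R i0)) (hB : rxI R i0 d j ≤ ix R i0 (j + 1) + B) :
    rxI R i0 d j ∈ At' R p B d (ix R i0 (j + 1)) := by
  classical
  obtain ⟨q, q1, q2, q3, q4, q5, q6, q7, q8, q9⟩ := rx_spec hP D hd hj hl
  unfold At'
  rw [Finset.mem_filter, Finset.mem_range]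
  exact ⟨by omega, q7, hB, by omega, q9, q6⟩

/-! ### the exceptional a-steps -/

open Classical in
/-- the a-steps whose reading index is not a pair of the sums -/
noncomputable def XA (R : Run Ω τ υ) (p : Run.Num) (B i0 d : ℕ) : Finset ℕ :=
  (range (nz R i0)).filter fun j => az R i0 (j + 1) = az R i0 j + 1 ∧ rxI R i0 d j ∉ At' R p B d (ix R i0 (j + 1))

open Classical in
/-- all exceptional a-steps -/
noncomputable def XT (R : Run Ω τ υ) (p : Run.Num) (F : Pf R π) (B : ℕ) (Vs Xs : Finset ℕ) (i0 d : ℕ) : Finset ℕ :=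
  (range (nz R i0)).filter fun j => az R i0 (j + 1) = az R i0 j + 1 ∧ (rxI R i0 d j ∉ At' R p B d (ix R i0 (j + 1)) ∨
    (ix R i0 (j + 1) ∉ IdO R Vs Xs ∧ ix R i0 (j + 1) ∉ IdK R Vs Xs ∧ ix R i0 (j + 1) ∉ IdP R F B Vs Xs))

theorem XA_sub (d : ℕ) : XA R p B i0 d ⊆ XT R p F B Vs Xs i0 d := by
  classical
  intro j hj
  unfold XA at hj
  unfold XT
  rw [Finset.mem_filter] at hj ⊢
  exact ⟨hj.1, hj.2.1, Or.inl hj.2.2⟩

/-- outside `XA` the reading index is behind the index, `d` levels later -/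
theorem XA_spec {d j : ℕ} (hj : j < nz R i0) (ha : az R i0 (j + 1) = az R i0 j + 1) (hX : j ∉ XA R p B i0 d) :
    rxI R i0 d j ∈ At' R p B d (ix R i0 (j + 1)) ∧ ix R i0 (j + 1) < rxI R i0 d j ∧ rxI R i0 d j ≤ R.n + p.J ∧
      R.C.a (rxI R i0 d j) = R.C.a (ix R i0 (j + 1)) + d * R.m ∧ R.IsA (rxI R i0 d j) := by
  classical
  have h1 : rxI R i0 d j ∈ At' R p B d (ix R i0 (j + 1)) := by
    by_contra hcon
    refine hX ?_
    unfold XA
    rw [Finset.mem_filter, Finset.mem_range]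
    exact ⟨hj, ha, hcon⟩
  have h2 := h1
  unfold At' at h2
  rw [Finset.mem_filter] at h2
  obtain ⟨_, g1, g2, g3, g4, g5⟩ := h2
  exact ⟨h1, g1, g3, g4, g5⟩

/-- outside `XT` -/
theorem XT_spec {d j : ℕ} (hj : j < nz R i0) (ha : az R i0 (j + 1) = az R i0 j + 1) (hX : j ∉ XT R p F B Vs Xs i0 d) :
    rxI R i0 d j ∈ At' R p B d (ix R i0 (j + 1)) ∧
      (ix R i0 (j + 1) ∈ IdO R Vs Xs ∨ ix R i0 (j + 1) ∈ IdK R Vs Xs ∨ ix R i0 (j + 1) ∈ IdP R F B Vs Xs) := by
  classical
  refine ⟨(XA_spec hj ha fun h => hX (XA_sub d h)).1, ?_⟩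
  by_contra hcon
  push Not at hcon
  refine hX ?_
  unfold XT
  rw [Finset.mem_filter, Finset.mem_range]
  exact ⟨hj, ha, Or.inr hcon⟩

/-- a-steps with different levels -/
theorem step_inj' (D : Sdat (nz R i0) g (az R i0) (rz R i0)) {j k : ℕ} (hj : j < nz R i0) (hk : k < nz R i0)
    (h1 : az R i0 (j + 1) = az R i0 j + 1) (h2 : az R i0 (k + 1) = az R i0 k + 1)
    (h : az R i0 (j + 1) = az R i0 (k + 1)) : j = k := by
  rcases lt_trichotomy j k with h3 | h3 | h3
  · have := D.am (by omega : j + 1 ≤ k) hk.le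
    omega
  · exact h3
  · have := D.am (by omega : k + 1 ≤ j) hj.le
    omega

/-- **the number** of the exceptional a-steps -/
theorem card_XT (hP : R.Path p) (D : Sdat (nz R i0) g (az R i0) (rz R i0)) (h : F2 R p K B bS bV F Vs Xs) (hB : 1 ≤ B)
    {d : ℕ} (hd : 1 ≤ d) : (XT R p F B Vs Xs i0 d).card ≤ (SwL R B Vs Xs d).card + (d + 1) := by
  classical
  set S1 := (XT R p F B Vs Xs i0 d).filter fun j => az R i0 (j + 1) ∈ SwL R B Vs Xs d with hS1
  set S2 := (XT R p F B Vs Xs i0 d).filter fun j => az R i0 (nz R i0) ≤ az R i0 (j + 1) + d with hS2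
  have mem : ∀ j ∈ XT R p F B Vs Xs i0 d, j < nz R i0 ∧ az R i0 (j + 1) = az R i0 j + 1 := by
    intro j hj
    unfold XT at hj
    rw [Finset.mem_filter, Finset.mem_range] at hj
    exact ⟨hj.1, hj.2.1⟩
  have c1 : S1.card ≤ (SwL R B Vs Xs d).card := by
    refine Finset.card_le_card_of_injOn (fun j => az R i0 (j + 1)) ?_ ?_
    · intro j hj
      rw [hS1, Finset.mem_coe, Finset.mem_filter] at hj
      exact hj.2
    · intro j hj k hk e
      rw [hS1, Finset.mem_coe, Finset.mem_filter] at hj hk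
      obtain ⟨a1, a2⟩ := mem j hj.1
      obtain ⟨b1, b2⟩ := mem k hk.1
      exact step_inj' D a1 b1 a2 b2 e
  have c2 : S2.card ≤ d + 1 := by
    have h2 : S2.card ≤ (Icc (az R i0 (nz R i0) - d) (az R i0 (nz R i0))).card := by
      refine Finset.card_le_card_of_injOn (fun j => az R i0 (j + 1)) ?_ ?_
      · intro j hj
        rw [hS2, Finset.mem_coe, Finset.mem_filter] at hj
        obtain ⟨a1, a2⟩ := mem j hj.1
        have := D.am (by omega : j + 1 ≤ nz R i0) le_rfl
        rw [Finset.mem_coe, Finset.mem_Icc]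
        have h3 := hj.2
        simp only
        omega
      · intro j hj k hk e
        rw [hS2, Finset.mem_coe, Finset.mem_filter] at hj hk
        obtain ⟨a1, a2⟩ := mem j hj.1
        obtain ⟨b1, b2⟩ := mem k hk.1
        exact step_inj' D a1 b1 a2 b2 e
    rw [Nat.card_Icc] at h2
    omega
  have c3 : XT R p F B Vs Xs i0 d ⊆ S1 ∪ S2 := by
    intro j hj
    rw [Finset.mem_union, hS1, hS2, Finset.mem_filter, Finset.mem_filter]
    by_contra hcon
    rw [not_or] at hcon
    obtain ⟨n1, n2⟩ := hcon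
    have n1' : az R i0 (j + 1) ∉ SwL R B Vs Xs d := fun h' => n1 ⟨hj, h'⟩
    have n2' : az R i0 (j + 1) + d < az R i0 (nz R i0) := by
      by_contra h'
      exact n2 ⟨hj, by omega⟩
    obtain ⟨a1, a2⟩ := mem j hj
    have hlev : aN R (ix R i0 (j + 1)) = az R i0 (j + 1) := rfl
    have hln : az R i0 (j + 1) ≤ aN R R.n := aN_mono hP (ix_n i0 (j + 1)) (by omega)
    obtain ⟨q, q1, q2, q3, q4, q5, q6, q7, q8, q9⟩ := rx_spec hP D hd a1 n2'
    have hst : rxI R i0 d j ≤ ix R i0 (j + 1) + B := by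
      refine H336.steps (Vs := Vs) (Xs := Xs) (z0 := az R i0 (j + 1)) (z1 := az R i0 (j + 1)) (L := d) le_rfl hln hP ?_ hlev.ge hlev.le q7.le q8 ?_
      · intro z z1 z2
        have : z = az R i0 (j + 1) := by omega
        rw [this]
        exact n1'
      · have h5 : aN R (rxI R i0 d j) = az R i0 q := by
          rw [q5]
          rfl
        omega
    have hat := rx_at (B := B) hP D hd a1 n2' hst
    have hX : lv R (ix R i0 (j + 1)) ∉ Xs := by
      have h6 := H336.no_evt (R := R) (B := B) (Vs := Vs) (Xs := Xs) (L := d) (z0 := az R i0 (j + 1)) (z1 := az R i0 (j + 1))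
        (y := az R i0 (j + 1)) le_rfl hln (by
          intro z z1 z2
          have : z = az R i0 (j + 1) := by omega
          rw [this]
          exact n1') le_rfl (by omega)
      unfold H336.Evt at h6
      push Not at h6
      exact h6.2.1
    have h1 : 1 ≤ ix R i0 (j + 1) := by
      have := ix_strict (i0 := i0) (j := j) (k := j + 1) hP (by omega) a1
      omega
    have hid := id_of h hP.m1 hB h1 (ix_n i0 (j + 1)) hX
    unfold XT at hj
    rw [Finset.mem_filter] at hj
    rcases hj.2.2 with h7 | ⟨h7, h8, h9⟩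
    · exact h7 hat
    · rcases hid with h' | h' | h'
      · exact h7 h'
      · exact h8 h'
      · exact h9 h'
  have c4 := Finset.card_le_card c3
  have c5 := Finset.card_union_le S1 S2
  omega

/-- **[XE]** relative form -/
theorem XT_le (hP : R.Path p) (D : Sdat (nz R i0) g (az R i0) (rz R i0)) (h : F2 R p K B bS bV F Vs Xs) (hB : 1 ≤ B)
    {K1 : ℝ} (hq : (R.q : ℝ) ≤ R.r0 + (K1 + 1) * R.h) {d : ℕ} (hd : 1 ≤ d) :
    (R.m : ℝ) * (XT R p F B Vs Xs i0 d).card ≤
      (d + 1) * (4 + (d + 1) * (2 * K1 + 3)) * (R.h / B) + (d + 1) * (d + 3) * R.m := by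
  have h1 := card_XT hP D h hB hd
  have h2 := H336.SwL_le hP hq d hB h.runs h.xs
  have h3 : ((XT R p F B Vs Xs i0 d).card : ℝ) ≤ (SwL R B Vs Xs d).card + (d + 1) := by exact_mod_cast h1
  have h4 := mul_le_mul_of_nonneg_left h3 (Nat.cast_nonneg (α := ℝ) R.m)
  nlinarith

end

end Vale.Agent.P106.U.H459
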