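import Vale.Agent.P106.U.H459.XE

/-!
# P106 / U / H459 : the time steps whose reading step is not good (helper459)

* `XB R i0 E` : the a-steps `j` of the compressed path whose next a-step `nx (j + 1)` (same level as `j + 1`) is in `E` or is the end.
* `XB_good` : outside `XB` the next a-step is good.
* `card_XB` : at most `#E + 1`.
-/

set_option autoImplicit false

namespace Vale.Agent.P106.U.H459

open Finset Vale.Agent.P127 Vale.Agent.P127.Stk
open Vale.Agent.P106.U.S3
open Vale.Agent.P106.U.MIC (bc ix az rz nz)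
open Vale.Agent.P106.U.H833 (aN RN lev_a aN_mono)
open Vale.Agent.P106.U.H118 (Sdat)
open Vale.Agent.P106.U.H931 (nx nx_le le_nx nx_spec nx_const)

section

variable {Ω : Type} [Fintype Ω] {τ υ : Type} {R : Run Ω τ υ} {i0 : ℕ} {g : ℕ → Prop}

open Classical in
/-- **the a-steps whose next a-step is in `E`** or the end -/
noncomputable def XB (R : Run Ω τ υ) (i0 : ℕ) (E : Finset ℕ) : Finset ℕ :=
  (range (nz R i0)).filter fun j => az R i0 (j + 1) = az R i0 j + 1 ∧
    nx (nz R i0) (az R i0) (j + 1) ∈ insert (nz R i0) E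

variable {E : Finset ℕ} {j : ℕ}

/-- **the next a-step is good**, of the level of `j + 1` -/
theorem XB_good (D : Sdat (nz R i0) g (az R i0) (rz R i0))
    (hE : ∀ i < nz R i0, az R i0 (i + 1) = az R i0 i + 1 → ¬ g i → i ∈ E) (hj : j < nz R i0)
    (ha : az R i0 (j + 1) = az R i0 j + 1) (hX : j ∉ XB R i0 E) :
    nx (nz R i0) (az R i0) (j + 1) < nz R i0 ∧ j + 1 ≤ nx (nz R i0) (az R i0) (j + 1) ∧
      az R i0 (nx (nz R i0) (az R i0) (j + 1)) = az R i0 (j + 1) ∧
      az R i0 (nx (nz R i0) (az R i0) (j + 1) + 1) = az R i0 (nx (nz R i0) (az R i0) (j + 1)) + 1 ∧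
      g (nx (nz R i0) (az R i0) (j + 1)) := by
  classical
  unfold XB at hX
  rw [Finset.mem_filter, Finset.mem_range] at hX
  push Not at hX
  have n1 := hX hj ha
  rw [Finset.mem_insert, not_or] at n1
  have h1 : j + 1 ≤ nx (nz R i0) (az R i0) (j + 1) := le_nx (by omega)
  have h2 : az R i0 (nx (nz R i0) (az R i0) (j + 1)) = az R i0 (j + 1) := nx_const D h1 le_rfl
  have h3 : nx (nz R i0) (az R i0) (j + 1) < nz R i0 := lt_of_le_of_ne (nx_le _ _ _) n1.1
  refine ⟨h3, h1, h2, nx_spec h3, ?_⟩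
  by_contra hcon
  exact n1.2 (hE _ h3 (nx_spec h3) hcon)

/-- **the number** -/
theorem card_XB (D : Sdat (nz R i0) g (az R i0) (rz R i0)) (E : Finset ℕ) : (XB R i0 E).card ≤ E.card + 1 := by
  classical
  have mem : ∀ j ∈ XB R i0 E, j < nz R i0 ∧ az R i0 (j + 1) = az R i0 j + 1 ∧
      nx (nz R i0) (az R i0) (j + 1) ∈ insert (nz R i0) E := by
    intro j hj
    unfold XB at hj
    rw [Finset.mem_filter, Finset.mem_range] at hj
    exact hj
  refine le_trans (Finset.card_le_card_of_injOn (fun j => nx (nz R i0) (az R i0) (j + 1)) (t := insert (nz R i0) E) ?_ ?_)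
    (Finset.card_insert_le _ _)
  · intro j hj
    exact Finset.mem_coe.2 (mem j (Finset.mem_coe.1 hj)).2.2
  · intro j hj k hk e
    obtain ⟨a1, a2, _⟩ := mem j (Finset.mem_coe.1 hj)
    obtain ⟨b1, b2, _⟩ := mem k (Finset.mem_coe.1 hk)
    have e1 : az R i0 (nx (nz R i0) (az R i0) (j + 1)) = az R i0 (j + 1) := nx_const D (le_nx (by omega)) le_rfl
    have e2 : az R i0 (nx (nz R i0) (az R i0) (k + 1)) = az R i0 (k + 1) := nx_const D (le_nx (by omega)) le_rfl
    simp only at e
    rw [e] at e1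
    exact step_inj' D a1 b1 a2 b2 (e1.symm.trans e2)

end

end Vale.Agent.P106.U.H459
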