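import Vale.Agent.P106.U.H611.Props2

/-!
# P106 / U / H459 : the dichotomy, superseded by `U/H495/DichDefs.lean` (not used)

Lines `s ↦ X + s Q` of `R^(1+d)`, time `t`, side variable `A`, window `[a0, h]`, block size `m = log2 h / K`.
Either the velocity is, up to `2^-sg`, in a slab which is a function of a variable `w` which is nearly a function of
the end and of `A`, or for many values of a letter `e` of small entropy the ray is saturated on the window,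
provided that the time is active.
* users: `PEnd7` (`d = 3`, `A = ()`), `PC1` (`d = 2`, `A` = slab label); owner of the proof: helper495, from `PWord`,
  `PGood`, `PPat`, `PCov`, `PWsum`, `PWcr`, `PCore`.
-/

set_option autoImplicit false

namespace Vale.Agent.P106.U.EndA.H459

open Finset Vale.Agent.P127 Vale.Agent.P127.Stk Vale.Agent.P127.U.CellD Vale.Agent.P127.U.Mic

/-- the end: time and position at the level `h` -/
noncomputable def endc {Ω : Type} {d : ℕ} (X Q : Ω → Fin d → ℝ) (t : Ω → ℝ) (h : ℕ) (ω : Ω) : ℤ × (Fin d → ℤ) :=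
  (fl1 h (t ω), fun l => fl1 h (X ω l + rd h (t ω) * Q ω l))

/-- the law `P'` is saturated on the window, if the time is active -/
def Satd {Ω : Type} [Fintype Ω] {d : ℕ} {α : Type} (P' : Law Ω) (X Q : Ω → Fin d → ℝ) (t : Ω → ℝ) (A : Ω → α)
    (w : Ω → Sta d) (a0 h m n : ℕ) (ε0 ε1 : ℝ) : Prop :=
  m * ∑ i ∈ range n, colp P' (fun ω => fl1 (a0 + m * (i + 1)) (t ω))
      (fun ω => ((X ω, Q ω), (A ω, w ω), fl1 (a0 + m * i) (t ω))) ≤ ε0 * h →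
    (d : ℝ) * ((h : ℝ) - a0) * Real.log 2 - ε1 * h ≤
      mi P' (fun ω => (X ω, Q ω)) (endc X Q t h) (fun ω => (A ω, fl1 a0 (t ω)))

/-- **[DICH]** -/
def PDich (d : ℕ) : Prop := ∃ K : ℕ, 1 ≤ K ∧ ∀ ε1 : ℝ, 0 < ε1 → ∃ ε0 : ℝ, 0 < ε0 ∧ ∃ s1 : ℝ, 0 < s1 ∧
  ∀ s δ : ℝ, 0 < s → s ≤ s1 → 0 < δ → ∃ c1 : ℝ, 0 < c1 ∧ ∃ h0 : ℕ,
  ∀ {Ω : Type} [Fintype Ω] {α : Type} (P : Law Ω) (X Q : Ω → Fin d → ℝ) (t : Ω → ℝ) (A : Ω → α) (a0 h : ℕ),
    (∀ ω, 0 < P.w ω → (∀ l, |Q ω l| ≤ 1) ∧ 0 ≤ t ω ∧ t ω ≤ 1) → h0 ≤ h → s * h ≤ a0 → a0 ≤ h →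
    ∃ (n sg : ℕ) (w : Ω → Sta d) (π : Sta d → Fin d → ℝ) (o : Sta d → ℝ),
      a0 + (Nat.log 2 h / K) * n ≤ h ∧ s * h / (2 * d) ≤ sg ∧
      (∀ x, (∀ l, |π x l| ≤ 1) ∧ ∃ l, |π x l| = 1) ∧
      (∀ ω, 0 < P.w ω → |∑ l, π (w ω) l * Q ω l - o (w ω)| ≤ (1 / 2 : ℝ) ^ sg) ∧
      Fn P w (fun ω => ((endc X Q t h ω, A ω), Q ω)) ∧
      (∀ P' : Law Ω, (∀ ω, 0 < P'.w ω → 0 < P.w ω) → hc P' w Q ≤ K * s * h) ∧
      (hc P w (fun ω => (endc X Q t h ω, A ω)) ≤ δ * h ∨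
        ∃ e : Ω → Finset ℕ, hc P e (fun _ => ()) ≤ δ * h ∧
          c1 ≤ prE P (fun ω => Satd (P.cond e (e ω)) X Q t A w a0 h (Nat.log 2 h / K) n ε0 ε1))

end Vale.Agent.P106.U.EndA.H459
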