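import Vale.Agent.P106.U.H459.C1Props
import Vale.Agent.P106.U.H495.DichDefs

/-!
# P106 / U / H459 : END7 from its blocks

`pEnd7_of : EndA.PDich 3 → PC1 → PE1 → PEnd7`.
-/

set_option autoImplicit false

namespace Vale.Agent.P106.U.End7

open Finset Vale.Agent.P127 Vale.Agent.P127.Stk Vale.Agent.P127.U.CellD Vale.Agent.P127.U.Mic Vale.Agent.P106.W
open Vale.Agent.P106.K (Ry RyOk bl Bin)
open Vale.Agent.P122.C2 (fw fn)
open Vale.Agent.P106.U.EndA (PDich DhOk DfOk PsOk Zhd)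

variable {Ω : Type} (E : Env Ω)

/-- the support passes to dominated laws -/
theorem Env.Supp.dom [Fintype Ω] {E : Env Ω} {P P' : Law Ω} (hS : E.Supp P) (h : ∀ ω, 0 < P'.w ω → 0 < P.w ω) :
    E.Supp P' where
  ok := fun ω hω => hS.ok ω (h ω hω)
  u2 := hS.u2
  u1 := hS.u1
  α8 := hS.α8
  κ8 := hS.κ8
  p1 := hS.p1
  v1 := hS.v1
  inn := fun ω hω => hS.inn ω (h ω hω)
  hL := hS.hL

/-- the velocity is in the unit cube -/
theorem Q_le [Fintype Ω] {P : Law Ω} (hS : E.Supp P) {ω : Ω} (hω : 0 < P.w ω) (k : Fin 3) : |E.Q ω k| ≤ 1 := by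
  obtain ⟨⟨_, hs, _⟩, _, _⟩ := hS.ok ω hω
  have hi := hS.inn ω hω
  have hg : |E.B0.g1 (E.l ω).y (E.l ω).s (E.l ω).z| ≤ E.B0.u1 := hi.2.2.2.2
  fin_cases k
  · change |fw E.B0.θ (E.l ω).s / 2| ≤ 1
    unfold fw
    have h0 := abs_le.1 (hs 0)
    have h1 := abs_le.1 (hs 1)
    have hc := Real.abs_cos_le_one E.B0.θ
    have hsn := Real.abs_sin_le_one E.B0.θ
    rw [abs_div, abs_two, div_le_one (by norm_num)]
    refine (abs_add_le _ _).trans ?_
    rw [abs_mul, abs_mul]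
    have := mul_le_mul hc (hs 0) (abs_nonneg _) zero_le_one
    have := mul_le_mul hsn (hs 1) (abs_nonneg _) zero_le_one
    linarith
  · change |(∑ k, (E.l ω).s k ^ 2) / 2| ≤ 1
    rw [Fin.sum_univ_two]
    have h0 : (E.l ω).s 0 ^ 2 ≤ 1 := by
      have := abs_le.1 (hs 0)
      nlinarith [this.1, this.2]
    have h1 : (E.l ω).s 1 ^ 2 ≤ 1 := by
      have := abs_le.1 (hs 1)
      nlinarith [this.1, this.2]
    rw [abs_of_nonneg (by positivity)]
    linarith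
  · change |2 ^ E.q * E.B0.g1 (E.l ω).y (E.l ω).s (E.l ω).z| ≤ 1
    rw [abs_mul, abs_of_nonneg (by positivity)]
    calc (2 : ℝ) ^ E.q * |E.B0.g1 (E.l ω).y (E.l ω).s (E.l ω).z| ≤ 2 ^ E.q * (1 / 2 : ℝ) ^ E.q := by
          rw [← hS.u1]
          exact mul_le_mul_of_nonneg_left hg (by positivity)
      _ = 1 := by
          rw [← mul_pow]
          norm_num

/-- an earlier cell is known given a later one up to `O(1)` -/
theorem hc_zh [Fintype Ω] {P : Law Ω} (hS : E.Supp P) {a b : ℕ} (hab : a ≤ b) :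
    hc P (E.Zh a) (E.Zh b) ≤ 3 * Real.log 5 := by
  have h1 : hc P (E.Zh a) (E.Zh b) ≤ hc P (fun ω => (E.Zh a ω).2) (E.Zh b) := by
    refine hc_mono_left P ?_
    intro ω ω' _ _ e
    have e1 : (E.Zh a ω).2 = (E.Zh a ω').2 := congrArg Prod.fst e
    have e2 : E.Zh b ω = E.Zh b ω' := congrArg Prod.snd e
    refine Prod.ext ?_ e1
    exact fl1_fl1 hab (congrArg Prod.fst e2)
  refine h1.trans ?_
  have h2 := hc_sub_le P (fun ω => (E.Zh a ω).2)
    (fun ω => fun k => fl1 a (E.X ω k + rd b (E.t ω) * E.Q ω k)) (E.Zh b) 2 (by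
      intro ω hω k
      change |fl1 a (E.X ω k + rd a (E.t ω) * E.Q ω k) - fl1 a (E.X ω k + rd b (E.t ω) * E.Q ω k)| ≤ 2
      refine fl1_near ?_
      have e : E.X ω k + rd a (E.t ω) * E.Q ω k - (E.X ω k + rd b (E.t ω) * E.Q ω k) =
          -((rd b (E.t ω) - rd a (E.t ω)) * E.Q ω k) := by ring
      rw [e, abs_neg, abs_mul]
      calc |rd b (E.t ω) - rd a (E.t ω)| * |E.Q ω k| ≤ q2 a * 1 :=
            mul_le_mul (rd_sub hab _) (Q_le E hS hω k) (abs_nonneg _) (q2_pos a).le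
        _ = q2 a := mul_one _)
  have h3 : hc P (fun ω => fun k => fl1 a (E.X ω k + rd b (E.t ω) * E.Q ω k)) (E.Zh b) = 0 := by
    refine hc_zero P ?_
    intro ω ω' _ _ e
    funext k
    exact fl1_fl1 hab (congrFun (congrArg Prod.snd e) k)
  rw [h3, Fintype.card_fin] at h2
  norm_num at h2
  exact h2

/-- the end `Zhd` of the system is the cell `Zh` -/
theorem zhd_eq (a : ℕ) : Zhd E.X E.Q E.t a = E.Zh a := rfl

/-- `Zh a` is a function of the ray and of the time -/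
theorem zh_fn [Fintype Ω] (P : Law Ω) (a : ℕ) : Fn P (E.Zh a) (fun ω => (E.l ω, fl1 a (E.t ω))) := by
  intro ω ω' _ _ e
  simp only [Prod.mk.injEq] at e
  obtain ⟨e1, e2⟩ := e
  unfold Env.Zh Env.X Env.Q rd
  rw [e1, e2]

theorem xq_fn [Fintype Ω] (P : Law Ω) : Fn P (fun ω => (E.X ω, E.Q ω)) E.l := by
  intro ω ω' _ _ e
  simp only
  unfold Env.X Env.Q
  rw [e]

/-- case A : the information about the ray in the end at the level `a` -/
theorem mi_case [Fintype Ω] {P : Law Ω} (hS : E.Supp P) {a0 a : ℕ} (h0 : a0 ≤ a) (ha : a ≤ E.h) :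
    mi P (fun ω => (E.X ω, E.Q ω)) (Zhd E.X E.Q E.t a) (fun ω => ((), fl1 a0 (E.t ω))) ≤
      mi P E.l (E.Zh E.h) (fun _ => ()) + 3 * Real.log 5 := by
  rw [zhd_eq]
  have h1 : mi P (fun ω => (E.X ω, E.Q ω)) (E.Zh a) (fun ω => ((), fl1 a0 (E.t ω))) ≤
      mi P (fun ω => (E.X ω, E.Q ω)) (E.Zh a) (fun _ => ()) := by
    have e1 := mi_pair P (fun ω => (E.X ω, E.Q ω)) (fun ω => ((), fl1 a0 (E.t ω))) (E.Zh a) (fun _ => ())
    have e2 : mi P (fun ω => (E.X ω, E.Q ω)) (fun ω => (((), fl1 a0 (E.t ω)), E.Zh a ω)) (fun _ => ()) ≤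
        mi P (fun ω => (E.X ω, E.Q ω)) (E.Zh a) (fun _ => ()) := by
      refine mi_mono_right P _ ?_
      intro ω ω' _ _ e
      have e3 : E.Zh a ω = E.Zh a ω' := congrArg Prod.fst e
      simp only [Prod.mk.injEq, true_and]
      exact ⟨fl1_fl1 h0 (congrArg Prod.fst e3), e3⟩
    have e4 := mi_nonneg P (fun ω => (E.X ω, E.Q ω)) (fun ω => ((), fl1 a0 (E.t ω))) (fun _ => ())
    have e5 : mi P (fun ω => (E.X ω, E.Q ω)) (E.Zh a) (fun ω => (((), fl1 a0 (E.t ω)), ())) =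
        mi P (fun ω => (E.X ω, E.Q ω)) (E.Zh a) (fun ω => ((), fl1 a0 (E.t ω))) := by
      refine mi_congr_cond P _ _ ?_ ?_
      · intro ω ω' _ _ e
        simp only [Prod.mk.injEq, true_and, and_true] at e ⊢
        exact e
      · intro ω ω' _ _ e
        simp only [Prod.mk.injEq, true_and, and_true] at e ⊢
        exact e
    linarith
  have h2 : mi P (fun ω => (E.X ω, E.Q ω)) (E.Zh a) (fun _ => ()) ≤ mi P E.l (E.Zh a) (fun _ => ()) := by
    refine mi_mono_left P _ ?_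
    intro ω ω' p p' e
    exact xq_fn E P ω ω' p p' (congrArg Prod.fst e)
  have h3 : mi P E.l (E.Zh a) (fun _ => ()) ≤
      mi P E.l (fun ω => (E.Zh E.h ω, E.Zh a ω)) (fun _ => ()) := by
    refine mi_mono_right P _ ?_
    intro ω ω' _ _ e
    exact congrArg Prod.snd (congrArg Prod.fst e)
  have h4 := mi_pair P E.l (E.Zh E.h) (E.Zh a) (fun _ => ())
  have h5 : mi P E.l (E.Zh a) (fun ω => (E.Zh E.h ω, ())) ≤ hc P (E.Zh a) (fun ω => (E.Zh E.h ω, ())) :=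
    mi_le_hc' P _ _ _
  have h6 : hc P (E.Zh a) (fun ω => (E.Zh E.h ω, ())) ≤ hc P (E.Zh a) (E.Zh E.h) := by
    refine hc_mono_right P _ ?_
    intro ω ω' _ _ e
    exact congrArg Prod.fst e
  have h7 := hc_zh E hS ha
  linarith

/-- **END7** from the dichotomy, C1 and [E1] -/
theorem pEnd7_of (hD : PDich 3) (hC : PC1) (h1 : PE1) : PEnd7 := by
  intro p hp
  have hβ : 0 < p.β := lt_trans hp.lam0 hp.lamβ
  obtain ⟨τ, hτ⟩ : ∃ τ : ℝ, τ = p.β / 40 := ⟨_, rfl⟩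
  have hτ0 : 0 < τ := by rw [hτ]; positivity
  obtain ⟨σ, hσ, hD⟩ := hD p.cN p.ct p.c1 τ hp.cN0 hp.ct0 hp.c10 hτ0
  obtain ⟨ηC, hηC, hC⟩ := hC p σ (p.β / 20) hp hσ (by positivity)
  obtain ⟨κ, hκ, ηD, hηD, hD⟩ := hD (ηC / 2) (by positivity)
  obtain ⟨C1, h1⟩ := h1
  refine ⟨min (min ηC ηD) τ, lt_min (lt_min hηC hηD) hτ0, fun Ka hKa => ?_⟩
  obtain ⟨hC0, hC⟩ := hC Ka hKa
  obtain ⟨hD0, hD⟩ := hD Ka hKa
  have hl2 : 0.69 < Real.log 2 := lt_trans (by norm_num) Real.log_two_gt_d9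
  have hl2' : Real.log 2 < 0.7 := lt_trans Real.log_two_lt_d9 (by norm_num)
  have hl5 : 0 ≤ Real.log 5 := Real.log_nonneg (by norm_num)
  obtain ⟨N1, hN1⟩ := exists_nat_gt (10 * (|C1| + 3 * Real.log 5 + 10) / p.β)
  obtain ⟨N2, hN2⟩ := exists_nat_gt (6 * Real.log 5 / ηC)
  refine ⟨max (max hC0 hD0) (max N1 N2), fun {Ω} _ E P df ν hS hA hh hdf hν => ?_⟩
  have hh1 : hC0 ≤ E.h := (le_max_left _ _).trans ((le_max_left _ _).trans hh)
  have hh2 : hD0 ≤ E.h := (le_max_right _ _).trans ((le_max_left _ _).trans hh)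
  have hh3 : N1 ≤ E.h := (le_max_left _ _).trans ((le_max_right _ _).trans hh)
  have hh4 : N2 ≤ E.h := (le_max_right _ _).trans ((le_max_right _ _).trans hh)
  have hH0 : (0 : ℝ) ≤ E.h := Nat.cast_nonneg _
  have hH1 : 10 * (|C1| + 3 * Real.log 5 + 10) ≤ p.β * E.h := by
    have h2 : (N1 : ℝ) ≤ E.h := by exact_mod_cast hh3
    have h3 := (div_lt_iff₀ hβ).1 hN1
    nlinarith
  have hH2 : 6 * Real.log 5 ≤ ηC * E.h := by
    have h2 : (N2 : ℝ) ≤ E.h := by exact_mod_cast hh4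
    have h3 := (div_lt_iff₀ hηC).1 hN2
    nlinarith
  have hηle1 : min (min ηC ηD) τ ≤ ηC := (min_le_left _ _).trans (min_le_left _ _)
  have hηle2 : min (min ηC ηD) τ ≤ ηD := (min_le_left _ _).trans (min_le_right _ _)
  have hηle3 : min (min ηC ηD) τ ≤ τ := min_le_right _ _
  have hβ2 := hp.β2
  -- the levels
  obtain ⟨a, ha⟩ : ∃ a : ℕ, a = ⌊(1 - p.β / 10) * E.h⌋₊ := ⟨_, rfl⟩
  obtain ⟨a0, ha0⟩ : ∃ a0 : ℕ, a0 = ⌈τ * E.h⌉₊ := ⟨_, rfl⟩
  have ha1 : (a : ℝ) ≤ (1 - p.β / 10) * E.h := by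
    rw [ha]
    exact Nat.floor_le (mul_nonneg (by linarith) hH0)
  have ha2 : (1 - p.β / 10) * E.h - 1 ≤ a := by
    rw [ha]
    exact (Nat.sub_one_lt_floor _).le
  have ha3 : τ * E.h ≤ a0 := by
    rw [ha0]
    exact Nat.le_ceil _
  have ha4 : (a0 : ℝ) ≤ τ * E.h + 1 := by
    rw [ha0]
    exact (Nat.ceil_lt_add_one (by positivity)).le
  have hC1 : 0 ≤ |C1| := abs_nonneg _
  have haH : a ≤ E.h := by
    have : (a : ℝ) ≤ E.h := by nlinarith
    exact_mod_cast this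
  have ha0a : a0 ≤ a := by
    have : (a0 : ℝ) ≤ a := by
      rw [hτ] at ha4
      have : p.β * E.h ≤ 2 * E.h := by nlinarith
      nlinarith
    exact_mod_cast this
  have hp' : ({ p with Ka := Ka } : Par).Ok :=
    ⟨hp.lam0, hp.lamβ, hp.β2, hp.k0, hp.k1, hp.k2, hp.c0, hp.cN0, hp.ct0, hp.c10, hKa⟩
  have hdom : ∀ ω, 0 < P.w ω → 0 < P.w ω := fun _ h => h
  rcases hD P P E.X E.Q E.t (fun _ => ()) E.l df (fun _ => 0) ν E.h a0 a hdom
      ⟨fun ω hω k => Q_le E hS hω k, fun ω hω => (hS.ok ω hω).2.1, fun ω hω => (hS.ok ω hω).2.2, xq_fn E P,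
        fun _ _ _ _ _ => rfl⟩
      ⟨hA.mix, hA.low, fun P' hP' m a0 n hm hn => hA.act P' hP' m a0 n hm hn⟩
      ⟨fun _ _ => le_rfl, fun P' _ ε e => by simp⟩ hh2 ha3 ha0a haH
      (hdf.trans (mul_le_mul_of_nonneg_right hηle2 hH0)) (hν.trans (mul_le_mul_of_nonneg_right hηle2 hH0)) with
    ⟨P', hP', hdf', -, hmi⟩ | ⟨G, π, o, s, hs1, -, hG1, hG2, -, hG3⟩
  · have hS' := hS.dom hP'
    have e1 := mi_case E hS' ha0a haH
    have e2 := h1 { p with Ka := Ka } hp' E P' (df P' + ν) hS' (hA.lab P' hP')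
    simp only at e2
    have e3 := hν.trans (mul_le_mul_of_nonneg_right hηle3 hH0)
    push_cast at hmi
    have e4 : 3 * ((a : ℝ) - a0) * Real.log 2 ≤
        (3 - p.β) * E.h * Real.log 2 + 3 * (τ * E.h) + |C1| + 3 * Real.log 5 := by
      have := le_abs_self C1
      linarith
    have e5 : (1 - p.β / 10) * E.h - 1 - (τ * E.h + 1) ≤ (a : ℝ) - a0 := by linarith
    have e6 := mul_le_mul_of_nonneg_right (mul_le_mul_of_nonneg_left e5 (by norm_num : (0 : ℝ) ≤ 3))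
      (le_of_lt (lt_trans (by norm_num) hl2))
    rw [hτ] at e4 e6
    have hbH : 0 ≤ p.β * E.h := by positivity
    nlinarith
  · refine hC E P df ν a s G π o hS hA hh1 (hdf.trans (mul_le_mul_of_nonneg_right hηle1 hH0))
      (hν.trans (mul_le_mul_of_nonneg_right hηle1 hH0)) ?_ hs1 ?_ ?_ hG3
    · nlinarith
    · intro ω ω' h h' e
      refine hG1 ω ω' h h' ?_
      have e1 : E.Zh a ω = E.Zh a ω' := zh_fn E P a ω ω' h h' e
      have e2 := xq_fn E P ω ω' h h' (congrArg Prod.fst e)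
      have e3 : E.Q ω = E.Q ω' := congrArg Prod.snd e2
      exact Prod.ext (Prod.ext e1 rfl) e3
    · rw [zhd_eq] at hG2
      have e1 : hc P G (E.Zh E.h) ≤ hc P (E.Zh a) (E.Zh E.h) + hc P G (fun ω => (E.Zh a ω, E.Zh E.h ω)) :=
        hc_le_add P _ _ _
      have e2 : hc P G (fun ω => (E.Zh a ω, E.Zh E.h ω)) ≤ hc P G (fun ω => (E.Zh a ω, ())) := by
        refine hc_mono_right P _ ?_
        intro ω ω' _ _ e
        have e4 : E.Zh a ω = E.Zh a ω' := congrArg Prod.fst e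
        exact Prod.ext e4 rfl
      have e3 := hc_zh E hS haH
      linarith

end Vale.Agent.P106.U.End7
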