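import Vale.Agent.P106.U.H20.Defs
import Vale.Agent.P106.U.H611.Defs
import Vale.Agent.P106.W.Rec

/-!
# P106 / U / H459 : END7 (no near-extremal system has a flat maximiser at the end), exact statements

Notes P106 17532, 17769 (helper459), interface = helper61's TEXT S1 (17579): LAB, ACT, conditioning.

* `Env` : finite law on `Ω`: rays `l`, times `t`, a constant slab `B0` (box of level `0`, `u2 = 1`, `u1 = 2^-q`) which contains all
  rays, end level `h`, precision `L`.  No conditioning letter (a value of the letter has been fixed).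
* `Env.X`, `Env.Q` : the ray as a line of `R^(1+3)` : half the coordinate along the frame, height, `2^q G` (`G` = functional of the
  slab); all components of `Q` are in `[-1, 1]`.
* `Env.Zh a` : time and position (`V`, `z` to `a`, `G` to `a + q` digits) at the level `a`; `Env.vh` = value of the label
  `(h; 0; q)`.
* `Env.Lab`, `Env.Act` : consequences of near-extremality for one law, error `μ` (nats).
* `Env.Ax` : functional `df` (defect) of the conditioned laws: mixture inequality, lower bound, LAB, ACT.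
* `PEnd7` : the theorem; `PC1` : the case of one plane section (owner helper931).  The constant `Ka` is given after `η`.
-/

set_option autoImplicit false

namespace Vale.Agent.P106.U.End7

open Finset Vale.Agent.P127 Vale.Agent.P127.Stk Vale.Agent.P127.U.CellD Vale.Agent.P127.U.Mic Vale.Agent.P106.W
open Vale.Agent.P106.K (Ry RyOk bl Bin)
open Vale.Agent.P122.C2 (fw fn)

/-- the data of END7 -/
structure Env (Ω : Type) where
  l : Ω → Ry
  t : Ω → ℝ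
  /-- the slab -/
  B0 : Cbx
  q : ℕ
  h : ℕ
  L : ℕ

/-- the constants -/
structure Par where
  lam : ℝ
  β : ℝ
  /-- distance penalty of the shapes -/
  k : ℝ
  /-- class of the labels -/
  c : ℝ
  /-- price of a letter -/
  cN : ℝ
  /-- activity: exponent, gain, constant -/
  ct : ℝ
  c1 : ℝ
  Ka : ℝ

/-- admissible constants -/
structure Par.Ok (p : Par) : Prop where
  lam0 : 0 < p.lam
  lamβ : p.lam < p.β
  β2 : p.β ≤ 2
  k0 : 0 ≤ p.k
  /-- `k` is small with respect to the gaps -/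
  k1 : 100 * p.k ≤ p.lam
  k2 : 100 * p.k ≤ p.β - p.lam
  c0 : 100 ≤ p.c
  cN0 : 0 ≤ p.cN
  ct0 : 0 < p.ct
  c10 : 0 < p.c1
  Ka0 : 0 ≤ p.Ka

namespace Env

variable {Ω : Type} (E : Env Ω)

/-- the ray as a line of `R^(1+3)` : point at the time `0` -/
noncomputable def X (ω : Ω) : Fin 3 → ℝ :=
  ![fw E.B0.θ (E.l ω).y / 2, (E.l ω).hgt 0, 2 ^ E.q * E.B0.g0 (E.l ω).y (E.l ω).s (E.l ω).z]

/-- the ray as a line of `R^(1+3)` : velocity -/
noncomputable def Q (ω : Ω) : Fin 3 → ℝ :=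
  ![fw E.B0.θ (E.l ω).s / 2, (∑ k, (E.l ω).s k ^ 2) / 2, 2 ^ E.q * E.B0.g1 (E.l ω).y (E.l ω).s (E.l ω).z]

/-- the label `(a; 0; q)` : time and position -/
noncomputable def Zh (a : ℕ) (ω : Ω) : ℤ × (Fin 3 → ℤ) :=
  (fl1 a (E.t ω), fun k => fl1 a (E.X ω k + rd a (E.t ω) * E.Q ω k))

/-- support: normalised rays and times in the slab -/
structure Supp [Fintype Ω] (P : Law Ω) : Prop where
  ok : ∀ ω, 0 < P.w ω → RyOk (E.l ω) ∧ 0 ≤ E.t ω ∧ E.t ω ≤ 1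
  u2 : E.B0.u2 = 1
  u1 : E.B0.u1 = (1 / 2 : ℝ) ^ E.q
  α8 : |E.B0.α| ≤ 1 / 8
  κ8 : |E.B0.κ| ≤ 1 / 8
  p1 : ∀ k, |E.B0.p k| ≤ 1
  v1 : ∀ k, |E.B0.v k| ≤ 1
  inn : ∀ ω, 0 < P.w ω → E.B0.In 0 (E.l ω).y (E.l ω).s (E.l ω).z
  hL : E.h + E.q ≤ E.L

variable [Fintype Ω]

/-- value of the label `(h; 0; q)` -/
noncomputable def vh (lam : ℝ) (P : Law Ω) : ℝ :=
  Stk.hc P E.l (E.Zh E.h) + (3 * E.h + (1 - lam) * E.q) * Real.log 2

/-- **LAB** for the law `P`: all random labels of deterministic shape `(b, R)` and of level `a ≤ h` -/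
def Lab (p : Par) (P : Law Ω) (μ : ℝ) : Prop :=
  ∀ (a b R : ℕ), a ≤ E.h → b ≤ R → a + R ≤ E.L →
  ∀ (Ω' : Type) (_ : Fintype Ω') (P' : Law Ω') (π : Ω' → Ω) (A : Ω' → Cbx),
    (∀ ω, P'.pr π ω = P.w ω) →
    (∀ ω, 0 < P'.w ω → (A ω).u2 = (1 / 2 : ℝ) ^ b ∧ (A ω).u1 = (1 / 2 : ℝ) ^ R ∧
      |(A ω).α| * (A ω).u2 ≤ p.c ∧ |(A ω).κ| * (A ω).u2 ≤ p.c ∧ Bin p.c (A ω) 0 (bl a (E.l (π ω)) (E.t (π ω)))) →
    Stk.hc P' (fun ω => E.l (π ω)) (fun ω => (A ω, fl1 a (E.t (π ω)))) +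
        (3 * a + (3 + p.lam) * b + (1 - p.lam) * R) * Real.log 2 ≤
      E.vh p.lam P - p.β * (E.h - a) * Real.log 2 + p.k * (b + |(R : ℝ) - E.q|) * Real.log 2 + μ

/-- **ACT** for the law `P`: the blocks of `m` digits of the time given the ray -/
def Act (p : Par) (P : Law Ω) (μ : ℝ) : Prop :=
  ∀ (m a0 n : ℕ), 1 ≤ m → a0 + m * n ≤ E.h →
    ∑ i ∈ range n, prE P (fun ω => (2 : ℝ) ^ (-(p.ct * m)) <
      cq P (fun ω => fl1 (a0 + m * (i + 1)) (E.t ω)) (fun ω => (E.l ω, fl1 (a0 + m * i) (E.t ω)))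
        (fl1 (a0 + m * (i + 1)) (E.t ω)) (E.l ω, fl1 (a0 + m * i) (E.t ω))) ≤
      (μ + p.Ka * n) / (p.c1 * m)

/-- **the interface** : `df` = defect of the laws dominated by `P0` -/
structure Ax (p : Par) (P0 : Law Ω) (df : Law Ω → ℝ) (ν : ℝ) : Prop where
  /-- mixture over a letter `e` -/
  mix : ∀ (P : Law Ω), (∀ ω, 0 < P.w ω → 0 < P0.w ω) → ∀ (ε : Type) (e : Ω → ε),
    ∑ z ∈ img e, P.pr e z * df (P.cond e z) ≤ df P + p.cN * Stk.hc P e (fun _ => ()) + ν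
  low : ∀ (P : Law Ω), (∀ ω, 0 < P.w ω → 0 < P0.w ω) → -ν ≤ df P
  lab : ∀ (P : Law Ω), (∀ ω, 0 < P.w ω → 0 < P0.w ω) → E.Lab p P (df P + ν)
  act : ∀ (P : Law Ω), (∀ ω, 0 < P.w ω → 0 < P0.w ω) → E.Act p P (df P + ν)

end Env

/-- **END7** -/
def PEnd7 : Prop := ∀ p : Par, p.Ok → ∃ η : ℝ, 0 < η ∧ ∀ Ka : ℝ, 0 ≤ Ka → ∃ h0 : ℕ,
  ∀ {Ω : Type} [Fintype Ω] (E : Env Ω) (P : Law Ω) (df : Law Ω → ℝ) (ν : ℝ), E.Supp P →
    E.Ax { p with Ka := Ka } P df ν → h0 ≤ E.h → df P ≤ η * E.h → ν ≤ η * E.h → False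

/-- **C1** : all rays are in one plane section `∑ π_k Q_k = c` up to `2^-s`, `s ≥ σ h`, where `π`, `c` are functions of a side
letter `G` which is a function of the ray and of the time at the level `a' ≤ (1 - τ) h` and nearly a function of the end -/
def PC1 : Prop := ∀ (p : Par) (σ τ : ℝ), p.Ok → 0 < σ → 0 < τ → ∃ η : ℝ, 0 < η ∧ ∀ Ka : ℝ, 0 ≤ Ka → ∃ h0 : ℕ,
  ∀ {Ω : Type} [Fintype Ω] {ζ : Type} (E : Env Ω) (P : Law Ω) (df : Law Ω → ℝ) (ν : ℝ) (a' : ℕ) (s : ℕ)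
    (G : Ω → ζ) (π : ζ → Fin 3 → ℝ) (o : ζ → ℝ), E.Supp P → E.Ax { p with Ka := Ka } P df ν →
    h0 ≤ E.h → df P ≤ η * E.h → ν ≤ η * E.h → (a' : ℝ) ≤ (1 - τ) * E.h → σ * E.h ≤ s →
    Fn P G (fun ω => (E.l ω, fl1 a' (E.t ω))) → Stk.hc P G (E.Zh E.h) ≤ η * E.h →
    (∀ ω, 0 < P.w ω → (∀ k, |π (G ω) k| ≤ 1) ∧ (∃ k, |π (G ω) k| = 1) ∧
      |∑ k, π (G ω) k * E.Q ω k - o (G ω)| ≤ (1 / 2 : ℝ) ^ s) → False

end Vale.Agent.P106.U.End7
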