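import Vale.Agent.P106.U.H459.ExitRun

/-!
# P106 / U / H459 : the record of the exit, abstract form (no record of a run)

* `exr_abs` : points `Pt` at the exit level, letter `T` of the exit cell (it determines `κ`, `α` of the cell), letter `U` of the
  ray side (it determines the own slope to `rf ≥ r` digits), letter `V` of the end (with `W` and the time it determines `α` of the
  cell and the factor), prices `hc V | (W, t_h)`, `hc T | (l, U)`, `hc U | (l, t_a0)` give `ExR2`.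

-/

set_option autoImplicit false

namespace Vale.Agent.P106.U.H459

open Finset Vale.Agent.P127 Vale.Agent.P127.Stk Vale.Agent.P127.U Vale.Agent.P106.W Vale.Agent.P106.K Vale.Agent.P106.U.H428
open Vale.Agent.P106.U.H513 (dn dnB tau)
open Vale.Agent.P127.U.CellD (q2 rd)
open Vale.Agent.P106.U

/-- **the record of the exit, abstract form** (constant `cM c K`) -/
theorem exr_abs (c K : ℝ) (hc : 1 ≤ c) (hK : 1 ≤ K) : ∃ (D : ℝ) (j : ℕ), 0 ≤ D ∧ ∀ {Ω : Type} [Fintype Ω] {τ υ ξ : Type}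
    (Q : Law Ω) (l : Ω → Ry) (t : Ω → ℝ) (W : Ω → Cbx) (θ0 : ℝ) (h q a0 rf r : ℕ) (FW : Ω → Cell.Fu) (ρf pp ka al : Ω → ℝ)
    (T : Ω → τ) (U : Ω → υ) (V : Ω → ξ) (g0 g' gU : ℝ),
    (∀ ω, 0 < Q.w ω → Pt c K θ0 a0 h q r (W ω) (l ω) (t ω) (FW ω) (ρf ω) (pp ω) (ka ω) (al ω) (rd a0 (t ω))) →
    Fn Q ka T → Fn Q al T → Fn Q (fun ω => fl1 rf (pp ω)) (fun ω => (l ω, U ω)) → r ≤ rf → r ≤ q →
    Fn Q (fun ω => (ρf ω, al ω)) (fun ω => (V ω, W ω, fl1 h (t ω), ())) →
    Stk.hc Q V (fun ω => (W ω, fl1 h (t ω), ())) ≤ g0 → Stk.hc Q T (fun ω => (l ω, U ω)) ≤ g' →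
    Stk.hc Q U (fun ω => (l ω, fl1 a0 (t ω))) ≤ gU → ∀ g1 g2 θ : ℝ, 0 ≤ θ →
    (a0 : ℝ) + j ≤ (1 - θ) * h → (q : ℝ) ≤ r + g1 * h → g0 ≤ g2 * h →
    g' + gU + D ≤ g2 * h → ExR2 (cM c K) g1 g2 θ Q l t (fun _ => ()) h q W := by
  obtain ⟨j, hj⟩ := pow_unbounded_of_one_lt (K ^ 2) (by norm_num : (1 : ℝ) < 2)
  obtain ⟨M, hM⟩ := cf_mem (cT c K * (1 + 4 * 3 + 5 * 3 ^ 2))
  obtain ⟨m1, m2, m3, m4, m5⟩ := le_cM hc hK
  refine ⟨Real.log (M + M + 1 : ℕ), j,
    Real.log_nonneg (by push_cast; linarith [(Nat.cast_nonneg M : (0 : ℝ) ≤ M)]), ?_⟩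
  intro Ω _ τ υ ξ Q l t W θ0 h q a0 rf r FW ρf pp ka al T U V g0 g' gU hP hka hal hp hrf hrq hV hV0 hTU hU g1 g2 θ hθ ha hq hb hg
  set a := a0 + j with haa
  have hah : a ≤ h := by
    have h1 : (a : ℝ) ≤ h := by
      rw [haa]
      push_cast
      have : (0 : ℝ) ≤ h := Nat.cast_nonneg _
      nlinarith
    exact_mod_cast h1
  obtain ⟨w, hw⟩ := Nat.exists_eq_add_of_le hah
  set Wm : Ω → Cbx := fun ω => bend (ρf ω) (al ω) h r (W ω) with hWm
  refine ⟨a, w, r, Wm, hw.symm, by rw [haa]; push_cast; exact ha, hrq, hq, ?_, ?_, ?_⟩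
  · intro ω hω
    have D := hP ω hω
    refine ⟨D.bend_w0 hc, ?_, (D.bend_cl hc).mono m5⟩
    refine D.bend_fa.trans ?_
    rw [haa, pow_add]
    have h1 := mul_le_mul_of_nonneg_right hj.le (by positivity : (0 : ℝ) ≤ 2 ^ a0)
    linarith
  · -- the label given the end
    have e1 := Stk.hc_le_add Q Wm V (fun ω => (W ω, fl1 h (t ω), ()))
    have e2 : Stk.hc Q Wm (fun ω => (V ω, (W ω, fl1 h (t ω), ()))) = 0 := by
      refine Stk.hc_zero Q fun ω ω' hω hω' e => ?_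
      obtain ⟨f4, f5⟩ := Prod.mk.inj (hV ω ω' hω hω' e)
      simp only [Prod.mk.injEq] at e
      obtain ⟨f1, f2, f3, -⟩ := e
      show bend (ρf ω) (al ω) h r (W ω) = bend (ρf ω') (al ω') h r (W ω')
      rw [f2, f4, f5]
    linarith
  · -- the functional given the ray
    set Y : Ω → Ry × ℤ × Unit := fun ω => (l ω, fl1 a (t ω), ()) with hY
    have hna : a0 ≤ a := Nat.le_add_right _ _
    have e1 := Stk.hc_le_add Q (fun ω => sk a w r (Wm ω) (l ω) (t ω)) U Y
    have e2 : Stk.hc Q U Y ≤ gU := by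
      refine le_trans (Stk.hc_mono_right Q _ fun ω ω' _ _ e => ?_) hU
      simp only [hY, Prod.mk.injEq] at e ⊢
      exact ⟨e.1, CellD.fl1_fl1 hna e.2.1⟩
    have e3 := Stk.hc_le_add Q (fun ω => sk a w r (Wm ω) (l ω) (t ω)) T (fun ω => (U ω, Y ω))
    have e4 : Stk.hc Q T (fun ω => (U ω, Y ω)) ≤ g' := by
      refine le_trans (Stk.hc_mono_right Q _ fun ω ω' _ _ e => ?_) hTU
      simp only [hY, Prod.mk.injEq] at e
      show (l ω, U ω) = (l ω', U ω')
      rw [e.1, e.2.1]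
    have e5 : Stk.hc Q (fun ω => sk a w r (Wm ω) (l ω) (t ω)) (fun ω => (T ω, (U ω, Y ω))) ≤
        Real.log (M + M + 1 : ℕ) := by
      refine Stk.hc_le_log Q _ _ _ fun ω hω => ?_
      classical
      have D := hP ω hω
      obtain ⟨S1, hS1, h1⟩ := hM 0 r (Nat.zero_le _) (Fl a w (Wm ω) (t ω)) (ctr 0 (pl 0 (bl a (l ω) (t ω)))) 1
      obtain ⟨S2, hS2, h2⟩ := hM 0 r (Nat.zero_le _) (Fl a w (Wm ω) (t ω)) (ctr 0 (pl 0 (bl a (l ω) (t ω)))) (-1)
      refine ⟨S1 ∪ S2, ((card_union_le _ _).trans (add_le_add hS1 hS2)).trans (Nat.le_succ _), fun ω' hω' e => ?_⟩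
      simp only [hY, Prod.mk.injEq] at e
      obtain ⟨f1, f2, f3, f4, -⟩ := e
      have D' := hP ω' hω'
      have f5 : fl1 a0 (t ω') = fl1 a0 (t ω) := CellD.fl1_fl1 hna f4
      have f6 : rd a0 (t ω') = rd a0 (t ω) := by
        unfold rd
        rw [f5]
      have f7 : |pp ω' - pp ω| ≤ q2 r := by
        have t1 := hp ω' ω hω' hω (by
          show (l ω', U ω') = (l ω, U ω)
          rw [f2, f3])
        have t2 := fl1_eq_near t1
        exact t2.trans (CellD.q2_le hrf)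
      have f8 : |rd a0 (t ω') - qa a (t ω')| ≤ q2 a0 := by
        have t1 := CellD.rd_sub hna (t ω')
        rw [abs_sub_comm] at t1
        exact t1
      rw [f3, f6, hka ω' ω hω' hω f1, hal ω' ω hω' hω f1] at D'
      rw [f6] at f8
      have key : Cl (cT c K) 0 r (sg (ρf ω') * sg (ρf ω)) (Fl a w (Wm ω') (t ω'))
          (Fl a w (Wm ω) (t ω)) (bl a (l ω) (t ω')) := by
        have g3 : Wm ω' = bend (ρf ω') (al ω) (a + w) r (W ω') := by
          show bend (ρf ω') (al ω') h r (W ω') = _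
          rw [hal ω' ω hω' hω f1, hw]
        have g4 : Wm ω = bend (ρf ω) (al ω) (a + w) r (W ω) := by
          show bend (ρf ω) (al ω) h r (W ω) = _
          rw [hw]
        rw [g3, g4]
        rw [hw] at D D'
        exact D'.two hc D f7 hna f8 f4
      have ebl : bl a (l ω) (t ω') = bl a (l ω) (t ω) := bl_eq f4
      rw [ebl] at key
      have hnr := (nr_ctr 0 (bl a (l ω) (t ω))).symm' zero_le_one
      norm_num at hnr
      have hcT : 0 ≤ cT c K := by
        unfold cT cF cE' cM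
        positivity
      have key2 := key.move hcT (by norm_num) hnr
      show sk a w r (Wm ω') (l ω') (t ω') ∈ S1 ∪ S2
      unfold sk
      rw [f3, ebl]
      have hs : sg (ρf ω') * sg (ρf ω) = 1 ∨
          sg (ρf ω') * sg (ρf ω) = -1 := by
        rcases sg_or (ρf ω') with h3 | h3 <;> rcases sg_or (ρf ω) with h4 | h4 <;>
          rw [h3, h4] <;> norm_num
      rcases hs with h3 | h3
      · rw [h3] at key2
        exact mem_union_left _ (h1 _ key2)
      · rw [h3] at key2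
        exact mem_union_right _ (h2 _ key2)
    linarith

end Vale.Agent.P106.U.H459
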