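import Vale.Agent.P106.U.H459.ExitRR
import Vale.Agent.P106.U.H459.ExitAbs

/-!
# P106 / U / H459 : 611's `S5.RR` from the abstract data of the exit
-/

set_option autoImplicit false

namespace Vale.Agent.P106.U.H459

open Vale.Agent.P127 Vale.Agent.P127.Stk Vale.Agent.P127.U Vale.Agent.P106.W Vale.Agent.P106.K Vale.Agent.P106.U
open Vale.Agent.P127.U.CellD (q2 rd)

/-- **611's `RR`, abstract form** -/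
theorem rr_abs (K : ℝ) (hK : 1 ≤ K) : ∃ (D : ℝ) (j : ℕ), 0 ≤ D ∧ ∀ {σ : S5.Cst} {ε : ℝ} {ρ : S5.Thr} {g : S5.Gv} {m B : ℕ}
    {Ω : Type} [Fintype Ω] {τ υ ξ : Type}
    (Q : Law Ω) (l : Ω → Ry) (t : Ω → ℝ) (W : Ω → Cbx) (θ0 : ℝ) (L h q a0 rf r : ℕ) (FW : Ω → Cell.Fu) (ρf pp ka al : Ω → ℝ)
    (T : Ω → τ) (U : Ω → υ) (V : Ω → ξ) (g0 g' gU : ℝ) (r0 Rn : ℕ) (S : Cbx),
    (∀ ω, 0 < Q.w ω → Pt 100 K θ0 a0 h q r (W ω) (l ω) (t ω) (FW ω) (ρf ω) (pp ω) (ka ω) (al ω) (rd a0 (t ω))) →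
    Fn Q ka T → Fn Q al T → Fn Q (fun ω => fl1 rf (pp ω)) (fun ω => (l ω, U ω)) → r ≤ rf → r ≤ q →
    Fn Q (fun ω => (ρf ω, al ω)) (fun ω => (V ω, W ω, fl1 h (t ω), ())) →
    Stk.hc Q V (fun ω => (W ω, fl1 h (t ω), ())) ≤ g0 → Stk.hc Q T (fun ω => (l ω, U ω)) ≤ g' →
    Stk.hc Q U (fun ω => (l ω, fl1 a0 (t ω))) ≤ gU → cM 100 K ≤ ρ.K → 0 ≤ σ.θ →
    (a0 : ℝ) + j ≤ (1 - σ.θ / 2) * h → (q : ℝ) ≤ r + σ.C2 * σ.δ1 * h → g0 ≤ (σ.C2 * σ.δ1 + ε) * h →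
    g' + gU + D ≤ (σ.C2 * σ.δ1 + ε) * h → S5.RR σ ε ρ g m B Q l t L h q r0 Rn W S := by
  obtain ⟨D, j, hD, H⟩ := exr_abs 100 K (by norm_num) hK
  refine ⟨D, j, hD, ?_⟩
  intro σ ε ρ g m B Ω _ τ υ ξ Q l t W θ0 L h q a0 rf r FW ρf pp ka al T U V g0 g' gU r0 Rn S hP hka hal hp hrf hrq hV hV0 hTU
    hU hKK hθ ha hq hb hg
  exact rr_of_exr hKK le_rfl le_rfl
    (H Q l t W θ0 h q a0 rf r FW ρf pp ka al T U V g0 g' gU hP hka hal hp hrf hrq hV hV0 hTU hU _ _ (σ.θ / 2) (by linarith) ha hq hb hg)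

end Vale.Agent.P106.U.H459
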