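import Vale.Agent.P106.U.H459.ExitR
import Vale.Agent.P106.U.H875.XX

/-!
# P106 / U / H459 : the exit by the precision, with missing digits

* `cutB r B` : the box with the thickness `2^-r`; `nex_cut` : a near-extremal system stays near-extremal if the label is cut.
* `ExR K0 g θ` : record of the exit (level `a ≤ (1 - θ) h`, precision `r`, `q - r ≤ g h`, modified label `Wm`).
* `exr` : `PTail` → no such record with small `g`.
* `exr_small` : for `q ≤ g h` the record exists.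
-/

set_option autoImplicit false

namespace Vale.Agent.P106.U.H459

open Vale.Agent.P127 Vale.Agent.P127.Stk Vale.Agent.P127.U Vale.Agent.P106.W Vale.Agent.P106.K Vale.Agent.P106.U.H428
open Vale.Agent.P106.U.H513 (dn dnB tau)

/-- the box with the thickness `2^-r` -/
noncomputable def cutB (r : ℕ) (B : Cbx) : Cbx := { B with u1 := (1 / 2 : ℝ) ^ r }

theorem cut_lb {c : ℝ} (hc : 0 ≤ c) {L a r q : ℕ} (hr : r ≤ q) {B : Cbx} {l : Ry} {t : ℝ} (hL : a + q ≤ L)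
    (h : LbOk c L a B l t) (h2 : B.u2 = 1) (h1 : B.u1 = (1 / 2 : ℝ) ^ q) : LbOk c L a (cutB r B) l t := by
  have hle : (1 / 2 : ℝ) ^ q ≤ (1 / 2 : ℝ) ^ r := pow_le_pow_of_le_one (by norm_num) (by norm_num) hr
  obtain ⟨i1, i2, i3, i4, i5⟩ := h.inn
  rw [h1] at i4 i5
  refine ⟨⟨0, r, by show B.u2 = _; rw [h2, pow_zero], rfl, Nat.zero_le _, by omega⟩, h.α2, h.κ2, i1, i2, i3, ?_, ?_⟩
  · exact i4.trans (mul_le_mul_of_nonneg_left hle hc)
  · exact i5.trans (mul_le_mul_of_nonneg_left hle hc)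

theorem nex_cut {c lam N k β d d' : ℝ} (hc : 0 ≤ c) (h0 : 0 ≤ lam) (h1 : lam ≤ 1) (hk : 0 ≤ k) {Ω : Type} [Fintype Ω]
    {γ : Type} {P : Law Ω} {l : Ω → Ry} {t : Ω → ℝ} {C : Ω → γ} {L h q : ℕ} {W : Ω → Cbx}
    (hN : NEx c lam N k β d P l t C L h q W) {r : ℕ} (hr : r ≤ q)
    (hd : (1 - lam + k) * ((q : ℝ) - r) ≤ (d' - d) * h) :
    NEx c lam N k β d' P l t C L h r (fun ω => cutB r (W ω)) := by
  have hL := hN.hL
  refine ⟨hN.ok, by omega, fun ω hω => ?_, ?_⟩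
  · obtain ⟨g1, g2, g3⟩ := hN.lb ω hω
    exact ⟨cut_lb hc hr hL g1 g2 g3, g2, rfl⟩
  · have e1 := hN.ex
    have e2 := H875.XX_le_target (c := c) (lam := lam) (k := k) (La := 0) (P := P) (l := l) (t := t) (C := C)
      (e := fun _ => ((0 : ℕ), r)) (L := L) (a := 0) (e' := fun _ => ((0 : ℕ), q)) hc (Nat.zero_le _) h0 h1 hk le_rfl
    have e3 : P.ex (fun _ : Ω => (|((0 : ℕ) : ℝ) - ((0 : ℕ) : ℝ)| + |((r : ℕ) : ℝ) - (q : ℕ)|) * Real.log 2) =
        ((q : ℝ) - r) * Real.log 2 := by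
      rw [P.ex_const, sub_self, abs_zero, zero_add, abs_sub_comm, abs_of_nonneg]
      have : (r : ℝ) ≤ q := by exact_mod_cast hr
      linarith
    simp only at e2
    rw [e3] at e2
    have e4 : val lam P l t C h W ≤ val lam P l t C h (fun ω => cutB r (W ω)) + (1 - lam) * ((q : ℝ) - r) * Real.log 2 := by
      have f1 : Stk.hc P l (fun ω => (W ω, fl1 h (t ω), C ω)) ≤
          Stk.hc P l (fun ω => (cutB r (W ω), fl1 h (t ω), C ω)) := by
        refine Stk.hc_mono_right P _ ?_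
        intro ω ω' _ _ e
        simp only [Prod.mk.injEq] at e ⊢
        exact ⟨by rw [e.1], e.2⟩
      have f2 : P.ex (fun ω => (3 + lam) * Real.log (W ω).u2 + (1 - lam) * Real.log (W ω).u1) =
          -((1 - lam) * q * Real.log 2) := by
        rw [P.ex_congr (g := fun _ => -((1 - lam) * q * Real.log 2)), P.ex_const]
        intro ω hω
        obtain ⟨-, g2, g3⟩ := hN.lb ω hω
        rw [g2, g3, Real.log_one, Real.log_pow, one_div, Real.log_inv]
        ring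
      have f3 : P.ex (fun ω => (3 + lam) * Real.log (cutB r (W ω)).u2 + (1 - lam) * Real.log (cutB r (W ω)).u1) =
          -((1 - lam) * r * Real.log 2) := by
        rw [P.ex_congr (g := fun _ => -((1 - lam) * r * Real.log 2)), P.ex_const]
        intro ω hω
        obtain ⟨-, g2, -⟩ := hN.lb ω hω
        show (3 + lam) * Real.log (W ω).u2 + (1 - lam) * Real.log ((1 / 2 : ℝ) ^ r) = _
        rw [g2, Real.log_one, Real.log_pow, one_div, Real.log_inv]
        ring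
      unfold val
      rw [f2, f3]
      nlinarith
    have hl2 : 0 < Real.log 2 := Real.log_pos (by norm_num)
    have e5 := mul_le_mul_of_nonneg_right hd hl2.le
    nlinarith

/-- **record of the exit by the precision** : level `a ≤ (1 - θ) h`, precision `r`, modified label `Wm` -/
def ExR (K0 g θ : ℝ) {Ω : Type} [Fintype Ω] {γ : Type} (P : Law Ω) (l : Ω → Ry) (t : Ω → ℝ) (C : Ω → γ) (h q : ℕ)
    (W : Ω → Cbx) : Prop :=
  ∃ (a w r : ℕ) (Wm : Ω → Cbx), a + w = h ∧ (a : ℝ) ≤ (1 - θ) * h ∧ r ≤ q ∧ (q : ℝ) ≤ r + g * h ∧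
    (∀ ω, 0 < P.w ω → W0 K0 h r (Wm ω) (l ω) (t ω) ∧ |(Fa h (Wm ω) (t ω)).α| ≤ 2 ^ a ∧
      Cl K0 0 r 1 (W ω) (Wm ω) (bl h (l ω) (t ω))) ∧
    Stk.hc P Wm (fun ω => (W ω, fl1 h (t ω), C ω)) ≤ g * h ∧
    Stk.hc P (fun ω => sk a w r (Wm ω) (l ω) (t ω)) (fun ω => (l ω, fl1 a (t ω), C ω)) ≤ g * h

theorem ExR.mono {K0 K1 g g' θ : ℝ} (hK : K0 ≤ K1) (hg : g ≤ g') {Ω : Type} [Fintype Ω] {γ : Type} {P : Law Ω} {l : Ω → Ry}
    {t : Ω → ℝ} {C : Ω → γ} {h q : ℕ} {W : Ω → Cbx} (H : ExR K0 g θ P l t C h q W) : ExR K1 g' θ P l t C h q W := by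
  obtain ⟨a, w, r, Wm, h1, h2, h3, h4, h5, h6, h7⟩ := H
  have hh : g * h ≤ g' * h := mul_le_mul_of_nonneg_right hg (Nat.cast_nonneg _)
  refine ⟨a, w, r, Wm, h1, h2, h3, h4.trans (by linarith), fun ω hω => ?_, h6.trans hh, h7.trans hh⟩
  obtain ⟨g1, g2, g3⟩ := h5 ω hω
  have hr0 : (0 : ℝ) ≤ (1 / 2 : ℝ) ^ r := by positivity
  obtain ⟨a1, a2, a3, a4, a5, a6, a7, ⟨i1, i2, i3, i4, i5⟩⟩ := g1
  refine ⟨⟨a1, a2, a3, a4, a5, a6.trans hK, a7.trans hK, ⟨?_, ?_, ?_, ?_, ?_⟩⟩, g2, g3.mono hK⟩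
  · exact fun k => (i1 k).trans (mul_le_mul_of_nonneg_right hK (by rw [a4]; norm_num))
  · exact fun k => (i2 k).trans (mul_le_mul_of_nonneg_right hK (by rw [a4]; norm_num))
  · exact i3.trans (mul_le_mul_of_nonneg_right hK (le_max_right _ _))
  · exact i4.trans (mul_le_mul_of_nonneg_right hK (by rw [a5]; exact hr0))
  · exact i5.trans (mul_le_mul_of_nonneg_right hK (by rw [a5]; exact hr0))

/-- **no exit by the precision** -/
theorem exr (hT : PTail) : ∀ lam N β0 θ : ℝ, 0 < lam → lam < 1 → lam < β0 → β0 ≤ 2 → 2 ≤ N → 0 < θ → ∃ η : ℝ, 0 < η ∧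
    ∀ k β b' c K0 : ℝ, 0 < k → k ≤ η → β0 ≤ β → β ≤ b' → b' ≤ β + η → FIXA lam N (8 * k) b' → 1 ≤ c → 1 ≤ K0 → ∃ h0 : ℕ,
      ∀ (Ω : Type) [Fintype Ω] (γ : Type) (P : Law Ω) (l : Ω → Ry) (t : Ω → ℝ) (C : Ω → γ) (L h q : ℕ) (W : Ω → Cbx),
        NEx c lam N k β η P l t C L h q W → h0 ≤ h → ExR K0 η θ P l t C h q W → False := by
  intro lam N β0 θ hl hl1 hβ0 hβ2 hN hθ
  obtain ⟨ηE, hηE, hE⟩ := pExit hT lam N β0 θ hl hl1 hβ0 hβ2 hN hθ
  refine ⟨min 1 (ηE / 4), by positivity, ?_⟩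
  intro k β b' c K0 hk hkη hβ hb hb' hF hc hK0
  have hk1 : k ≤ 1 := hkη.trans (min_le_left _ _)
  have hkE : k ≤ ηE / 4 := hkη.trans (min_le_right _ _)
  have hbE : min 1 (ηE / 4) ≤ ηE / 4 := min_le_right _ _
  obtain ⟨h0, hE⟩ := hE k β b' c K0 hk (by linarith) hβ hb (by linarith) hF hc hK0
  refine ⟨h0, ?_⟩
  intro Ω _ γ P l t C L h q W hX hh hR
  obtain ⟨a, w, r, Wm, h1, h2, h3, h4, h5, h6, h7⟩ := hR
  subst h1
  have hhr : (0 : ℝ) ≤ ((a + w : ℕ) : ℝ) := Nat.cast_nonneg _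
  have hX1 : NEx c lam N k β ηE P l t C L (a + w) r (fun ω => cutB r (W ω)) := by
    refine nex_cut (by linarith) hl.le hl1.le hk.le hX h3 ?_
    have g1 : (q : ℝ) - r ≤ ηE / 4 * ((a + w : ℕ) : ℝ) := by
      have := mul_le_mul_of_nonneg_right hbE hhr
      linarith
    have g2 : (0 : ℝ) ≤ (q : ℝ) - r := by
      have : (r : ℝ) ≤ q := by exact_mod_cast h3
      linarith
    have g3 : (1 - lam + k) * ((q : ℝ) - r) ≤ 2 * ((q : ℝ) - r) := mul_le_mul_of_nonneg_right (by linarith) g2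
    have g4 : min 1 (ηE / 4) * ((a + w : ℕ) : ℝ) ≤ ηE / 4 * ((a + w : ℕ) : ℝ) := mul_le_mul_of_nonneg_right hbE hhr
    nlinarith
  have hη4 : min 1 (ηE / 4) * ((a + w : ℕ) : ℝ) ≤ ηE * (a + w) := by
    have := mul_le_mul_of_nonneg_right (hbE.trans (by linarith : ηE / 4 ≤ ηE)) hhr
    push_cast at this ⊢
    exact this
  refine hE Ω γ P l t C L a w r (fun ω => cutB r (W ω)) Wm hX1 hh (by push_cast at h2; exact h2) ?_ ?_ (h7.trans hη4)
  · intro ω hω
    obtain ⟨g1, g2, g3⟩ := h5 ω hω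
    exact ⟨g1, g2, ⟨g3.n, g3.κ, g3.α, g3.g0, g3.g1⟩⟩
  · refine le_trans (le_of_eq ?_) (h6.trans hη4)
    refine le_antisymm ?_ ?_
    · refine Stk.hc_mono_right P _ ?_
      intro ω ω' hω hω' e
      simp only [Prod.mk.injEq] at e ⊢
      refine ⟨?_, e.2⟩
      obtain ⟨-, -, g3⟩ := hX.lb ω hω
      obtain ⟨-, -, g3'⟩ := hX.lb ω' hω'
      have e1 := e.1
      unfold cutB at e1
      rcases hWo : W ω with ⟨x1, x2, x3, x4, x5, x6, x7, x8⟩
      rcases hWo' : W ω' with ⟨y1, y2, y3, y4, y5, y6, y7, y8⟩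
      rw [hWo] at g3 e1
      rw [hWo'] at g3' e1
      simp only [Cbx.mk.injEq] at e1 g3 g3' ⊢
      obtain ⟨m1, -, m3, m4, m5, m6, m7, m8⟩ := e1
      exact ⟨m1, g3.trans g3'.symm, m3, m4, m5, m6, m7, m8⟩
    · refine Stk.hc_mono_right P _ ?_
      intro ω ω' _ _ e
      simp only [Prod.mk.injEq] at e ⊢
      exact ⟨by rw [e.1], e.2⟩

/-- the box without curvature, thickness `1` -/
noncomputable def flatB (B : Cbx) : Cbx := { B with u1 := 1, α := 0 }

theorem flat_val {c : ℝ} (hc : 1 ≤ c) {h q : ℕ} {W : Cbx} {l : Ry} {t : ℝ} (H : W0 c h q W l t) :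
    (∀ k, |nv W (bl h l t) k - nv (flatB W) (bl h l t) k| ≤ 2 * c ^ 2) ∧
    |G0 W (bl h l t) - G0 (flatB W) (bl h l t)| ≤ 2 * c ^ 3 ∧
    |G1 W (bl h l t) - G1 (flatB W) (bl h l t)| ≤ 2 * c * (c + 2 * c ^ 2) := by
  obtain ⟨i1, i2, i3, i4, i5⟩ := H.inn
  have hα := H.α
  rw [H.u2] at i1 i2 i3
  simp only [mul_one] at i1 i2
  rw [one_pow, max_eq_left zero_le_one, mul_one] at i3
  have hc0 : 0 ≤ c := by linarith
  have hα0 := abs_nonneg W.α
  refine ⟨fun k => ?_, ?_, ?_⟩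
  · have e : nv W (bl h l t) k - nv (flatB W) (bl h l t) k = -(2 * (W.α * ((bl h l t).y k - W.p k))) := by
      fin_cases k <;> simp [nv, Cbx.nn, flatB] <;> ring
    rw [e, abs_neg, abs_mul, abs_two, abs_mul]
    have := mul_le_mul hα (i1 k) (abs_nonneg _) hc0
    nlinarith
  · have e : G0 W (bl h l t) - G0 (flatB W) (bl h l t) =
        -(W.α * (((bl h l t).y 0 - W.p 0) ^ 2 + ((bl h l t).y 1 - W.p 1) ^ 2)) := by
      simp [G0, Cbx.g0, flatB, Fin.sum_univ_two]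
    rw [e, abs_neg, abs_mul, abs_of_nonneg (by positivity : (0 : ℝ) ≤ ((bl h l t).y 0 - W.p 0) ^ 2 +
      ((bl h l t).y 1 - W.p 1) ^ 2)]
    have a0 := pow_le_pow_left₀ (abs_nonneg _) (i1 0) 2
    have a1 := pow_le_pow_left₀ (abs_nonneg _) (i1 1) 2
    rw [sq_abs] at a0 a1
    have := mul_le_mul hα (add_le_add a0 a1) (by positivity) hc0
    nlinarith
  · have e : G1 W (bl h l t) - G1 (flatB W) (bl h l t) =
        2 * (W.α * (((bl h l t).z + ∑ k, (bl h l t).y k * ((bl h l t).s k - W.v k) - W.ω) -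
          (((bl h l t).y 0 - W.p 0) * ((bl h l t).s 0 - W.v 0) + ((bl h l t).y 1 - W.p 1) * ((bl h l t).s 1 - W.v 1)))) := by
      simp [G1, Cbx.g1, flatB, Fin.sum_univ_two]
      ring
    rw [e, abs_mul, abs_two, abs_mul]
    have b0 : |((bl h l t).y 0 - W.p 0) * ((bl h l t).s 0 - W.v 0)| ≤ c * c := by
      rw [abs_mul]; exact mul_le_mul (i1 0) (i2 0) (abs_nonneg _) hc0
    have b1 : |((bl h l t).y 1 - W.p 1) * ((bl h l t).s 1 - W.v 1)| ≤ c * c := by
      rw [abs_mul]; exact mul_le_mul (i1 1) (i2 1) (abs_nonneg _) hc0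
    have b2 := abs_sub ((bl h l t).z + ∑ k, (bl h l t).y k * ((bl h l t).s k - W.v k) - W.ω)
      (((bl h l t).y 0 - W.p 0) * ((bl h l t).s 0 - W.v 0) + ((bl h l t).y 1 - W.p 1) * ((bl h l t).s 1 - W.v 1))
    have b3 := abs_add_le (((bl h l t).y 0 - W.p 0) * ((bl h l t).s 0 - W.v 0))
      (((bl h l t).y 1 - W.p 1) * ((bl h l t).s 1 - W.v 1))
    have b4 : |((bl h l t).z + ∑ k, (bl h l t).y k * ((bl h l t).s k - W.v k) - W.ω) -
      (((bl h l t).y 0 - W.p 0) * ((bl h l t).s 0 - W.v 0) + ((bl h l t).y 1 - W.p 1) * ((bl h l t).s 1 - W.v 1))| ≤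
        c + 2 * c ^ 2 := by nlinarith
    have := mul_le_mul hα b4 (abs_nonneg _) hc0
    linarith

/-- the reference box at a ray -/
noncomputable def refB (m : Ry) : Cbx := ⟨0, 1, 1, 0, 0, m.y, m.s, m.z⟩

/-- class of the record for small precision -/
def cS0 (c : ℝ) : ℝ := 2 + (c + 2 * (c * (c + 2 * c * (c + 2 * c ^ 2)))) + c + (c + 2 * c ^ 3) + (c + 2 * c * (c + 2 * c ^ 2)) +
    2 * c ^ 2

/-- **small precision** : the record exists -/
theorem exr_small (c : ℝ) (hc : 1 ≤ c) : ∃ K0 K : ℝ, 1 ≤ K0 ∧ K0 = cS0 c ∧ 0 ≤ K ∧ ∀ {lam N k β d : ℝ} {Ω : Type} [Fintype Ω] {γ : Type}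
    {P : Law Ω} {l : Ω → Ry} {t : Ω → ℝ} {C : Ω → γ} {L h q : ℕ} {W : Ω → Cbx}, NEx c lam N k β d P l t C L h q W →
    ∀ g θ : ℝ, 0 ≤ g → θ ≤ 1 → (q : ℝ) ≤ g * h → K ≤ g * h → ExR K0 g θ P l t C h q W := by
  set D : ℝ := 2 + (c + 2 * (c * (c + 2 * c * (c + 2 * c ^ 2)))) + c + (c + 2 * c ^ 3) + (c + 2 * c * (c + 2 * c ^ 2)) +
    2 * c ^ 2 with hD
  have hc0 : 0 ≤ c := by linarith
  have p2 : 0 ≤ c ^ 2 := by positivity
  have p3 : 0 ≤ c ^ 3 := by positivity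
  have p4 : 0 ≤ 2 * c * (c + 2 * c ^ 2) := by positivity
  have p5 : 0 ≤ c * (c + 2 * c * (c + 2 * c ^ 2)) := by positivity
  have hD0 : 0 ≤ D := by rw [hD]; positivity
  obtain ⟨M, hM⟩ := cf_mem (2 * D * (1 + 4 * 3 + 5 * 3 ^ 2))
  refine ⟨D, Real.log (M + 1 : ℕ), by rw [hD]; linarith, by rw [hD, cS0],
    Real.log_nonneg (by push_cast; linarith [(Nat.cast_nonneg M : (0 : ℝ) ≤ M)]), ?_⟩
  intro lam N k β d Ω _ γ P l t C L h q W hN g θ hg hθ hq hK
  have hW : ∀ ω, 0 < P.w ω → W0 c h q (W ω) (l ω) (t ω) := fun ω hω =>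
    W0.of (hN.ok ω hω).1 (hN.ok ω hω).2.1 (hN.ok ω hω).2.2 (hN.lb ω hω).1 (hN.lb ω hω).2.1 (hN.lb ω hω).2.2
  have hq1 : (1 / 2 : ℝ) ^ q ≤ 1 := pow_le_one₀ (by norm_num) (by norm_num)
  have hcq : c * (1 / 2 : ℝ) ^ q ≤ c := by nlinarith
  have hb : ∀ ω, 0 < P.w ω → |G0 (flatB (W ω)) (bl h (l ω) (t ω))| ≤ c + 2 * c ^ 3 ∧
      |G1 (flatB (W ω)) (bl h (l ω) (t ω))| ≤ c + 2 * c * (c + 2 * c ^ 2) := by
    intro ω hω
    obtain ⟨-, f1, f2⟩ := flat_val hc (hW ω hω)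
    obtain ⟨g1, g2⟩ := (hW ω hω).g
    have a1 := abs_sub_abs_le_abs_sub (G0 (flatB (W ω)) (bl h (l ω) (t ω))) (G0 (W ω) (bl h (l ω) (t ω)))
    have a2 := abs_sub_abs_le_abs_sub (G1 (flatB (W ω)) (bl h (l ω) (t ω))) (G1 (W ω) (bl h (l ω) (t ω)))
    rw [abs_sub_comm] at a1 a2
    exact ⟨by linarith, by linarith⟩
  have hFa : ∀ ω, (Fa h (flatB (W ω)) (t ω)).α = 0 := fun ω => by
    show 2 ^ h * (0 : ℝ) = 0
    rw [mul_zero]
  refine ⟨0, h, 0, fun ω => flatB (W ω), Nat.zero_add h, ?_, Nat.zero_le _, ?_, ?_, ?_, ?_⟩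
  · have : (0 : ℝ) ≤ h := Nat.cast_nonneg _
    push_cast
    exact mul_nonneg (by linarith) this
  · push_cast
    linarith
  · intro ω hω
    have H := hW ω hω
    obtain ⟨i1, i2, i3, i4, i5⟩ := H.inn
    obtain ⟨f0, f1, f2⟩ := flat_val hc H
    obtain ⟨b1, b2⟩ := hb ω hω
    have cD : c ≤ D := by rw [hD]; linarith
    refine ⟨⟨H.ok, H.t0, H.t1, H.u2, by rw [pow_zero]; rfl, by show |(0 : ℝ)| ≤ D; rw [abs_zero]; exact hD0,
      H.κ.trans cD, ⟨?_, ?_, ?_, ?_, ?_⟩⟩, ?_, ⟨?_, ?_, ?_, ?_, ?_⟩⟩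
    · exact fun k => (i1 k).trans (mul_le_mul_of_nonneg_right cD (by rw [H.u2]; norm_num))
    · exact fun k => (i2 k).trans (mul_le_mul_of_nonneg_right cD (by rw [H.u2]; norm_num))
    · refine i3.trans ?_
      rw [H.u2]
      show c * max (1 ^ 2) 0 ≤ D * max ((W ω).u2 ^ 2) 0
      rw [H.u2]
      exact mul_le_mul_of_nonneg_right cD (le_max_right _ _)
    · refine b1.trans ?_
      show _ ≤ D * 1
      rw [mul_one, hD]
      linarith
    · refine b2.trans ?_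
      show _ ≤ D * 1
      rw [mul_one, hD]
      linarith
    · rw [hFa, abs_zero]; positivity
    · intro k
      rw [pow_zero, pow_zero, mul_one, mul_one, one_mul]
      exact (f0 k).trans (by rw [hD]; linarith)
    · have e : (W ω).κ - 1 * (flatB (W ω)).κ = 0 := by rw [one_mul]; exact sub_self _
      rw [e, abs_zero]; positivity
    · have e : (W ω).α - 1 * (flatB (W ω)).α = (W ω).α := by
        show (W ω).α - 1 * 0 = _
        ring
      rw [e, Nat.mul_zero, pow_zero, pow_zero, mul_one, mul_one]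
      exact H.α.trans cD
    · rw [one_mul, pow_zero, mul_one]
      exact f1.trans (by rw [hD]; linarith)
    · rw [one_mul, pow_zero, mul_one]
      exact f2.trans (by rw [hD]; linarith)
  · have : Stk.hc P (fun ω => flatB (W ω)) (fun ω => (W ω, fl1 h (t ω), C ω)) = 0 := by
      refine Stk.hc_zero P ?_
      intro ω ω' _ _ e
      simp only [Prod.mk.injEq] at e
      show flatB (W ω) = flatB (W ω')
      rw [e.1]
    rw [this]
    positivity
  · refine le_trans (Stk.hc_le_log P _ _ (M + 1) fun ω hω => ?_) hK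
    obtain ⟨S, hS, hSm⟩ := hM 0 0 le_rfl (refB (bl 0 (l ω) (t ω))) (ctr 0 (pl 0 (bl 0 (l ω) (t ω)))) 1
    refine ⟨S, hS.trans (Nat.le_succ _), fun ω' hω' e => ?_⟩
    simp only [Prod.mk.injEq] at e
    obtain ⟨e1, e2, -⟩ := e
    have ebl : bl 0 (l ω') (t ω') = bl 0 (l ω) (t ω) := by rw [e1, bl_eq e2]
    have hmem := hSm (Fl 0 h (flatB (W ω')) (t ω')) ?_
    · show cf 0 0 (Fl 0 h (flatB (W ω')) (t ω')) (ctr 0 (pl 0 (bl 0 (l ω') (t ω')))) ∈ S
      rw [ebl]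
      exact hmem
    · rw [← ebl]
      have hnr := (nr_ctr 0 (bl 0 (l ω') (t ω'))).symm' zero_le_one
      norm_num at hnr
      obtain ⟨b1, b2⟩ := hb ω' hω'
      have hτ0 := H513.tau_nonneg 0 h (t ω')
      have hτ1 := H513.tau_le 0 h (t ω')
      have hbl : bl 0 (l ω') (t ω') = dn h (tau 0 h (t ω')) (bl h (l ω') (t ω')) := bl_zero h (l ω') (t ω')
      have r0 : ∀ m : Ry, G0 (refB m) m = 0 := fun m => by simp [G0, Cbx.g0, refB, P122.C2.fn]
      have r1 : ∀ m : Ry, G1 (refB m) m = 0 := fun m => by simp [G1, Cbx.g1, refB, P122.C2.fn]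
      have rn : ∀ (m : Ry) k, |nv (refB m) m k| ≤ 1 := fun m k => by
        fin_cases k <;> simp [nv, Cbx.nn, refB]
      have h2h : (1 : ℝ) ≤ 2 ^ h := one_le_pow₀ (by norm_num)
      have κc : |(flatB (W ω')).κ| ≤ c := (hW ω' hω').κ
      have hcl : Cl (2 * D) 0 0 1 (Fl 0 h (flatB (W ω')) (t ω')) (refB (bl 0 (l ω') (t ω'))) (bl 0 (l ω') (t ω')) := by
        refine ⟨fun k => ?_, ?_, ?_, ?_, ?_⟩
        · rw [pow_zero, pow_zero, mul_one, mul_one, one_mul]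
          have e1 : nv (Fl 0 h (flatB (W ω')) (t ω')) (bl 0 (l ω') (t ω')) k =
              nv (flatB (W ω')) (bl h (l ω') (t ω')) k := by
            rw [hbl]
            exact congrFun (nv_dn h (tau 0 h (t ω')) (flatB (W ω')) (bl h (l ω') (t ω'))) k
          rw [e1]
          have e2 := nv_sq (flatB (W ω')) (bl h (l ω') (t ω'))
          have e3 : (flatB (W ω')).α = 0 := rfl
          rw [e3] at e2
          have e4 : |(flatB (W ω')).κ * G1 (flatB (W ω')) (bl h (l ω') (t ω'))| ≤ c * (c + 2 * c * (c + 2 * c ^ 2)) := by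
            rw [abs_mul]
            exact mul_le_mul κc b2 (abs_nonneg _) hc0
          have e5 := (abs_le.1 e4).2
          have e6 : nv (flatB (W ω')) (bl h (l ω') (t ω')) k ^ 2 ≤ 1 + 2 * (c * (c + 2 * c * (c + 2 * c ^ 2))) := by
            fin_cases k
            · show nv (flatB (W ω')) (bl h (l ω') (t ω')) 0 ^ 2 ≤ _
              nlinarith [sq_nonneg (nv (flatB (W ω')) (bl h (l ω') (t ω')) 1)]
            · show nv (flatB (W ω')) (bl h (l ω') (t ω')) 1 ^ 2 ≤ _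
              nlinarith [sq_nonneg (nv (flatB (W ω')) (bl h (l ω') (t ω')) 0)]
          have e7 := abs_le_one_add_sq e6
          have e8 := abs_sub (nv (flatB (W ω')) (bl h (l ω') (t ω')) k) (nv (refB (bl 0 (l ω') (t ω'))) (bl 0 (l ω') (t ω')) k)
          have e9 := rn (bl 0 (l ω') (t ω')) k
          rw [hD]
          nlinarith
        · rw [Nat.mul_zero, pow_zero, pow_zero, mul_one, mul_one, one_mul]
          have e1 : (Fl 0 h (flatB (W ω')) (t ω')).κ - (refB (bl 0 (l ω') (t ω'))).κ = (flatB (W ω')).κ := by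
            show (flatB (W ω')).κ - 2 * tau 0 h (t ω') * 2 ^ h * 0 - 0 = _
            ring
          rw [e1]
          exact κc.trans (by rw [hD]; linarith)
        · rw [Nat.mul_zero, pow_zero, pow_zero, mul_one, mul_one, one_mul]
          have e1 : (Fl 0 h (flatB (W ω')) (t ω')).α - (refB (bl 0 (l ω') (t ω'))).α = 0 := by
            show 2 ^ h * (0 : ℝ) - 0 = 0
            ring
          rw [e1, abs_zero]
          positivity
        · rw [one_mul, r0, sub_zero, pow_zero, mul_one]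
          have e1 : G0 (Fl 0 h (flatB (W ω')) (t ω')) (bl 0 (l ω') (t ω')) =
              G0 (flatB (W ω')) (bl h (l ω') (t ω')) / 2 ^ h - tau 0 h (t ω') * G1 (flatB (W ω')) (bl h (l ω') (t ω')) := by
            rw [hbl]
            exact G0_dn h (tau 0 h (t ω')) (flatB (W ω')) (bl h (l ω') (t ω'))
          rw [e1]
          have e2 := abs_sub (G0 (flatB (W ω')) (bl h (l ω') (t ω')) / 2 ^ h)
            (tau 0 h (t ω') * G1 (flatB (W ω')) (bl h (l ω') (t ω')))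
          have e3 : |G0 (flatB (W ω')) (bl h (l ω') (t ω')) / 2 ^ h| ≤ |G0 (flatB (W ω')) (bl h (l ω') (t ω'))| := by
            rw [abs_div, abs_of_pos (by positivity : (0 : ℝ) < 2 ^ h)]
            exact div_le_self (abs_nonneg _) h2h
          have e4 : |tau 0 h (t ω') * G1 (flatB (W ω')) (bl h (l ω') (t ω'))| ≤
              1 * |G1 (flatB (W ω')) (bl h (l ω') (t ω'))| := by
            rw [abs_mul, abs_of_nonneg hτ0]
            exact mul_le_mul_of_nonneg_right hτ1 (abs_nonneg _)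
          rw [hD]
          linarith
        · rw [one_mul, r1, sub_zero, pow_zero, mul_one]
          have e1 : G1 (Fl 0 h (flatB (W ω')) (t ω')) (bl 0 (l ω') (t ω')) =
              G1 (flatB (W ω')) (bl h (l ω') (t ω')) := by
            rw [hbl]
            exact G1_dn h (tau 0 h (t ω')) (flatB (W ω')) (bl h (l ω') (t ω'))
          rw [e1, hD]
          linarith
      exact hcl.move (by positivity) (by norm_num) hnr

end Vale.Agent.P106.U.H459
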