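import Vale.Agent.P106.U.H459.ExitC
import Vale.Agent.P106.U.H786.Adp2

/-!
# P106 / U / H459 : the modified end label of a run (geometry)

* `Pt` : the data at a point: label `W` of level `h`, functional `H = ρ FW`, own slope `p`, numbers `kn, an` (kappa at the time `s`
  and curvature of the path).
* `bend ρ an h r W` : the label with the curvature of the path, thickness `2^-r`; `Pt.bend_cl`, `Pt.bend_w0`, `Pt.bend_fa`.
* `Pt.two` : the functionals of two modified labels of one ray in the block of level `a` agree to `r` digits.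
-/

set_option autoImplicit false

namespace Vale.Agent.P106.U.H459

open Vale.Agent.P127 Vale.Agent.P127.Stk Vale.Agent.P127.U Vale.Agent.P106.W Vale.Agent.P106.K Vale.Agent.P106.U.H428
open Vale.Agent.P106.U.H513 (dn dnB tau)
open Vale.Agent.P122.C2 (fn fw)
open Vale.Agent.P127.U.CellD (q2)

/-- data at a point -/
structure Pt (c K θ : ℝ) (a0 h q r : ℕ) (W : Cbx) (l : Ry) (t : ℝ) (H : Cell.Fu) (ρ p kn an s : ℝ) : Prop where
  w0 : W0 c h q W l t
  ρ1 : 1 ≤ K * |ρ|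
  ρ2 : |ρ| ≤ K
  eq : H = ⟨ρ * (H786.Adp.FW θ h W t).ga, ρ * (H786.Adp.FW θ h W t).ph, ρ * (H786.Adp.FW θ h W t).ka,
    ρ * (H786.Adp.FW θ h W t).al⟩
  nrm : |H.cN (H786.Adp.toR θ l) (qa h t) ^ 2 + H.cV (H786.Adp.toR θ l) (qa h t) ^ 2 - 1| ≤ K * q2 q
  cp : p * H.cN (H786.Adp.toR θ l) (qa h t) = H.cV (H786.Adp.toR θ l) (qa h t)
  p1 : |p| ≤ 1
  c1 : 1 ≤ 2 * K * H.cN (H786.Adp.toR θ l) (qa h t)
  ka : |H.ka - (kn - (qa h t - s) * an)| ≤ K * q2 r
  al : |H.al - an| * q2 h ≤ K * q2 r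
  an1 : |an| * q2 a0 ≤ K
  kn1 : |kn| ≤ K
  hr : r ≤ q

/-- the label with the curvature of the path -/
noncomputable def bend (ρ an : ℝ) (h r : ℕ) (W : Cbx) : Cbx :=
  { W with u1 := (1 / 2 : ℝ) ^ r, α := an / (2 * ρ * 2 ^ h) }

theorem q2_inv (h : ℕ) : q2 h = 1 / 2 ^ h := by unfold q2; rw [div_pow, one_pow]

theorem mul_q2 (h : ℕ) : (2 : ℝ) ^ h * q2 h = 1 := by rw [q2_inv]; field_simp

section

variable {c K θ : ℝ} {a0 h q r : ℕ} {W : Cbx} {l : Ry} {t : ℝ} {H : Cell.Fu} {ρ p kn an s : ℝ}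

theorem Pt.ρ0 (D : Pt c K θ a0 h q r W l t H ρ p kn an s) : ρ ≠ 0 := by
  intro h0
  have := D.ρ1
  rw [h0, abs_zero, mul_zero] at this
  linarith

theorem Pt.K1 (D : Pt c K θ a0 h q r W l t H ρ p kn an s) : 1 ≤ K := by
  have h1 := D.ρ1
  have h2 := D.ρ2
  have h3 := abs_nonneg ρ
  nlinarith

/-- difference of the curvatures -/
theorem Pt.dal (D : Pt c K θ a0 h q r W l t H ρ p kn an s) : |W.α - (bend ρ an h r W).α| ≤ K ^ 2 * q2 r := by
  have hρ := D.ρ0
  have hK := D.K1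
  have hal := D.al
  have e1 : H.al = ρ * (2 * W.α * 2 ^ h) := by
    rw [D.eq]
    show ρ * (H786.Adp.FW θ h W t).al = _
    rw [H786.Adp.FW_al]
  have h2 : (2 : ℝ) ^ h ≠ 0 := by positivity
  have e2 : W.α - (bend ρ an h r W).α = (H.al - an) * q2 h * (1 / (2 * ρ)) := by
    show W.α - an / (2 * ρ * 2 ^ h) = _
    rw [e1, q2_inv]
    field_simp
  rw [e2, abs_mul, abs_mul, abs_of_pos (by rw [q2_inv]; positivity : 0 < q2 h)]
  have e3 : |1 / (2 * ρ)| ≤ K := by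
    rw [abs_div, abs_one, abs_mul, abs_two]
    rw [div_le_iff₀ (by positivity)]
    nlinarith [D.ρ1, abs_nonneg ρ]
  have := mul_le_mul hal e3 (abs_nonneg _) (by have := abs_nonneg (H.al - an); have := CellD.q2_pos r; positivity)
  linarith

theorem Pt.q0 (_D : Pt c K θ a0 h q r W l t H ρ p kn an s) : 0 < q2 r := CellD.q2_pos r

/-- closeness of the modified label -/
theorem Pt.bend_cl (hc : 1 ≤ c) (D : Pt c K θ a0 h q r W l t H ρ p kn an s) :
    Cl (6 * c ^ 3 * K ^ 2) 0 r 1 W (bend ρ an h r W) (bl h l t) := by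
  obtain ⟨i1, i2, i3, i4, i5⟩ := D.w0.inn
  have hd := D.dal
  have hq := D.q0
  have hK := D.K1
  rw [D.w0.u2] at i1 i2 i3
  simp only [mul_one] at i1 i2
  rw [one_pow, max_eq_left zero_le_one, mul_one] at i3
  set δ := W.α - (bend ρ an h r W).α with hδ
  have hc0 : 0 ≤ c := by linarith
  have hKq : 0 ≤ K ^ 2 * q2 r := by positivity
  have hc13 : c ≤ c ^ 3 := by nlinarith [mul_self_nonneg (c - 1), mul_nonneg hc0 hc0]
  have hc23 : c ^ 2 ≤ c ^ 3 := by nlinarith [mul_nonneg hc0 hc0]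
  have h13 : 1 ≤ c ^ 3 := hc.trans hc13
  have hq2 : (1 / 2 : ℝ) ^ r = q2 r := rfl
  have key : ∀ x : ℝ, x ≤ 6 * c ^ 3 → x * (K ^ 2 * q2 r) ≤ 6 * c ^ 3 * K ^ 2 * q2 r := fun x hx => by
    have := mul_le_mul_of_nonneg_right hx hKq
    linarith
  refine ⟨fun k => ?_, ?_, ?_, ?_, ?_⟩
  · rw [pow_zero, one_mul, one_mul, hq2]
    have e : nv W (bl h l t) k - nv (bend ρ an h r W) (bl h l t) k = -(2 * (δ * ((bl h l t).y k - W.p k))) := by
      rw [hδ]
      fin_cases k <;> simp [nv, Cbx.nn, bend] <;> ring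
    rw [e, abs_neg, abs_mul, abs_two, abs_mul]
    have := mul_le_mul hd (i1 k) (abs_nonneg _) hKq
    have := key (2 * c) (by linarith)
    linarith
  · have e : W.κ - 1 * (bend ρ an h r W).κ = 0 := by
      show W.κ - 1 * W.κ = 0
      ring
    rw [e, abs_zero]; positivity
  · rw [one_mul, Nat.mul_zero, pow_zero, one_mul, hq2]
    have := key 1 (by linarith)
    linarith
  · rw [one_mul, hq2]
    have e : G0 W (bl h l t) - G0 (bend ρ an h r W) (bl h l t) =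
        -(δ * (((bl h l t).y 0 - W.p 0) ^ 2 + ((bl h l t).y 1 - W.p 1) ^ 2)) := by
      rw [hδ]
      simp [G0, Cbx.g0, bend, Fin.sum_univ_two]
      ring
    rw [e, abs_neg, abs_mul, abs_of_nonneg (by positivity : (0 : ℝ) ≤ ((bl h l t).y 0 - W.p 0) ^ 2 +
      ((bl h l t).y 1 - W.p 1) ^ 2)]
    have a0 := pow_le_pow_left₀ (abs_nonneg _) (i1 0) 2
    have a1 := pow_le_pow_left₀ (abs_nonneg _) (i1 1) 2
    rw [sq_abs] at a0 a1
    have := mul_le_mul hd (add_le_add a0 a1) (by positivity) hKq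
    have := key (c ^ 2 + c ^ 2) (by linarith)
    linarith
  · rw [one_mul, hq2]
    have e : G1 W (bl h l t) - G1 (bend ρ an h r W) (bl h l t) =
        2 * (δ * (((bl h l t).z + ∑ k, (bl h l t).y k * ((bl h l t).s k - W.v k) - W.ω) -
          (((bl h l t).y 0 - W.p 0) * ((bl h l t).s 0 - W.v 0) + ((bl h l t).y 1 - W.p 1) * ((bl h l t).s 1 - W.v 1)))) := by
      rw [hδ]
      simp [G1, Cbx.g1, bend, Fin.sum_univ_two]
      ring
    rw [e, abs_mul, abs_two, abs_mul]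
    have b0 : |((bl h l t).y 0 - W.p 0) * ((bl h l t).s 0 - W.v 0)| ≤ c * c := by
      rw [abs_mul]; exact mul_le_mul (i1 0) (i2 0) (abs_nonneg _) hc0
    have b1 : |((bl h l t).y 1 - W.p 1) * ((bl h l t).s 1 - W.v 1)| ≤ c * c := by
      rw [abs_mul]; exact mul_le_mul (i1 1) (i2 1) (abs_nonneg _) hc0
    have b2 := abs_sub ((bl h l t).z + ∑ k, (bl h l t).y k * ((bl h l t).s k - W.v k) - W.ω)
      (((bl h l t).y 0 - W.p 0) * ((bl h l t).s 0 - W.v 0) + ((bl h l t).y 1 - W.p 1) * ((bl h l t).s 1 - W.v 1))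
    have b3 := abs_add_le (((bl h l t).y 0 - W.p 0) * ((bl h l t).s 0 - W.v 0))
      (((bl h l t).y 1 - W.p 1) * ((bl h l t).s 1 - W.v 1))
    have b4 : |((bl h l t).z + ∑ k, (bl h l t).y k * ((bl h l t).s k - W.v k) - W.ω) -
      (((bl h l t).y 0 - W.p 0) * ((bl h l t).s 0 - W.v 0) + ((bl h l t).y 1 - W.p 1) * ((bl h l t).s 1 - W.v 1))| ≤
        c + 2 * c ^ 2 := by nlinarith
    have := mul_le_mul hd b4 (abs_nonneg _) hKq
    have := key (2 * (c + 2 * c ^ 2)) (by linarith)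
    linarith

/-- constant of the modified label -/
noncomputable def cM (c K : ℝ) : ℝ := 7 * c ^ 3 * K ^ 2

theorem le_cM {c K : ℝ} (hc : 1 ≤ c) (hK : 1 ≤ K) : c ≤ cM c K ∧ c + K ^ 2 ≤ cM c K ∧ c + 6 * c ^ 3 * K ^ 2 ≤ cM c K ∧
    1 ≤ cM c K ∧ 6 * c ^ 3 * K ^ 2 ≤ cM c K := by
  have hc3 : c ≤ c ^ 3 := by nlinarith [mul_self_nonneg (c - 1), mul_self_nonneg c]
  have h1 : 1 ≤ c ^ 3 := hc.trans hc3
  have hK2 : 1 ≤ K ^ 2 := by nlinarith
  have h2 : c ≤ c ^ 3 * K ^ 2 := by nlinarith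
  have h3 : K ^ 2 ≤ c ^ 3 * K ^ 2 := by nlinarith
  have h4 : 0 ≤ c ^ 3 * K ^ 2 := by positivity
  unfold cM
  refine ⟨by linarith, by linarith, by linarith, by linarith, by linarith⟩

/-- the modified label is a label -/
theorem Pt.bend_w0 (hc : 1 ≤ c) (D : Pt c K θ a0 h q r W l t H ρ p kn an s) :
    W0 (cM c K) h r (bend ρ an h r W) l t := by
  have hK := D.K1
  obtain ⟨m1, m2, m3, m4, m5⟩ := le_cM hc hK
  obtain ⟨i1, i2, i3, i4, i5⟩ := D.w0.inn
  have hcl := D.bend_cl hc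
  have hd := D.dal
  have hq := D.q0
  have hq1 : q2 r ≤ 1 := by unfold q2; exact pow_le_one₀ (by norm_num) (by norm_num)
  have hrq : (1 / 2 : ℝ) ^ q ≤ (1 / 2 : ℝ) ^ r := pow_le_pow_of_le_one (by norm_num) (by norm_num) D.hr
  have hg := D.w0.g
  have hc0 : 0 ≤ c := by linarith
  have hcr : c * (1 / 2 : ℝ) ^ q ≤ c * (1 / 2 : ℝ) ^ r := mul_le_mul_of_nonneg_left hrq hc0
  refine ⟨D.w0.ok, D.w0.t0, D.w0.t1, D.w0.u2, rfl, ?_, D.w0.κ.trans m1, ⟨?_, ?_, ?_, ?_, ?_⟩⟩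
  · have h1 := abs_sub_abs_le_abs_sub (bend ρ an h r W).α W.α
    rw [abs_sub_comm] at h1
    have h2 := D.w0.α
    have h3 : K ^ 2 * q2 r ≤ K ^ 2 := by nlinarith [sq_nonneg K]
    linarith
  · exact fun k => (i1 k).trans (mul_le_mul_of_nonneg_right m1 (by rw [D.w0.u2]; norm_num))
  · exact fun k => (i2 k).trans (mul_le_mul_of_nonneg_right m1 (by rw [D.w0.u2]; norm_num))
  · refine i3.trans ?_
    rw [D.w0.u2]
    show c * max (1 ^ 2) 0 ≤ cM c K * max (W.u2 ^ 2) 0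
    rw [D.w0.u2]
    exact mul_le_mul_of_nonneg_right m1 (le_max_right _ _)
  · have h1 := hcl.g0
    rw [one_mul] at h1
    have h2 := abs_sub_abs_le_abs_sub (G0 (bend ρ an h r W) (bl h l t)) (G0 W (bl h l t))
    rw [abs_sub_comm] at h2
    show |G0 (bend ρ an h r W) (bl h l t)| ≤ cM c K * (1 / 2 : ℝ) ^ r
    have h3 : (c + 6 * c ^ 3 * K ^ 2) * (1 / 2 : ℝ) ^ r ≤ cM c K * (1 / 2 : ℝ) ^ r :=
      mul_le_mul_of_nonneg_right m3 (by positivity)
    have h4 := hg.1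
    linarith
  · have h1 := hcl.g1
    rw [one_mul] at h1
    have h2 := abs_sub_abs_le_abs_sub (G1 (bend ρ an h r W) (bl h l t)) (G1 W (bl h l t))
    rw [abs_sub_comm] at h2
    show |G1 (bend ρ an h r W) (bl h l t)| ≤ cM c K * (1 / 2 : ℝ) ^ r
    have h3 : (c + 6 * c ^ 3 * K ^ 2) * (1 / 2 : ℝ) ^ r ≤ cM c K * (1 / 2 : ℝ) ^ r :=
      mul_le_mul_of_nonneg_right m3 (by positivity)
    have h4 := hg.2
    linarith

/-- the curvature of the absolute functional -/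
theorem Pt.bend_fa (D : Pt c K θ a0 h q r W l t H ρ p kn an s) :
    |(Fa h (bend ρ an h r W) t).α| ≤ K ^ 2 * 2 ^ a0 := by
  have hρ := D.ρ0
  have hK := D.K1
  have h2 : (2 : ℝ) ^ h ≠ 0 := by positivity
  have e : (Fa h (bend ρ an h r W) t).α = an * (1 / (2 * ρ)) := by
    show 2 ^ h * (an / (2 * ρ * 2 ^ h)) = _
    field_simp
  have e3 : |1 / (2 * ρ)| ≤ K := by
    rw [abs_div, abs_one, abs_mul, abs_two]
    rw [div_le_iff₀ (by positivity)]
    nlinarith [D.ρ1, abs_nonneg ρ]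
  have e4 : |an| ≤ K * 2 ^ a0 := by
    have h5 := D.an1
    have h6 := mul_q2 a0
    have h7 : |an| = |an| * q2 a0 * 2 ^ a0 := by
      rw [mul_assoc, mul_comm (q2 a0), h6, mul_one]
    rw [h7]
    exact mul_le_mul_of_nonneg_right h5 (by positivity)
  rw [e, abs_mul]
  have := mul_le_mul e4 e3 (abs_nonneg _) (by positivity)
  linarith

/-! ### the sign and the normal -/

/-- the sign -/
noncomputable def sg (ρ : ℝ) : ℝ := if 0 < ρ then 1 else -1

theorem sg_or (ρ : ℝ) : sg ρ = 1 ∨ sg ρ = -1 := by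
  unfold sg
  split_ifs
  · exact Or.inl rfl
  · exact Or.inr rfl

theorem sg_mul {ρ : ℝ} (h : ρ ≠ 0) : sg ρ * ρ = |ρ| := by
  unfold sg
  split_ifs with h1
  · rw [one_mul, abs_of_pos h1]
  · rw [neg_one_mul, abs_of_nonpos (not_lt.1 h1)]

/-- constant -/
noncomputable def cE' (c K : ℝ) : ℝ := K * (K + 6 * K ^ 2 * c ^ 2)

theorem Pt.cov (D : Pt c K θ a0 h q r W l t H ρ p kn an s) :
    ρ * nv W (bl h l t) 0 = -(Real.cos θ * H.cV (H786.Adp.toR θ l) (qa h t)) -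
        Real.sin θ * H.cN (H786.Adp.toR θ l) (qa h t) ∧
    ρ * nv W (bl h l t) 1 = -(Real.sin θ * H.cV (H786.Adp.toR θ l) (qa h t)) +
        Real.cos θ * H.cN (H786.Adp.toR θ l) (qa h t) := by
  have e1 : H.cN (H786.Adp.toR θ l) (qa h t) = ρ * (H786.Adp.FW θ h W t).cN (H786.Adp.toR θ l) (qa h t) := by
    rw [D.eq]
    simp only [Cell.Fu.cN]
    ring
  have e2 : H.cV (H786.Adp.toR θ l) (qa h t) = ρ * (H786.Adp.FW θ h W t).cV (H786.Adp.toR θ l) (qa h t) := by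
    rw [D.eq]
    simp only [Cell.Fu.cV]
    ring
  have e3 : ∀ k, (H786.Adp.fuW h W t).cov l k = nv W (bl h l t) k := fun k => H786.Adp.fuW_cov h W t l k
  rw [e1, e2, H786.Adp.FW_cN, H786.Adp.FW_cV]
  simp only [fn, fw]
  rw [e3 0, e3 1]
  have hsc := Real.sin_sq_add_cos_sq θ
  constructor
  · linear_combination (-(ρ * nv W (bl h l t) 0)) * hsc
  · linear_combination (-(ρ * nv W (bl h l t) 1)) * hsc

theorem Pt.nsq (hc : 1 ≤ c) (D : Pt c K θ a0 h q r W l t H ρ p kn an s) :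
    |nv W (bl h l t) 0 ^ 2 + nv W (bl h l t) 1 ^ 2 - 1| ≤ 6 * c ^ 2 * q2 q := by
  have h1 := nv_sq W (bl h l t)
  have hg := D.w0.g
  have hq : (1 / 2 : ℝ) ^ q = q2 q := rfl
  rw [hq] at hg
  have e : nv W (bl h l t) 0 ^ 2 + nv W (bl h l t) 1 ^ 2 - 1 =
      2 * (W.κ * G1 W (bl h l t)) - 4 * (W.α * G0 W (bl h l t)) := by
    rw [h1]; ring
  rw [e]
  have a1 : |W.κ * G1 W (bl h l t)| ≤ c * (c * q2 q) := by
    rw [abs_mul]; exact mul_le_mul D.w0.κ hg.2 (abs_nonneg _) (by linarith)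
  have a2 : |W.α * G0 W (bl h l t)| ≤ c * (c * q2 q) := by
    rw [abs_mul]; exact mul_le_mul D.w0.α hg.1 (abs_nonneg _) (by linarith)
  have a3 := abs_sub (2 * (W.κ * G1 W (bl h l t))) (4 * (W.α * G0 W (bl h l t)))
  have a4 : |2 * (W.κ * G1 W (bl h l t))| = 2 * |W.κ * G1 W (bl h l t)| := by rw [abs_mul, abs_two]
  have a5 : |4 * (W.α * G0 W (bl h l t))| = 4 * |W.α * G0 W (bl h l t)| := by
    rw [abs_mul, abs_of_pos (by norm_num : (0 : ℝ) < 4)]
  rw [a4, a5] at a3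
  linarith

theorem Pt.rho (hc : 1 ≤ c) (D : Pt c K θ a0 h q r W l t H ρ p kn an s) : |1 / ρ - sg ρ| ≤ cE' c K * q2 q := by
  have hρ := D.ρ0
  have hK := D.K1
  obtain ⟨c0, c1⟩ := D.cov
  have hn := D.nsq hc
  have hnr := D.nrm
  set x := H.cN (H786.Adp.toR θ l) (qa h t)
  set y := H.cV (H786.Adp.toR θ l) (qa h t)
  set n0 := nv W (bl h l t) 0
  set n1 := nv W (bl h l t) 1
  have hsc := Real.sin_sq_add_cos_sq θ
  have e1 : ρ ^ 2 * (n0 ^ 2 + n1 ^ 2) = x ^ 2 + y ^ 2 := by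
    have : ρ ^ 2 * (n0 ^ 2 + n1 ^ 2) = (ρ * n0) ^ 2 + (ρ * n1) ^ 2 := by ring
    rw [this, c0, c1]
    linear_combination (x ^ 2 + y ^ 2) * hsc
  have hρ2 : ρ ^ 2 ≤ K ^ 2 := by
    rw [← sq_abs ρ]
    exact pow_le_pow_left₀ (abs_nonneg _) D.ρ2 2
  have hqq := CellD.q2_pos q
  have e2 : |ρ ^ 2 - 1| ≤ (K + 6 * K ^ 2 * c ^ 2) * q2 q := by
    have e3 : ρ ^ 2 - 1 = (x ^ 2 + y ^ 2 - 1) - ρ ^ 2 * (n0 ^ 2 + n1 ^ 2 - 1) := by linear_combination e1
    rw [e3]
    refine (abs_sub _ _).trans ?_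
    have e4 : |ρ ^ 2 * (n0 ^ 2 + n1 ^ 2 - 1)| ≤ K ^ 2 * (6 * c ^ 2 * q2 q) := by
      rw [abs_mul, abs_of_nonneg (sq_nonneg ρ)]
      exact mul_le_mul hρ2 hn (abs_nonneg _) (by positivity)
    linarith
  have e5 : 1 / ρ - sg ρ = sg ρ * (1 / |ρ|) * (1 - |ρ|) := by
    have h1 := sg_mul hρ
    have h2 : |ρ| ≠ 0 := abs_ne_zero.2 hρ
    rcases sg_or ρ with h3 | h3
    · rw [h3] at h1 ⊢
      rw [one_mul] at h1
      rw [← h1]
      field_simp
    · rw [h3] at h1 ⊢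
      have h4 : ρ = -|ρ| := by linarith
      have h5 : 1 / ρ = -(1 / |ρ|) := by
        rw [h4, abs_neg, abs_abs, div_neg]
      rw [h5]
      field_simp
      ring
  have e6 : abs (1 - abs ρ) ≤ abs (ρ ^ 2 - 1) := by
    have e7 : ρ ^ 2 - 1 = -((1 - abs ρ) * (1 + abs ρ)) := by rw [← sq_abs ρ]; ring
    rw [e7, abs_neg, abs_mul]
    have h1 : 1 ≤ abs (1 + abs ρ) := by
      rw [abs_of_nonneg (by positivity)]
      linarith [abs_nonneg ρ]
    exact le_mul_of_one_le_right (abs_nonneg _) h1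
  have e8 : |sg ρ| = 1 := by
    rcases sg_or ρ with h3 | h3
    · rw [h3, abs_one]
    · rw [h3, abs_neg, abs_one]
  have e9 : abs (1 / abs ρ) ≤ K := by
    rw [abs_div, abs_one, abs_abs]
    have h2 : 0 < |ρ| := abs_pos.2 hρ
    rw [div_le_iff₀ h2]
    exact D.ρ1
  rw [e5, abs_mul, abs_mul, e8, one_mul]
  have := mul_le_mul e9 (e6.trans e2) (abs_nonneg _) (by linarith)
  unfold cE'
  linarith

/-- `x / ρ` against `σ x` -/
theorem Pt.div (hc : 1 ≤ c) (D : Pt c K θ a0 h q r W l t H ρ p kn an s) {x X : ℝ} (hx : |x| ≤ X) :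
    |x / ρ - sg ρ * x| ≤ X * (cE' c K * q2 r) := by
  have h1 := D.rho hc
  have h2 : q2 q ≤ q2 r := CellD.q2_le D.hr
  have e : x / ρ - sg ρ * x = x * (1 / ρ - sg ρ) := by
    have := D.ρ0
    field_simp
  rw [e, abs_mul]
  have hK := D.K1
  have hcE : 0 ≤ cE' c K := by unfold cE'; positivity
  have h3 : |1 / ρ - sg ρ| ≤ cE' c K * q2 r := h1.trans (mul_le_mul_of_nonneg_left h2 hcE)
  exact mul_le_mul hx h3 (abs_nonneg _) ((abs_nonneg _).trans hx)

end

/-- the components of the normal -/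
noncomputable def rot (θ x y : ℝ) : Fin 2 → ℝ := ![-(Real.cos θ * y) - Real.sin θ * x, -(Real.sin θ * y) + Real.cos θ * x]

theorem rot_le {θ x y X : ℝ} (hx : |x| ≤ X) (hy : |y| ≤ X) (k : Fin 2) : |rot θ x y k| ≤ 2 * X := by
  have hc := Real.abs_cos_le_one θ
  have hs := Real.abs_sin_le_one θ
  have h0 : 0 ≤ X := (abs_nonneg _).trans hx
  have a1 : |Real.cos θ * y| ≤ X := by
    rw [abs_mul]
    have := mul_le_mul hc hy (abs_nonneg _) zero_le_one
    linarith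
  have a2 : |Real.sin θ * x| ≤ X := by
    rw [abs_mul]
    have := mul_le_mul hs hx (abs_nonneg _) zero_le_one
    linarith
  have a3 : |Real.sin θ * y| ≤ X := by
    rw [abs_mul]
    have := mul_le_mul hs hy (abs_nonneg _) zero_le_one
    linarith
  have a4 : |Real.cos θ * x| ≤ X := by
    rw [abs_mul]
    have := mul_le_mul hc hx (abs_nonneg _) zero_le_one
    linarith
  fin_cases k
  · show |-(Real.cos θ * y) - Real.sin θ * x| ≤ _
    have := abs_sub (-(Real.cos θ * y)) (Real.sin θ * x)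
    rw [abs_neg] at this
    linarith
  · show |-(Real.sin θ * y) + Real.cos θ * x| ≤ _
    have := abs_add_le (-(Real.sin θ * y)) (Real.cos θ * x)
    rw [abs_neg] at this
    linarith

theorem rot_sub (θ x y x' y' : ℝ) (k : Fin 2) : rot θ x y k - rot θ x' y' k = rot θ (x - x') (y - y') k := by
  fin_cases k
  · show -(Real.cos θ * y) - Real.sin θ * x - (-(Real.cos θ * y') - Real.sin θ * x') = -(Real.cos θ * (y - y')) - Real.sin θ * (x - x')
    ring
  · show -(Real.sin θ * y) + Real.cos θ * x - (-(Real.sin θ * y') + Real.cos θ * x') = -(Real.sin θ * (y - y')) + Real.cos θ * (x - x')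
    ring

/-- constants -/
noncomputable def cF (c K : ℝ) : ℝ := 2 * (2 + K) * cE' c K + 6 * c ^ 3 * K ^ 2 + K ^ 2 + 2 * K * cE' c K + 2 * cM c K

section

variable {c K θ : ℝ} {a0 a w q r : ℕ} {W : Cbx} {l : Ry} {t : ℝ} {H : Cell.Fu} {ρ p kn an s : ℝ}

theorem Pt.x_le {h : ℕ} (D : Pt c K θ a0 h q r W l t H ρ p kn an s) : |H.cN (H786.Adp.toR θ l) (qa h t)| ≤ 2 + K := by
  have hnr := D.nrm
  have hK := D.K1
  have hq1 : q2 q ≤ 1 := by unfold q2; exact pow_le_one₀ (by norm_num) (by norm_num)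
  have hqq := CellD.q2_pos q
  have h1 : H.cN (H786.Adp.toR θ l) (qa h t) ^ 2 ≤ 1 + K := by
    have := (abs_le.1 hnr).2
    nlinarith [sq_nonneg (H.cV (H786.Adp.toR θ l) (qa h t))]
  have := abs_le_one_add_sq h1
  linarith

/-- **the functional of the modified label in the block of level `a`**, against the numbers of the ray side -/
theorem Pt.nor (hc : 1 ≤ c) (D : Pt c K θ a0 (a + w) q r W l t H ρ p kn an s) (ha : a0 ≤ a) (hs : |s - qa a t| ≤ q2 a0) :
    (∀ k, |nv (Fl a w (bend ρ an (a + w) r W) t) (bl a l t) k - sg ρ * rot θ (H.cN (H786.Adp.toR θ l) (qa (a + w) t))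
        (H.cV (H786.Adp.toR θ l) (qa (a + w) t)) k| ≤ cF c K * q2 r) ∧
    |(Fl a w (bend ρ an (a + w) r W) t).κ - sg ρ * (-(kn + (s - qa a t) * an))| ≤ cF c K * q2 r ∧
    |(Fl a w (bend ρ an (a + w) r W) t).α - sg ρ * (an * q2 a / 2)| ≤ cF c K * q2 r ∧
    |G0 (Fl a w (bend ρ an (a + w) r W) t) (bl a l t)| ≤ cF c K * q2 r ∧
    |G1 (Fl a w (bend ρ an (a + w) r W) t) (bl a l t)| ≤ cF c K * q2 r := by
  have hρ := D.ρ0
  have hK := D.K1
  have hq := D.q0
  have hbl : bl a l t = dn w (tau a w t) (bl (a + w) l t) := H513.bl_dn a w l t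
  have hx := D.x_le
  have hy : |H.cV (H786.Adp.toR θ l) (qa (a + w) t)| ≤ 2 + K := by
    rw [← D.cp, abs_mul]
    have := mul_le_mul D.p1 hx (abs_nonneg _) zero_le_one
    linarith
  have hcl := D.bend_cl hc
  have hw0 := (D.bend_w0 hc).g
  have hr2 : (1 / 2 : ℝ) ^ r = q2 r := rfl
  rw [hr2] at hw0
  have hcE : 0 ≤ cE' c K := by unfold cE'; positivity
  have hcM : 0 ≤ cM c K := by unfold cM; positivity
  have hc3 : 0 ≤ 6 * c ^ 3 * K ^ 2 := by positivity
  have f1 : 2 * (2 + K) * cE' c K + 6 * c ^ 3 * K ^ 2 ≤ cF c K := by unfold cF; nlinarith [mul_nonneg (by linarith : 0 ≤ 2 * K) hcE, sq_nonneg K]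
  have f2 : K ^ 2 + 2 * K * cE' c K ≤ cF c K := by
    unfold cF
    nlinarith [mul_nonneg (by linarith : 0 ≤ 2 * (2 + K)) hcE]
  have f3 : 2 * cM c K ≤ cF c K := by
    unfold cF
    nlinarith [mul_nonneg (by linarith : 0 ≤ 2 * (2 + K)) hcE, mul_nonneg (by linarith : 0 ≤ 2 * K) hcE, sq_nonneg K]
  have f4 : K * cE' c K ≤ cF c K := by
    have : 0 ≤ K * cE' c K := by positivity
    nlinarith [sq_nonneg K]
  have an' : |an| ≤ K * 2 ^ a0 := by
    have h5 := D.an1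
    have h6 := mul_q2 a0
    have h7 : |an| = |an| * q2 a0 * 2 ^ a0 := by
      rw [mul_assoc, mul_comm (q2 a0), h6, mul_one]
    rw [h7]
    exact mul_le_mul_of_nonneg_right h5 (by positivity)
  refine ⟨fun k => ?_, ?_, ?_, ?_, ?_⟩
  · have e1 : nv (Fl a w (bend ρ an (a + w) r W) t) (bl a l t) k = nv (bend ρ an (a + w) r W) (bl (a + w) l t) k := by
      rw [hbl]
      exact congrFun (nv_dn w (tau a w t) (bend ρ an (a + w) r W) (bl (a + w) l t)) k
    have e2 := hcl.n k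
    rw [pow_zero, one_mul, one_mul, hr2] at e2
    have e3 : nv W (bl (a + w) l t) k = rot θ (H.cN (H786.Adp.toR θ l) (qa (a + w) t))
        (H.cV (H786.Adp.toR θ l) (qa (a + w) t)) k / ρ := by
      obtain ⟨c0, c1⟩ := D.cov
      rw [eq_div_iff hρ, mul_comm]
      fin_cases k
      · exact c0
      · exact c1
    have e4 := D.div hc (rot_le (θ := θ) hx hy k)
    rw [← e3] at e4
    rw [e1]
    have e5 := abs_sub_le (nv (bend ρ an (a + w) r W) (bl (a + w) l t) k) (nv W (bl (a + w) l t) k)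
      (sg ρ * rot θ (H.cN (H786.Adp.toR θ l) (qa (a + w) t)) (H.cV (H786.Adp.toR θ l) (qa (a + w) t)) k)
    rw [abs_sub_comm] at e2
    have e6 := mul_le_mul_of_nonneg_right f1 hq.le
    linarith
  · have e1 : W.κ = -(H.ka / ρ) := by
      have : H.ka = ρ * (-W.κ) := by
        rw [D.eq]
        show ρ * (H786.Adp.FW θ (a + w) W t).ka = _
        rw [H786.Adp.FW_ka]
      rw [this]
      field_simp
      try ring
    have e2 : (Fl a w (bend ρ an (a + w) r W) t).κ = -((H.ka + (qa (a + w) t - qa a t) * an) / ρ) := by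
      show W.κ - 2 * tau a w t * 2 ^ w * (an / (2 * ρ * 2 ^ (a + w))) = _
      rw [e1]
      unfold tau
      have h1 : (2 : ℝ) ^ w ≠ 0 := by positivity
      have h2 : (2 : ℝ) ^ a ≠ 0 := by positivity
      rw [pow_add]
      field_simp
      ring
    have e3 : H.ka + (qa (a + w) t - qa a t) * an = (kn + (s - qa a t) * an) + (H.ka - (kn - (qa (a + w) t - s) * an)) := by
      ring
    have b1 : |(s - qa a t) * an| ≤ K := by
      rw [abs_mul]
      have := mul_le_mul hs an' (abs_nonneg _) (CellD.q2_pos a0).le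
      have h6 := mul_q2 a0
      have e : q2 a0 * (K * 2 ^ a0) = K := by
        calc q2 a0 * (K * 2 ^ a0) = K * (2 ^ a0 * q2 a0) := by ring
          _ = K := by rw [h6, mul_one]
      linarith
    have b2 : |kn + (s - qa a t) * an| ≤ 2 * K := by
      have := abs_add_le kn ((s - qa a t) * an)
      linarith [D.kn1]
    have e4 := D.div hc b2
    have b3 : |(H.ka - (kn - (qa (a + w) t - s) * an)) / ρ| ≤ K * (K * q2 r) := by
      rw [abs_div, div_le_iff₀ (abs_pos.2 hρ)]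
      have h1 := D.ka
      have h2 : K * q2 r ≤ K * (K * q2 r) * |ρ| := by
        have := mul_le_mul_of_nonneg_left D.ρ1 (by positivity : 0 ≤ K * q2 r)
        linarith
      linarith
    have e5 : (Fl a w (bend ρ an (a + w) r W) t).κ - sg ρ * (-(kn + (s - qa a t) * an)) =
        -((kn + (s - qa a t) * an) / ρ - sg ρ * (kn + (s - qa a t) * an)) -
          (H.ka - (kn - (qa (a + w) t - s) * an)) / ρ := by
      rw [e2, e3, add_div]
      ring
    rw [e5]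
    refine (abs_sub _ _).trans ?_
    rw [abs_neg]
    have e6 := mul_le_mul_of_nonneg_right f2 hq.le
    nlinarith
  · have e2 : (Fl a w (bend ρ an (a + w) r W) t).α = (an * q2 a / 2) / ρ := by
      show 2 ^ w * (an / (2 * ρ * 2 ^ (a + w))) = _
      have h1 : (2 : ℝ) ^ w ≠ 0 := by positivity
      have h2 : (2 : ℝ) ^ a ≠ 0 := by positivity
      rw [q2_inv, pow_add]
      field_simp
    have b1 : |an * q2 a / 2| ≤ K := by
      rw [abs_div, abs_mul, abs_two, abs_of_pos (CellD.q2_pos a)]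
      have h1 := D.an1
      have h2 : |an| * q2 a ≤ |an| * q2 a0 := mul_le_mul_of_nonneg_left (CellD.q2_le ha) (abs_nonneg _)
      linarith
    have e4 := D.div hc b1
    rw [e2]
    have e6 := mul_le_mul_of_nonneg_right f4 hq.le
    linarith
  · have e1 : G0 (Fl a w (bend ρ an (a + w) r W) t) (bl a l t) = G0 (bend ρ an (a + w) r W) (bl (a + w) l t) / 2 ^ w -
        tau a w t * G1 (bend ρ an (a + w) r W) (bl (a + w) l t) := by
      rw [hbl]
      exact G0_dn w (tau a w t) (bend ρ an (a + w) r W) (bl (a + w) l t)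
    rw [e1]
    have h2w : (1 : ℝ) ≤ 2 ^ w := one_le_pow₀ (by norm_num)
    have b1 : |G0 (bend ρ an (a + w) r W) (bl (a + w) l t) / 2 ^ w| ≤ cM c K * q2 r := by
      rw [abs_div, abs_of_pos (by positivity : (0 : ℝ) < 2 ^ w)]
      exact (div_le_self (abs_nonneg _) h2w).trans hw0.1
    have b2 : |tau a w t * G1 (bend ρ an (a + w) r W) (bl (a + w) l t)| ≤ cM c K * q2 r := by
      rw [abs_mul, abs_of_nonneg (H513.tau_nonneg a w t)]
      have := mul_le_mul (H513.tau_le a w t) hw0.2 (abs_nonneg _) zero_le_one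
      linarith
    refine (abs_sub _ _).trans ?_
    have e6 := mul_le_mul_of_nonneg_right f3 hq.le
    linarith
  · have e1 : G1 (Fl a w (bend ρ an (a + w) r W) t) (bl a l t) = G1 (bend ρ an (a + w) r W) (bl (a + w) l t) := by
      rw [hbl]
      exact G1_dn w (tau a w t) (bend ρ an (a + w) r W) (bl (a + w) l t)
    rw [e1]
    have e6 := mul_le_mul_of_nonneg_right f3 hq.le
    have e7 : 0 ≤ cM c K * q2 r := by positivity
    linarith [hw0.2]

/-- the normals of two labels of one ray -/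
theorem Pt.xx {h : ℕ} (D : Pt c K θ a0 h q r W l t H ρ p kn an s) {W' : Cbx} {t' : ℝ} {H' : Cell.Fu} {ρ' p' : ℝ}
    (D' : Pt c K θ a0 h q r W' l t' H' ρ' p' kn an s) (hp : |p - p'| ≤ q2 r) :
    |H.cN (H786.Adp.toR θ l) (qa h t) - H'.cN (H786.Adp.toR θ l) (qa h t')| ≤ 4 * K * (1 + K) ^ 2 * q2 r ∧
    |H.cV (H786.Adp.toR θ l) (qa h t) - H'.cV (H786.Adp.toR θ l) (qa h t')| ≤ (4 * K * (1 + K) ^ 2 + (2 + K)) * q2 r := by
  have hK := D.K1
  have hq := D.q0
  have hn := D.nrm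
  have hn' := D'.nrm
  have hx' := D'.x_le
  have hc1 := D.c1
  have hc1' := D'.c1
  have hqr : q2 q ≤ q2 r := CellD.q2_le D.hr
  have hq1 : q2 q ≤ 1 := by unfold q2; exact pow_le_one₀ (by norm_num) (by norm_num)
  rw [← D.cp] at hn
  rw [← D'.cp] at hn'
  rw [← D.cp, ← D'.cp]
  set x := H.cN (H786.Adp.toR θ l) (qa h t)
  set x' := H'.cN (H786.Adp.toR θ l) (qa h t')
  have hx0 : 0 < x := by
    by_contra h0
    have := mul_nonneg (by linarith : 0 ≤ 2 * K) (neg_nonneg.2 (not_lt.1 h0))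
    linarith
  have hx0' : 0 < x' := by
    by_contra h0
    have := mul_nonneg (by linarith : 0 ≤ 2 * K) (neg_nonneg.2 (not_lt.1 h0))
    linarith
  have e1 : (x ^ 2 - x' ^ 2) * (1 + p ^ 2) = (x ^ 2 + (p * x) ^ 2 - 1) - (x' ^ 2 + (p' * x') ^ 2 - 1) +
      x' ^ 2 * ((p' - p) * (p' + p)) := by ring
  have hKq : K * q2 q ≤ K * q2 r := mul_le_mul_of_nonneg_left hqr (by linarith)
  have b1 : |(p' - p) * (p' + p)| ≤ 2 * q2 r := by
    rw [abs_mul]
    have h1 : |p' - p| ≤ q2 r := by rw [abs_sub_comm]; exact hp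
    have h2 : |p' + p| ≤ 2 := (abs_add_le _ _).trans (by linarith [D.p1, D'.p1])
    have := mul_le_mul h1 h2 (abs_nonneg _) hq.le
    linarith
  have b2 : x' ^ 2 ≤ 1 + K := by
    have := (abs_le.1 hn').2
    nlinarith [sq_nonneg (p' * x')]
  have b3 : |(x ^ 2 - x' ^ 2) * (1 + p ^ 2)| ≤ (4 * K + 2) * q2 r := by
    rw [e1]
    refine (abs_add_le _ _).trans ?_
    have h1 := abs_sub (x ^ 2 + (p * x) ^ 2 - 1) (x' ^ 2 + (p' * x') ^ 2 - 1)
    have h2 : |x' ^ 2 * ((p' - p) * (p' + p))| ≤ (1 + K) * (2 * q2 r) := by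
      rw [abs_mul, abs_of_nonneg (sq_nonneg x')]
      exact mul_le_mul b2 b1 (abs_nonneg _) (by linarith)
    linarith
  have b4 : |x ^ 2 - x' ^ 2| ≤ (4 * K + 2) * q2 r := by
    refine le_trans ?_ b3
    rw [abs_mul, abs_of_pos (by positivity : 0 < 1 + p ^ 2)]
    exact le_mul_of_one_le_right (abs_nonneg _) (by linarith [sq_nonneg p])
  have b5 : |x - x'| ≤ K * ((4 * K + 2) * q2 r) := by
    have h1 : |x ^ 2 - x' ^ 2| = |x - x'| * (x + x') := by
      rw [show x ^ 2 - x' ^ 2 = (x - x') * (x + x') by ring, abs_mul, abs_of_pos (by linarith : 0 < x + x')]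
    rw [h1] at b4
    have h2 : 1 ≤ K * (x + x') := by linarith
    have h3 := mul_le_mul_of_nonneg_left b4 (by linarith : 0 ≤ K)
    have h4 := mul_le_mul_of_nonneg_left h2 (abs_nonneg (x - x'))
    linarith
  have b6 : K * ((4 * K + 2) * q2 r) ≤ 4 * K * (1 + K) ^ 2 * q2 r := by
    have h1 : 4 * K + 2 ≤ 4 * (1 + K) ^ 2 := by nlinarith
    have h2 := mul_le_mul_of_nonneg_right h1 (by positivity : 0 ≤ K * q2 r)
    linarith
  refine ⟨b5.trans b6, ?_⟩
  have e2 : p * x - p' * x' = p * (x - x') + (p - p') * x' := by ring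
  rw [e2]
  refine (abs_add_le _ _).trans ?_
  rw [abs_mul, abs_mul]
  have h1 := mul_le_mul D.p1 (b5.trans b6) (abs_nonneg _) zero_le_one
  have h2 := mul_le_mul hp hx' (abs_nonneg _) hq.le
  linarith

/-- constant -/
noncomputable def cT (c K : ℝ) : ℝ := 2 * cF c K + 2 * (4 * K * (1 + K) ^ 2 + (2 + K))

/-- **two modified labels of one ray** -/
theorem Pt.two (hc : 1 ≤ c) (D : Pt c K θ a0 (a + w) q r W l t H ρ p kn an s) {W' : Cbx} {t' : ℝ} {H' : Cell.Fu} {ρ' p' : ℝ}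
    (D' : Pt c K θ a0 (a + w) q r W' l t' H' ρ' p' kn an s) (hp : |p - p'| ≤ q2 r) (ha : a0 ≤ a) (hs : |s - qa a t| ≤ q2 a0)
    (ht : fl1 a t = fl1 a t') :
    Cl (cT c K) 0 r (sg ρ * sg ρ') (Fl a w (bend ρ an (a + w) r W) t) (Fl a w (bend ρ' an (a + w) r W') t') (bl a l t) := by
  have hK := D.K1
  have hq := D.q0
  have ebl : bl a l t' = bl a l t := (bl_eq ht).symm
  have eqa : qa a t' = qa a t := (qa_eq ht).symm
  obtain ⟨n1, k1, α1, g1, g1'⟩ := D.nor hc ha hs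
  obtain ⟨n2, k2, α2, g2, g2'⟩ := D'.nor hc ha (by rw [eqa]; exact hs)
  obtain ⟨x1, x2⟩ := D.xx D' hp
  rw [ebl] at n2 g2 g2'
  rw [eqa] at k2
  have hcE : 0 ≤ cE' c K := by unfold cE'; positivity
  have hcM : 0 ≤ cM c K := by unfold cM; positivity
  have hcF : 0 ≤ cF c K := by unfold cF; positivity
  have hF : 2 * cF c K ≤ cT c K := by unfold cT; nlinarith [sq_nonneg (1 + K), mul_nonneg (by linarith : 0 ≤ 4 * K) (sq_nonneg (1 + K))]
  have hr2 : (1 / 2 : ℝ) ^ r = q2 r := rfl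
  have sgs : ∀ ρ : ℝ, sg ρ * sg ρ = 1 := fun ρ => by rcases sg_or ρ with h | h <;> rw [h] <;> norm_num
  have sab : ∀ ρ x : ℝ, |sg ρ * x| = |x| := fun ρ x => by
    rcases sg_or ρ with h | h <;> rw [h]
    · rw [one_mul]
    · rw [neg_one_mul, abs_neg]
  -- two numbers close to `sg ρ z`, `sg ρ' z'`
  have key : ∀ {u u' z z' e : ℝ}, |u - sg ρ * z| ≤ cF c K * q2 r → |u' - sg ρ' * z'| ≤ cF c K * q2 r → |z - z'| ≤ e →
      |u - sg ρ * sg ρ' * u'| ≤ 2 * cF c K * q2 r + e := by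
    intro u u' z z' e h1 h2 h3
    have e1 : u - sg ρ * sg ρ' * u' = (u - sg ρ * z) + sg ρ * (z - z') - sg ρ * (sg ρ' * (u' - sg ρ' * z')) := by
      have := sgs ρ'
      linear_combination (-(sg ρ * z')) * this
    rw [e1]
    have a1 := abs_sub ((u - sg ρ * z) + sg ρ * (z - z')) (sg ρ * (sg ρ' * (u' - sg ρ' * z')))
    have a2 := abs_add_le (u - sg ρ * z) (sg ρ * (z - z'))
    rw [sab, sab] at a1
    rw [sab] at a2
    linarith
  have hTq := mul_le_mul_of_nonneg_right hF hq.le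
  refine ⟨fun k => ?_, ?_, ?_, ?_, ?_⟩
  · rw [pow_zero, one_mul, hr2]
    have h3 : |rot θ (H.cN (H786.Adp.toR θ l) (qa (a + w) t)) (H.cV (H786.Adp.toR θ l) (qa (a + w) t)) k -
        rot θ (H'.cN (H786.Adp.toR θ l) (qa (a + w) t')) (H'.cV (H786.Adp.toR θ l) (qa (a + w) t')) k| ≤
        2 * ((4 * K * (1 + K) ^ 2 + (2 + K)) * q2 r) := by
      rw [rot_sub]
      refine rot_le (x1.trans ?_) x2 k
      exact mul_le_mul_of_nonneg_right (by linarith) hq.le
    have h4 := key (n1 k) (n2 k) h3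
    refine h4.trans (le_of_eq ?_)
    unfold cT
    ring
  · rw [Nat.mul_zero, pow_zero, one_mul, hr2]
    have h4 := key k1 k2 (e := 0) (by rw [sub_self, abs_zero])
    linarith
  · rw [Nat.mul_zero, pow_zero, one_mul, hr2]
    have h4 := key α1 α2 (e := 0) (by rw [sub_self, abs_zero])
    linarith
  · rw [hr2]
    have h4 := abs_sub (G0 (Fl a w (bend ρ an (a + w) r W) t) (bl a l t))
      (sg ρ * (sg ρ' * G0 (Fl a w (bend ρ' an (a + w) r W') t') (bl a l t)))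
    rw [sab, sab] at h4
    rw [mul_assoc]
    linarith
  · rw [hr2]
    have h4 := abs_sub (G1 (Fl a w (bend ρ an (a + w) r W) t) (bl a l t))
      (sg ρ * (sg ρ' * G1 (Fl a w (bend ρ' an (a + w) r W') t') (bl a l t)))
    rw [sab, sab] at h4
    rw [mul_assoc]
    linarith

end

end Vale.Agent.P106.U.H459
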