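import Vale.Agent.P106.U.H428.Alpha
import Vale.Agent.P106.U.H523.TailDefs

/-!
# P106 / U / H459 : geometry of the exit (END7)

* `sk a w q W l t` : the functional of the label `W` of level `a + w`, in the block of level `a`, at the cell of the ray, to `q`
  digits.
* `sbox` : a label `S` of level `a`, shape `(0, q)`, which is a function of `sk` and of the cell of the ray; its functional is close
  to `1 / Λ` times the functional of `W`.
* `cont` : two rays of `W` have the same value of the functional of `S` at the time `t_h`, up to `K 2^-(w + q)`.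
-/

set_option autoImplicit false

namespace Vale.Agent.P106.U.H459

open Vale.Agent.P127 Vale.Agent.P127.Stk Vale.Agent.P127.U Vale.Agent.P106.W Vale.Agent.P106.K Vale.Agent.P106.U.H428
open Vale.Agent.P106.U.H513 (dn dnB tau)
open Vale.Agent.P122.C2 (fn)

/-- the functional of `W` in the block of level `a` at the cell of the ray, to `q` digits -/
noncomputable def sk (a w q : ℕ) (W : Cbx) (l : Ry) (t : ℝ) : Cf := cf 0 q (Fl a w W t) (ctr 0 (pl 0 (bl a l t)))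

/-- `Λ S` is close to `B` at the ray `m` (without the values) -/
structure Ner (D : ℝ) (q : ℕ) (Λ : ℝ) (S B : Cbx) (m : Ry) : Prop where
  n : ∀ k, |Λ * nv S m k - nv B m k| ≤ D * (1 / 2 : ℝ) ^ q
  κ : |Λ * S.κ - B.κ| ≤ D * (1 / 2 : ℝ) ^ q
  α : |Λ * S.α - B.α| ≤ D * (1 / 2 : ℝ) ^ q

/-- bound of the normal vector -/
noncomputable def cN (c : ℝ) : ℝ := 2 + 4 * c ^ 2 + 16 * c + (c + 4) * 6

/-- closeness constant of the trivial label -/
noncomputable def cB (c : ℝ) : ℝ := (1 + cN c + c + 3) * ((16 * c ^ 2 + 48 * c) * (4 / 3))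

theorem abs_le_one_add_sq {x Y : ℝ} (h : x ^ 2 ≤ Y) : |x| ≤ 1 + Y := by
  rw [abs_le]
  constructor <;> nlinarith [sq_nonneg (x + 1), sq_nonneg (x - 1)]

/-- **one label** centred at the ray `m'`, with closeness -/
theorem mkLab' {c A : ℝ} (hc : 1 ≤ c) (hA : 2 * c ≤ A) {r : ℕ} {B : Cbx} {m' : Ry} (hκ : |B.κ| ≤ c + 2) (hα : |B.α| ≤ 1)
    (h0 : |G0 B m'| ≤ 2 * c * (1 / 2 : ℝ) ^ r) (h1 : |G1 B m'| ≤ 2 * c * (1 / 2 : ℝ) ^ r) :
    ∃ Lb : Cbx, ∃ Λ : ℝ, 1 / 2 ≤ Λ ∧ Lb.u2 = 1 ∧ Lb.u1 = (1 / 2 : ℝ) ^ r ∧ |Lb.α| * Lb.u2 ≤ cA c A ∧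
      |Lb.κ| * Lb.u2 ≤ cA c A ∧
      (∀ m : Ry, Nr 6 0 m m' → |G0 B m| ≤ A * (1 / 2 : ℝ) ^ r → |G1 B m| ≤ A * (1 / 2 : ℝ) ^ r → Bin (cA c A) Lb 0 m) ∧
      ∀ m : Ry, Nr 6 0 m m' → Ner (cB c) r Λ Lb B m := by
  have hr0 : (0 : ℝ) < (1 / 2 : ℝ) ^ r := by positivity
  have hr1 : (1 / 2 : ℝ) ^ r ≤ 1 := pow_le_one₀ (by norm_num) (by norm_num)
  have hc0 : 0 < c := by linarith
  have hA0 : 0 < A := by linarith
  have hq : 0 ≤ 16 * c ^ 2 + 48 * c := by positivity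
  have hcA6 : 6 ≤ cA c A := by unfold cA; linarith
  have hcN : 0 ≤ cN c := by unfold cN; positivity
  have hcB : 0 ≤ cB c := by unfold cB; positivity
  have hnr : ∀ m : Ry, Nr 6 0 m m' → (∀ k, |m.y k - m'.y k| ≤ cA c A * 1) ∧ (∀ k, |m.s k - m'.s k| ≤ cA c A * 1) ∧
      |m.z + ∑ k, m.y k * (m.s k - m'.s k) - m'.z| ≤ cA c A * max ((1 : ℝ) ^ 2) 0 := by
    intro m hm
    obtain ⟨a1, a2, a3⟩ := hm
    simp only [Nat.mul_zero, pow_zero, mul_one] at a1 a2 a3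
    refine ⟨fun k => by rw [mul_one]; exact (a1 k).trans hcA6, fun k => by rw [mul_one]; exact (a2 k).trans hcA6, ?_⟩
    rw [one_pow, max_eq_left zero_le_one, mul_one]
    exact a3.trans hcA6
  have b1 : |B.κ * G1 B m'| ≤ (c + 2) * (2 * c * (1 / 2 : ℝ) ^ r) := by
    rw [abs_mul]
    exact mul_le_mul hκ h1 (abs_nonneg _) (by linarith)
  have b2 : |B.α * G0 B m'| ≤ 1 * (2 * c * (1 / 2 : ℝ) ^ r) := by
    rw [abs_mul]
    exact mul_le_mul hα h0 (abs_nonneg _) zero_le_one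
  by_cases hcase : (16 * c ^ 2 + 48 * c) * (1 / 2 : ℝ) ^ r ≤ 3 / 4
  · obtain ⟨L, θ', hL, n0, n1⟩ := nv_angle (B := B) (m := m') (by
      have a1 := abs_le.1 b1
      have a2 := abs_le.1 b2
      have e1 : 2 * B.κ * G1 B m' = 2 * (B.κ * G1 B m') := by ring
      have e2 : 4 * B.α * G0 B m' = 4 * (B.α * G0 B m') := by ring
      rw [e1, e2]
      have e3 : (16 * c ^ 2 + 48 * c) * (1 / 2 : ℝ) ^ r = 4 * (2 * ((c + 2) * (2 * c * (1 / 2 : ℝ) ^ r))) +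
        4 * (2 * c * (1 / 2 : ℝ) ^ r) * 2 := by ring
      have e4 : 0 ≤ (c + 2) * (2 * c * (1 / 2 : ℝ) ^ r) := by positivity
      have e5 : 0 ≤ 2 * c * (1 / 2 : ℝ) ^ r := by positivity
      linarith [a1.1, a2.2])
    have hL0 : 0 < L := by linarith
    refine ⟨⟨θ', (1 / 2 : ℝ) ^ r, 1, B.κ / L, B.α / L, m'.y, m'.s, m'.z⟩, L, hL, rfl, rfl, ?_, ?_, fun m hm g0 g1 => ?_,
      fun m hm => ?_⟩
    · show |B.α / L| * 1 ≤ _
      rw [mul_one, abs_div, abs_of_pos hL0, div_le_iff₀ hL0]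
      have : 2 * (1 / 2) ≤ cA c A * L := mul_le_mul (by linarith) hL (by norm_num) (by linarith)
      linarith
    · show |B.κ / L| * 1 ≤ _
      rw [mul_one, abs_div, abs_of_pos hL0, div_le_iff₀ hL0]
      have : (2 * (c + 2)) * (1 / 2) ≤ cA c A * L :=
        mul_le_mul (by unfold cA; linarith) hL (by norm_num) (by linarith)
      linarith
    · obtain ⟨f0, f1⟩ := rcn (u1 := (1 / 2 : ℝ) ^ r) (u2 := 1) hL0.ne' n0 n1 m
      obtain ⟨c1, c2, c3⟩ := hnr m hm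
      have hfin : ∀ x y : ℝ, |x| ≤ A * (1 / 2 : ℝ) ^ r → |y| ≤ 2 * c * (1 / 2 : ℝ) ^ r →
          |(x - y) / L| ≤ cA c A * (1 / 2 : ℝ) ^ r := by
        intro x y hx hy
        rw [abs_div, abs_of_pos hL0, div_le_iff₀ hL0]
        have h3 := abs_sub x y
        have h4 : (4 * A * (1 / 2 : ℝ) ^ r) * (1 / 2) ≤ (cA c A * (1 / 2 : ℝ) ^ r) * L :=
          mul_le_mul (mul_le_mul_of_nonneg_right (by unfold cA; linarith) hr0.le) hL (by norm_num) (by positivity)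
        have h5 : 2 * c * (1 / 2 : ℝ) ^ r ≤ A * (1 / 2 : ℝ) ^ r := mul_le_mul_of_nonneg_right hA hr0.le
        linarith
      refine ⟨c1, c2, c3, ?_, ?_⟩
      · show |G0 _ m| ≤ _
        rw [f0]
        exact hfin _ _ g0 h0
      · show |G1 _ m| ≤ _
        rw [f1]
        exact hfin _ _ g1 h1
    · -- closeness: exact
      have hk : ∀ k, L * nv ⟨θ', (1 / 2 : ℝ) ^ r, 1, B.κ / L, B.α / L, m'.y, m'.s, m'.z⟩ m k = nv B m k := by
        intro k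
        have e1 : L * nv ⟨θ', (1 / 2 : ℝ) ^ r, 1, B.κ / L, B.α / L, m'.y, m'.s, m'.z⟩ m' k = nv B m' k := by
          fin_cases k
          · show L * nv _ m' 0 = nv B m' 0
            rw [n0]
            simp [nv, Cbx.nn]
          · show L * nv _ m' 1 = nv B m' 1
            rw [n1]
            simp [nv, Cbx.nn]
        rw [nv_sub _ m m' k, nv_sub B m m' k, ← e1]
        show L * (_ + B.κ / L * (m.s k - m'.s k) - 2 * (B.α / L) * (m.y k - m'.y k)) = _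
        field_simp
      refine ⟨fun k => ?_, ?_, ?_⟩
      · rw [hk k, sub_self, abs_zero]
        positivity
      · show |L * (B.κ / L) - B.κ| ≤ _
        rw [mul_div_cancel₀ _ hL0.ne', sub_self, abs_zero]
        positivity
      · show |L * (B.α / L) - B.α| ≤ _
        rw [mul_div_cancel₀ _ hL0.ne', sub_self, abs_zero]
        positivity
  · push Not at hcase
    have hbig : 1 ≤ (16 * c ^ 2 + 48 * c) * (4 / 3) * (1 / 2 : ℝ) ^ r := by linarith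
    refine ⟨⟨0, (1 / 2 : ℝ) ^ r, 1, 0, 0, m'.y, m'.s, m'.z⟩, 1, by norm_num, rfl, rfl, ?_, ?_, fun m hm g0 g1 => ?_,
      fun m hm => ?_⟩
    · show |(0 : ℝ)| * 1 ≤ _
      rw [abs_zero, zero_mul]
      linarith
    · show |(0 : ℝ)| * 1 ≤ _
      rw [abs_zero, zero_mul]
      linarith
    · obtain ⟨c1, c2, c3⟩ := hnr m hm
      have h6 : 6 ≤ cA c A * (1 / 2 : ℝ) ^ r := by
        have : 100 * (16 * c ^ 2 + 48 * c) * (1 / 2 : ℝ) ^ r ≤ cA c A * (1 / 2 : ℝ) ^ r :=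
          mul_le_mul_of_nonneg_right (by unfold cA; linarith) hr0.le
        linarith
      obtain ⟨a1, a2, -⟩ := hm
      simp only [pow_zero, mul_one] at a1 a2
      refine ⟨c1, c2, c3, ?_, ?_⟩
      · show |fn 0 (m.y - m'.y) + 0 * (m.z + ∑ k, m.y k * (m.s k - m'.s k) - m'.z) - 0 * ∑ k, (m.y k - m'.y k) ^ 2| ≤ _
        have e : fn 0 (m.y - m'.y) + 0 * (m.z + ∑ k, m.y k * (m.s k - m'.s k) - m'.z) - 0 * ∑ k, (m.y k - m'.y k) ^ 2 =
            m.y 1 - m'.y 1 := by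
          simp [fn]
        rw [e]
        exact (a1 1).trans h6
      · show |fn 0 (m.s - m'.s) + 0 * (∑ k, (m.s k - m'.s k) ^ 2) / 2 +
            2 * 0 * (m.z + ∑ k, m'.y k * (m.s k - m'.s k) - m'.z)| ≤ _
        have e : fn 0 (m.s - m'.s) + 0 * (∑ k, (m.s k - m'.s k) ^ 2) / 2 +
            2 * 0 * (m.z + ∑ k, m'.y k * (m.s k - m'.s k) - m'.z) = m.s 1 - m'.s 1 := by
          simp [fn]
        rw [e]
        exact (a2 1).trans h6
    · -- closeness: everything is bounded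
      obtain ⟨a1, a2, -⟩ := hm
      simp only [pow_zero, mul_one] at a1 a2
      have hsq := nv_sq B m'
      have hsum : nv B m' 0 ^ 2 + nv B m' 1 ^ 2 ≤ 1 + 4 * c ^ 2 + 16 * c := by
        rw [hsq]
        have a3 := (abs_le.1 b1).2
        have a4 := (abs_le.1 b2).1
        have e1 : 2 * B.κ * G1 B m' = 2 * (B.κ * G1 B m') := by ring
        have e2 : 4 * B.α * G0 B m' = 4 * (B.α * G0 B m') := by ring
        rw [e1, e2]
        have e3 : (c + 2) * (2 * c * (1 / 2 : ℝ) ^ r) ≤ (c + 2) * (2 * c * 1) :=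
          mul_le_mul_of_nonneg_left (mul_le_mul_of_nonneg_left hr1 (by linarith)) (by linarith)
        have e4 : 1 * (2 * c * (1 / 2 : ℝ) ^ r) ≤ 1 * (2 * c * 1) :=
          mul_le_mul_of_nonneg_left (mul_le_mul_of_nonneg_left hr1 (by linarith)) (by linarith)
        nlinarith
      have hm' : ∀ k, |nv B m' k| ≤ 2 + 4 * c ^ 2 + 16 * c := by
        intro k
        have hk2 : nv B m' k ^ 2 ≤ 1 + 4 * c ^ 2 + 16 * c := by
          fin_cases k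
          · show nv B m' 0 ^ 2 ≤ _
            nlinarith [sq_nonneg (nv B m' 1)]
          · show nv B m' 1 ^ 2 ≤ _
            nlinarith [sq_nonneg (nv B m' 0)]
        have := abs_le_one_add_sq hk2
        linarith
      have hm : ∀ k, |nv B m k| ≤ cN c := by
        intro k
        rw [nv_sub B m m' k]
        have e1 : |B.κ * (m.s k - m'.s k)| ≤ (c + 2) * 6 := by
          rw [abs_mul]
          exact mul_le_mul hκ (a2 k) (abs_nonneg _) (by linarith)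
        have e2 : |2 * B.α * (m.y k - m'.y k)| ≤ 2 * 6 := by
          rw [abs_mul, abs_mul, abs_two]
          have := mul_le_mul hα (a1 k) (abs_nonneg _) zero_le_one
          linarith
        have e3 := abs_sub (nv B m' k + B.κ * (m.s k - m'.s k)) (2 * B.α * (m.y k - m'.y k))
        have e4 := abs_add_le (nv B m' k) (B.κ * (m.s k - m'.s k))
        have := hm' k
        unfold cN
        linarith
      have hfin : ∀ x : ℝ, |x| ≤ 1 + cN c + c + 3 → |x| ≤ cB c * (1 / 2 : ℝ) ^ r := by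
        intro x hx
        have h3 : 1 + cN c + c + 3 ≤ (1 + cN c + c + 3) * ((16 * c ^ 2 + 48 * c) * (4 / 3) * (1 / 2 : ℝ) ^ r) :=
          le_mul_of_one_le_right (by linarith) hbig
        unfold cB
        calc |x| ≤ _ := hx
          _ ≤ _ := h3
          _ = _ := by ring
      refine ⟨fun k => hfin _ ?_, hfin _ ?_, hfin _ ?_⟩
      · rw [one_mul]
        have e1 : |nv ⟨0, (1 / 2 : ℝ) ^ r, 1, 0, 0, m'.y, m'.s, m'.z⟩ m k| ≤ 1 := by
          fin_cases k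
          · show |nv _ m 0| ≤ 1
            simp [nv, Cbx.nn]
          · show |nv _ m 1| ≤ 1
            simp [nv, Cbx.nn]
        have e2 := abs_sub (nv ⟨0, (1 / 2 : ℝ) ^ r, 1, 0, 0, m'.y, m'.s, m'.z⟩ m k) (nv B m k)
        have := hm k
        linarith
      · show |1 * 0 - B.κ| ≤ _
        rw [mul_zero, zero_sub, abs_neg]
        linarith
      · show |1 * 0 - B.α| ≤ _
        rw [mul_zero, zero_sub, abs_neg]
        linarith

/-- closeness moves along the ball -/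
theorem Ner.of_cl {D E : ℝ} {q : ℕ} {Λ : ℝ} {S B B' : Cbx} {m : Ry} (h : Ner D q Λ S B' m) (hc : Cl E 0 q 1 B B' m) :
    Ner (D + E) q Λ S B m := by
  obtain ⟨c1, c2, c3, -, -⟩ := hc
  simp only [pow_zero, Nat.mul_zero, one_mul] at c1 c2 c3
  refine ⟨fun k => ?_, ?_, ?_⟩
  · have e : Λ * nv S m k - nv B m k = (Λ * nv S m k - nv B' m k) - (nv B m k - nv B' m k) := by ring
    rw [e]
    have := abs_sub (Λ * nv S m k - nv B' m k) (nv B m k - nv B' m k)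
    linarith [h.n k, c1 k]
  · have e : Λ * S.κ - B.κ = (Λ * S.κ - B'.κ) - (B.κ - B'.κ) := by ring
    rw [e]
    have := abs_sub (Λ * S.κ - B'.κ) (B.κ - B'.κ)
    linarith [h.κ, c2]
  · have e : Λ * S.α - B.α = (Λ * S.α - B'.α) - (B.α - B'.α) := by ring
    rw [e]
    have := abs_sub (Λ * S.α - B'.α) (B.α - B'.α)
    linarith [h.α, c3]

/-- closeness constant of the chosen labels -/
noncomputable def cE (c : ℝ) : ℝ := cB c + 1 * (1 + 4 * 1 + 5 * 1 ^ 2)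

/-- class of the chosen labels -/
noncomputable def cS (c : ℝ) : ℝ := cA c (2 * c + 1 * (1 + 4 * 1 + 5 * 1 ^ 2))

theorem one_le_cS {c : ℝ} (hc : 1 ≤ c) : 1 ≤ cS c := by
  unfold cS cA
  nlinarith

/-- **SBOX** : a label of level `a` which is a function of the rounded functional and of the cell of the ray -/
theorem sbox {c : ℝ} (hc : 1 ≤ c) (a w q : ℕ) : ∃ S : Cf × Cell → Cbx,
    ∀ (L : ℕ) (W : Cbx) (l : Ry) (t : ℝ), W0 c (a + w) q W l t → a + q ≤ L → |(Fa (a + w) W t).α| ≤ 2 ^ a →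
      LbOk (cS c) L a (S (sk a w q W l t, pl 0 (bl a l t))) l t ∧
      (S (sk a w q W l t, pl 0 (bl a l t))).u2 = 1 ∧
      (S (sk a w q W l t, pl 0 (bl a l t))).u1 = (1 / 2 : ℝ) ^ q ∧
      ∃ Λ : ℝ, 1 / 2 ≤ Λ ∧ Ner (cE c) q Λ (S (sk a w q W l t, pl 0 (bl a l t))) (Fl a w W t) (bl a l t) := by
  classical
  have hc0 : 0 < c := by linarith
  set A : ℝ := 2 * c + 1 * (1 + 4 * 1 + 5 * 1 ^ 2) with hAdef
  have hA : 2 * c ≤ A := by rw [hAdef]; norm_num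
  let Hx : Cbx × Ry × ℝ → Prop := fun x => W0 c (a + w) q x.1 x.2.1 x.2.2 ∧ |(Fa (a + w) x.1 x.2.2).α| ≤ 2 ^ a
  let kx : Cbx × Ry × ℝ → Cf × Cell := fun x => (sk a w q x.1 x.2.1 x.2.2, pl 0 (bl a x.2.1 x.2.2))
  have hex : ∀ k : Cf × Cell, ∃ Lb : Cbx, ∀ x, Hx x → kx x = k → Lb.u2 = 1 ∧ Lb.u1 = (1 / 2 : ℝ) ^ q ∧
      |Lb.α| * Lb.u2 ≤ cA c A ∧ |Lb.κ| * Lb.u2 ≤ cA c A ∧ Bin (cA c A) Lb 0 (bl a x.2.1 x.2.2) ∧
      ∃ Λ : ℝ, 1 / 2 ≤ Λ ∧ Ner (cE c) q Λ Lb (Fl a w x.1 x.2.2) (bl a x.2.1 x.2.2) := by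
    intro k
    by_cases hk : ∃ x, Hx x ∧ kx x = k
    · obtain ⟨x', ⟨H', hα'⟩, hk'⟩ := hk
      have V' := lv_of hc le_rfl H' hα'
      obtain ⟨Lb, Λ, hΛ, l1, l2, l3, l4, l5, l6⟩ := mkLab' hc hA V'.κ V'.α V'.g0 V'.g1
      refine ⟨Lb, fun x hx hkx => ?_⟩
      obtain ⟨H, hα⟩ := hx
      have V := lv_of hc le_rfl H hα
      have hkk : kx x = kx x' := hkx.trans hk'.symm
      simp only [kx, Prod.mk.injEq] at hkk
      obtain ⟨k1, k3⟩ := hkk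
      have k1' : cf 0 q (Fl a w x.1 x.2.2) (ctr 0 (pl 0 (bl a x.2.1 x.2.2))) =
          cf 0 q (Fl a w x'.1 x'.2.2) (ctr 0 (pl 0 (bl a x.2.1 x.2.2))) := by
        have h1 := k1
        unfold sk at h1
        rw [← k3] at h1
        exact h1
      have e1 := cf_eq (Nat.zero_le _) k1'
      have e3 := e1.move zero_le_one zero_le_one (nr_ctr 0 (bl a x.2.1 x.2.2))
      have hnr : Nr 6 0 (bl a x.2.1 x.2.2) (bl a x'.2.1 x'.2.2) := nr_cell k3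
      refine ⟨l1, l2, l3, l4, l5 _ hnr ?_ ?_, Λ, hΛ, ?_⟩
      · have h1 := e3.g0
        rw [one_mul (G0 (Fl a w x'.1 x'.2.2) _)] at h1
        have h2 := abs_sub (G0 (Fl a w x.1 x.2.2) (bl a x.2.1 x.2.2))
          (G0 (Fl a w x.1 x.2.2) (bl a x.2.1 x.2.2) - G0 (Fl a w x'.1 x'.2.2) (bl a x.2.1 x.2.2))
        have e4 : G0 (Fl a w x.1 x.2.2) (bl a x.2.1 x.2.2) -
          (G0 (Fl a w x.1 x.2.2) (bl a x.2.1 x.2.2) - G0 (Fl a w x'.1 x'.2.2) (bl a x.2.1 x.2.2)) =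
          G0 (Fl a w x'.1 x'.2.2) (bl a x.2.1 x.2.2) := by ring
        rw [e4] at h2
        have h3 := V.g0
        rw [hAdef]
        have e5 : (2 * c + 1 * (1 + 4 * 1 + 5 * 1 ^ 2)) * (1 / 2 : ℝ) ^ q = 2 * c * (1 / 2 : ℝ) ^ q +
          1 * (1 + 4 * 1 + 5 * 1 ^ 2) * (1 / 2 : ℝ) ^ q := by ring
        rw [e5]
        linarith
      · have h1 := e3.g1
        rw [one_mul (G1 (Fl a w x'.1 x'.2.2) _)] at h1
        have h2 := abs_sub (G1 (Fl a w x.1 x.2.2) (bl a x.2.1 x.2.2))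
          (G1 (Fl a w x.1 x.2.2) (bl a x.2.1 x.2.2) - G1 (Fl a w x'.1 x'.2.2) (bl a x.2.1 x.2.2))
        have e4 : G1 (Fl a w x.1 x.2.2) (bl a x.2.1 x.2.2) -
          (G1 (Fl a w x.1 x.2.2) (bl a x.2.1 x.2.2) - G1 (Fl a w x'.1 x'.2.2) (bl a x.2.1 x.2.2)) =
          G1 (Fl a w x'.1 x'.2.2) (bl a x.2.1 x.2.2) := by ring
        rw [e4] at h2
        have h3 := V.g1
        rw [hAdef]
        have e5 : (2 * c + 1 * (1 + 4 * 1 + 5 * 1 ^ 2)) * (1 / 2 : ℝ) ^ q = 2 * c * (1 / 2 : ℝ) ^ q +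
          1 * (1 + 4 * 1 + 5 * 1 ^ 2) * (1 / 2 : ℝ) ^ q := by ring
        rw [e5]
        linarith
      · exact (l6 _ hnr).of_cl e3
    · exact ⟨⟨0, 0, 0, 0, 0, 0, 0, 0⟩, fun x hx hkx => absurd ⟨x, hx, hkx⟩ hk⟩
  choose S hS using hex
  refine ⟨S, fun L W l t H hL hα => ?_⟩
  obtain ⟨l1, l2, l3, l4, l5, l6⟩ := hS (kx (W, l, t)) (W, l, t) ⟨H, hα⟩ rfl
  exact ⟨⟨⟨0, q, by rw [pow_zero]; exact l1, l2, Nat.zero_le _, hL⟩, l3, l4, l5⟩, l1, l2, l6⟩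

/-! ### containment -/

/-- the inverse of `dnB` -/
noncomputable def upB (w : ℕ) (τ : ℝ) (S : Cbx) : Cbx :=
  ⟨S.θ, 2 ^ w * S.u1, 2 ^ w * S.u2, S.κ + 2 * τ * S.α, S.α / 2 ^ w, fun k => 2 ^ w * (S.p k + τ * S.v k), S.v,
    2 ^ w * (S.ω - τ * (∑ k, S.v k ^ 2) / 2)⟩

theorem dn_upB (w : ℕ) (τ : ℝ) (S : Cbx) : dnB w τ (upB w τ S) = S := by
  have h2 : (2 : ℝ) ^ w ≠ 0 := by positivity
  cases S with
  | mk θ u1 u2 κ α p v ω =>
    simp only [dnB, upB, dn, Cbx.mk.injEq, true_and]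
    refine ⟨by field_simp, by field_simp, by field_simp; ring, by field_simp, ?_, by field_simp; ring⟩
    funext k
    field_simp
    ring

/-- value at the later time -/
theorem val_up (w : ℕ) (τ : ℝ) (S : Cbx) (l : Ry) :
    G0 S (dn w τ l) + τ * G1 S (dn w τ l) = G0 (upB w τ S) l / 2 ^ w := by
  have h1 := G0_dn w τ (upB w τ S) l
  have h2 := G1_dn w τ (upB w τ S) l
  rw [dn_upB] at h1 h2
  rw [h1, h2]
  ring

/-- **CONT** -/
theorem cont {D E K Λ τ : ℝ} (hD : 0 ≤ D) (hE : 0 ≤ E) (hΛ : 1 / 2 ≤ Λ) (h0 : 0 ≤ τ) (h1 : τ ≤ 1) {w q : ℕ} {S B : Cbx}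
    {l l' : Ry} (hn : Ner D q Λ S (dnB w τ B) (dn w τ l)) (hl : Nr E 0 l' l) (hg : |G0 B l| ≤ K * (1 / 2 : ℝ) ^ q)
    (hg' : |G0 B l'| ≤ K * (1 / 2 : ℝ) ^ q) :
    |(G0 S (dn w τ l) + τ * G1 S (dn w τ l)) - (G0 S (dn w τ l') + τ * G1 S (dn w τ l'))| ≤
      (4 * K + 10 * D * E + 4 * D * E ^ 2) * (1 / 2 : ℝ) ^ (w + q) := by
  have h2 : (0 : ℝ) < 2 ^ w := by positivity
  have h21 : (1 : ℝ) ≤ 2 ^ w := one_le_pow₀ (by norm_num)
  have hq : (0 : ℝ) < (1 / 2 : ℝ) ^ q := by positivity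
  obtain ⟨n1, n2, n3⟩ := hn
  obtain ⟨y1, s1, z1⟩ := hl
  simp only [pow_zero, Nat.mul_zero, mul_one] at y1 s1 z1
  set T := upB w τ S with hT
  have hS : dnB w τ T = S := dn_upB w τ S
  have eκ : S.κ = T.κ - 2 * τ * 2 ^ w * T.α := by rw [← hS]; rfl
  have eα : S.α = 2 ^ w * T.α := by rw [← hS]; rfl
  have en : ∀ k, nv S (dn w τ l) k = nv T l k := fun k => by
    have := nv_dn w τ T l
    rw [hS] at this
    rw [this]
  have en' : ∀ k, nv (dnB w τ B) (dn w τ l) k = nv B l k := fun k => by rw [nv_dn]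
  have eB1 : (dnB w τ B).κ = B.κ - 2 * τ * 2 ^ w * B.α := rfl
  have eB2 : (dnB w τ B).α = 2 ^ w * B.α := rfl
  rw [val_up, val_up]
  -- closeness of `Λ T` and `B`
  have m1 : ∀ k, |Λ * nv T l k - nv B l k| ≤ D * (1 / 2 : ℝ) ^ q := fun k => by
    have := n1 k
    rwa [en, en'] at this
  have m3 : |Λ * T.α - B.α| * 2 ^ w ≤ D * (1 / 2 : ℝ) ^ q := by
    rw [eα, eB2] at n3
    have e : Λ * (2 ^ w * T.α) - 2 ^ w * B.α = 2 ^ w * (Λ * T.α - B.α) := by ring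
    rw [e, abs_mul, abs_of_pos h2] at n3
    linarith
  have m3' : |Λ * T.α - B.α| ≤ D * (1 / 2 : ℝ) ^ q := by
    have := abs_nonneg (Λ * T.α - B.α)
    nlinarith
  have m2 : |Λ * T.κ - B.κ| ≤ 3 * (D * (1 / 2 : ℝ) ^ q) := by
    rw [eκ, eB1] at n2
    have e : Λ * T.κ - B.κ = (Λ * (T.κ - 2 * τ * 2 ^ w * T.α) - (B.κ - 2 * τ * 2 ^ w * B.α)) +
        2 * (τ * ((Λ * T.α - B.α) * 2 ^ w)) := by ring
    rw [e]
    have a1 := abs_add_le (Λ * (T.κ - 2 * τ * 2 ^ w * T.α) - (B.κ - 2 * τ * 2 ^ w * B.α))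
      (2 * (τ * ((Λ * T.α - B.α) * 2 ^ w)))
    have a2 : |2 * (τ * ((Λ * T.α - B.α) * 2 ^ w))| ≤ 2 * (D * (1 / 2 : ℝ) ^ q) := by
      rw [abs_mul, abs_two, abs_mul, abs_of_nonneg h0, abs_mul, abs_of_pos h2]
      have := mul_le_mul h1 m3 (mul_nonneg (abs_nonneg _) h2.le) zero_le_one
      linarith
    linarith
  -- the difference
  have e0 : Λ * (G0 T l' - G0 T l) = (G0 B l' - G0 B l) + ((Λ * nv T l 0 - nv B l 0) * (l'.y 0 - l.y 0) +
      (Λ * nv T l 1 - nv B l 1) * (l'.y 1 - l.y 1) + (Λ * T.κ - B.κ) * ze l' l +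
      -((Λ * T.α - B.α) * ((l'.y 0 - l.y 0) * (l'.y 0 - l.y 0) + (l'.y 1 - l.y 1) * (l'.y 1 - l.y 1))) + 0) := by
    rw [G0_eq T l' l, G0_eq B l' l]
    simp only [Fin.sum_univ_two]
    ring
  have b1 : |(Λ * nv T l 0 - nv B l 0) * (l'.y 0 - l.y 0)| ≤ D * (1 / 2 : ℝ) ^ q * E := by
    rw [abs_mul]
    exact mul_le_mul (m1 0) (y1 0) (abs_nonneg _) (by positivity)
  have b2 : |(Λ * nv T l 1 - nv B l 1) * (l'.y 1 - l.y 1)| ≤ D * (1 / 2 : ℝ) ^ q * E := by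
    rw [abs_mul]
    exact mul_le_mul (m1 1) (y1 1) (abs_nonneg _) (by positivity)
  have b3 : |(Λ * T.κ - B.κ) * ze l' l| ≤ 3 * (D * (1 / 2 : ℝ) ^ q) * E := by
    rw [abs_mul]
    exact mul_le_mul m2 z1 (abs_nonneg _) (by positivity)
  have b4 : |(Λ * T.α - B.α) * ((l'.y 0 - l.y 0) * (l'.y 0 - l.y 0) + (l'.y 1 - l.y 1) * (l'.y 1 - l.y 1))| ≤
      D * (1 / 2 : ℝ) ^ q * (2 * E ^ 2) := by
    rw [abs_mul]
    refine mul_le_mul m3' ?_ (abs_nonneg _) (by positivity)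
    have c1 : |(l'.y 0 - l.y 0) * (l'.y 0 - l.y 0)| ≤ E * E := by
      rw [abs_mul]; exact mul_le_mul (y1 0) (y1 0) (abs_nonneg _) hE
    have c2 : |(l'.y 1 - l.y 1) * (l'.y 1 - l.y 1)| ≤ E * E := by
      rw [abs_mul]; exact mul_le_mul (y1 1) (y1 1) (abs_nonneg _) hE
    have c3 := abs_add_le ((l'.y 0 - l.y 0) * (l'.y 0 - l.y 0)) ((l'.y 1 - l.y 1) * (l'.y 1 - l.y 1))
    have c4 : E * E = E ^ 2 := by ring
    rw [c4] at c1 c2
    exact c3.trans (by linarith)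
  have b5 : |Λ * (G0 T l' - G0 T l)| ≤ (2 * K + 5 * D * E + 2 * D * E ^ 2) * (1 / 2 : ℝ) ^ q := by
    rw [e0]
    refine (abs_add_le _ _).trans ?_
    have c1 := abs5 ((Λ * nv T l 0 - nv B l 0) * (l'.y 0 - l.y 0)) ((Λ * nv T l 1 - nv B l 1) * (l'.y 1 - l.y 1))
      ((Λ * T.κ - B.κ) * ze l' l)
      (-((Λ * T.α - B.α) * ((l'.y 0 - l.y 0) * (l'.y 0 - l.y 0) + (l'.y 1 - l.y 1) * (l'.y 1 - l.y 1)))) 0
    rw [abs_neg, abs_zero] at c1
    have c2 := abs_sub (G0 B l') (G0 B l)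
    have e5 : (2 * K + 5 * D * E + 2 * D * E ^ 2) * (1 / 2 : ℝ) ^ q = K * (1 / 2 : ℝ) ^ q + K * (1 / 2 : ℝ) ^ q +
      (D * (1 / 2 : ℝ) ^ q * E + D * (1 / 2 : ℝ) ^ q * E + 3 * (D * (1 / 2 : ℝ) ^ q) * E +
        D * (1 / 2 : ℝ) ^ q * (2 * E ^ 2)) := by ring
    rw [e5]
    refine add_le_add (c2.trans (add_le_add hg' hg)) (c1.trans ?_)
    rw [add_zero]
    exact add_le_add (add_le_add (add_le_add b1 b2) b3) b4
  have b6 : |G0 T l' - G0 T l| ≤ 2 * ((2 * K + 5 * D * E + 2 * D * E ^ 2) * (1 / 2 : ℝ) ^ q) := by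
    rw [abs_mul, abs_of_pos (by linarith : (0 : ℝ) < Λ)] at b5
    have c1 := mul_le_mul_of_nonneg_right hΛ (abs_nonneg (G0 T l' - G0 T l))
    have c2 := c1.trans b5
    linarith
  have e6 : G0 T l / 2 ^ w - G0 T l' / 2 ^ w = -((G0 T l' - G0 T l) / 2 ^ w) := by ring
  rw [e6, abs_neg, abs_div, abs_of_pos h2, div_le_iff₀ h2, pow_add]
  have e7 : (4 * K + 10 * D * E + 4 * D * E ^ 2) * ((1 / 2 : ℝ) ^ w * (1 / 2 : ℝ) ^ q) * 2 ^ w =
      2 * ((2 * K + 5 * D * E + 2 * D * E ^ 2) * (1 / 2 : ℝ) ^ q) * (2 ^ w * (1 / 2 : ℝ) ^ w) := by ring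
  rw [e7, pw_b, mul_one]
  exact b6

end Vale.Agent.P106.U.H459
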