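import Vale.Agent.P106.U.H459.ExitGeo
import Vale.Agent.P106.U.H489.Cls

/-!
# P106 / U / H459 : the exit of the path by the thickness is impossible

`PExit` : a near-extremal system has no modified end label `Wm` (the same slab as `W` up to the thickness, another `α`), nearly a
function of the end, whose functional in the block of level `a ≤ (1 - θ) h` is known to `q` digits given the ray (letter `sk`).
`pExit : PTail → PExit`.
-/

set_option autoImplicit false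

namespace Vale.Agent.P106.U

open Vale.Agent.P127 Vale.Agent.P127.Stk Vale.Agent.P127.U Vale.Agent.P106.W Vale.Agent.P106.K Vale.Agent.P106.U.H428
open Vale.Agent.P106.U.H459

/-- **[EXIT]** -/
def PExit : Prop :=
  ∀ lam N β0 θ : ℝ, 0 < lam → lam < 1 → lam < β0 → β0 ≤ 2 → 2 ≤ N → 0 < θ → ∃ η : ℝ, 0 < η ∧
    ∀ k β b' c K0 : ℝ, 0 < k → k ≤ η → β0 ≤ β → β ≤ b' → b' ≤ β + η → FIXA lam N (8 * k) b' → 1 ≤ c → 1 ≤ K0 → ∃ h0 : ℕ,
      ∀ (Ω : Type) [Fintype Ω] (γ : Type) (P : Law Ω) (l : Ω → Ry) (t : Ω → ℝ) (C : Ω → γ) (L a w q : ℕ) (W Wm : Ω → Cbx),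
        NEx c lam N k β η P l t C L (a + w) q W → h0 ≤ a + w → (a : ℝ) ≤ (1 - θ) * (a + w) →
        (∀ ω, 0 < P.w ω → W0 K0 (a + w) q (Wm ω) (l ω) (t ω) ∧ |(Fa (a + w) (Wm ω) (t ω)).α| ≤ 2 ^ a ∧
          Cl K0 0 q 1 (W ω) (Wm ω) (bl (a + w) (l ω) (t ω))) →
        Stk.hc P Wm (fun ω => (W ω, fl1 (a + w) (t ω), C ω)) ≤ η * (a + w) →
        Stk.hc P (fun ω => sk a w q (Wm ω) (l ω) (t ω)) (fun ω => (l ω, fl1 a (t ω), C ω)) ≤ η * (a + w) → False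

end Vale.Agent.P106.U

namespace Vale.Agent.P106.U.H459

open Vale.Agent.P127 Vale.Agent.P127.Stk Vale.Agent.P127.U Vale.Agent.P106.W Vale.Agent.P106.K Vale.Agent.P106.U.H428
open Vale.Agent.P106.U.H513 (dn dnB tau)

theorem nex_cls {c c' lam N k β d d' : ℝ} (hcc : c ≤ c') (h0 : 0 ≤ lam) (h1 : lam ≤ 1) (hk : 0 ≤ k)
    {K : ℝ} (hK : ∀ (Ω : Type) [Fintype Ω] (γ : Type) (P : Law Ω)
      (l : Ω → Ry) (t : Ω → ℝ) (C : Ω → γ) (e : Ω → ℕ × ℕ) (L a : ℕ) (lam k La : ℝ), 0 ≤ lam → lam ≤ 1 → 0 ≤ k → 0 ≤ La →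
      a ≤ L → XX c' lam k La P l t C e L a ≤ XX c lam k La P l t C e L a + (1 + k + La) * K)
    {Ω : Type} [Fintype Ω] {γ : Type} {P : Law Ω} {l : Ω → Ry} {t : Ω → ℝ} {C : Ω → γ} {L h q : ℕ} {W : Ω → Cbx}
    (hN : NEx c lam N k β d P l t C L h q W) (hh : (1 + k) * K ≤ (d' - d) * h * Real.log 2) :
    NEx c' lam N k β d' P l t C L h q W := by
  refine ⟨hN.ok, hN.hL, fun ω hω => ⟨H489.LbOk.mono hcc (hN.lb ω hω).1, (hN.lb ω hω).2⟩, ?_⟩
  have h2 := hN.ex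
  have h3 := hK Ω γ P l t C (fun _ => (0, q)) L 0 lam k 0 h0 h1 hk le_rfl (Nat.zero_le _)
  rw [add_zero] at h3
  have e : (β - d') * h * Real.log 2 = (β - d) * h * Real.log 2 - (d' - d) * h * Real.log 2 := by ring
  rw [e]
  linarith

/-- distance of two rays of a label -/
noncomputable def eE (c : ℝ) : ℝ := c + c + 2 * (c + c) * c

/-- bound of the functional of the modified label on the rays of `W` -/
noncomputable def eK (c K0 : ℝ) : ℝ := K0 * (1 + 4 * eE c + 5 * eE c ^ 2) + c + K0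

theorem qa_eq {a : ℕ} {t t' : ℝ} (h : fl1 a t = fl1 a t') : qa a t = qa a t' := by unfold qa; rw [h]

theorem bl_eq {a : ℕ} {l : Ry} {t t' : ℝ} (h : fl1 a t = fl1 a t') : bl a l t = bl a l t' := by
  have := qa_eq h
  unfold bl
  rw [this]

theorem fl1_dn {a w : ℕ} {t t' : ℝ} (h : fl1 (a + w) t = fl1 (a + w) t') : fl1 a t = fl1 a t' := by
  have h2 := floor_pow_aux (Nat.le_add_right a w) t
  have h3 := floor_pow_aux (Nat.le_add_right a w) t'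
  have e : ⌊(2 : ℝ) ^ (a + w) * t⌋ = ⌊(2 : ℝ) ^ (a + w) * t'⌋ := h
  show ⌊(2 : ℝ) ^ a * t⌋ = ⌊(2 : ℝ) ^ a * t'⌋
  rw [h2, h3, e]

theorem gS_eq (S : Cbx) (l : Ry) (t : ℝ) (a w : ℕ) :
    gS S l t a (a + w) = G0 S (bl a l t) + tau a w t * G1 S (bl a l t) := rfl

/-- containment for the chosen boxes -/
theorem contS {c K0 D : ℝ} (hc : 1 ≤ c) (hK0 : 1 ≤ K0) (hD : 0 ≤ D) {a w q : ℕ} {W Wm S : Cbx} {l l' : Ry} {t t' : ℝ}
    {Λ : ℝ} (hΛ : 1 / 2 ≤ Λ) (ht : fl1 (a + w) t = fl1 (a + w) t') (H : W0 c (a + w) q W l t) (H' : W0 c (a + w) q W l' t')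
    (Hm : W0 K0 (a + w) q Wm l t) (hcl : Cl K0 0 q 1 W Wm (bl (a + w) l t))
    (hn : Ner D q Λ S (Fl a w Wm t) (bl a l t)) :
    |gS S l t a (a + w) - gS S l' t' a (a + w)| ≤
      (4 * eK c K0 + 10 * D * eE c + 4 * D * eE c ^ 2) * (1 / 2 : ℝ) ^ (w + q) := by
  have hc0 : 0 ≤ c := by linarith
  have hE0 : 0 ≤ eE c := by unfold eE; positivity
  have hq : (0 : ℝ) < (1 / 2 : ℝ) ^ q := by positivity
  have bnr : ∀ {l t}, W0 c (a + w) q W l t → Nr c 0 (bl (a + w) l t) (cn W) := fun {l t} H => by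
    refine bin_nr (R := q) ⟨by rw [H.u2, pow_zero], H.u1, ?_, ?_⟩ H.inn
    · rw [H.u2, mul_one]; exact H.α
    · rw [H.u2, mul_one]; exact H.κ
  have hnr : Nr (eE c) 0 (bl (a + w) l' t') (bl (a + w) l t) := Nr.trans' hc0 hc0 (bnr H') (bnr H)
  have hmv := hcl.move (by linarith) hE0 hnr
  have hg : |G0 Wm (bl (a + w) l t)| ≤ eK c K0 * (1 / 2 : ℝ) ^ q := by
    refine Hm.g.1.trans (mul_le_mul_of_nonneg_right ?_ hq.le)
    unfold eK
    have : 0 ≤ K0 * (1 + 4 * eE c + 5 * eE c ^ 2) := by positivity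
    linarith
  have hg' : |G0 Wm (bl (a + w) l' t')| ≤ eK c K0 * (1 / 2 : ℝ) ^ q := by
    have h1 := hmv.g0
    rw [one_mul (G0 Wm _)] at h1
    have h2 := H'.g.1
    have h3 := abs_sub (G0 W (bl (a + w) l' t')) (G0 W (bl (a + w) l' t') - G0 Wm (bl (a + w) l' t'))
    have e : G0 W (bl (a + w) l' t') - (G0 W (bl (a + w) l' t') - G0 Wm (bl (a + w) l' t')) =
        G0 Wm (bl (a + w) l' t') := by ring
    rw [e] at h3
    have e2 : eK c K0 * (1 / 2 : ℝ) ^ q = c * (1 / 2 : ℝ) ^ q +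
        K0 * (1 + 4 * eE c + 5 * eE c ^ 2) * (1 / 2 : ℝ) ^ q + K0 * (1 / 2 : ℝ) ^ q := by
      unfold eK; ring
    rw [e2]
    have h4 : 0 ≤ K0 * (1 / 2 : ℝ) ^ q := by positivity
    linarith
  rw [gS_eq, gS_eq, ← H513.tau_fn a w t t' ht]
  have eb : bl a l t = dn w (tau a w t) (bl (a + w) l t) := H513.bl_dn a w l t
  have eb' : bl a l' t' = dn w (tau a w t) (bl (a + w) l' t') := by
    rw [H513.bl_dn a w l' t', H513.tau_fn a w t t' ht]
  rw [eb] at hn ⊢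
  rw [eb']
  exact cont hD hE0 hΛ (H513.tau_nonneg a w t) (H513.tau_le a w t) hn hnr hg hg'

/-- **EXIT** from TAIL -/
theorem pExit (hT : PTail) : PExit := by
  intro lam N β0 θ hl hl1 hβ0 hβ2 hN hθ
  obtain ⟨ηT, hηT, hT⟩ := hT lam N β0 θ hl hl1 hβ0 hβ2 hN hθ
  refine ⟨ηT / 2, by positivity, ?_⟩
  intro k β b' c K0 hk hkη hβ hb hb' hF hc hK0
  have hcE : 0 ≤ cE K0 := by unfold cE cB cN; positivity
  set c1 : ℝ := max c (cS K0) with hc1
  have hcc1 : c ≤ c1 := le_max_left _ _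
  have h1c1 : 1 ≤ c1 := hc.trans hcc1
  obtain ⟨K, hK, hcls⟩ := H489.clsX c c1 hc (by linarith)
  obtain ⟨Kc, hKc, hcell⟩ := cell_hc K0 hK0
  have hKK : 0 ≤ 4 * eK c K0 + 10 * cE K0 * eE c + 4 * cE K0 * eE c ^ 2 := by
    unfold eK eE
    positivity
  obtain ⟨h0, hT⟩ := hT k β b' c1 (4 * eK c K0 + 10 * cE K0 * eE c + 4 * cE K0 * eE c ^ 2) hk (by linarith) hβ hb
    (by linarith) hF h1c1 hKK
  have hl2 : 0 < Real.log 2 := Real.log_pos (by norm_num)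
  obtain ⟨h1, hh1⟩ := exists_nat_gt ((1 + k) * K / (ηT / 2 * Real.log 2))
  obtain ⟨h2, hh2⟩ := exists_nat_gt (Kc / (ηT / 2))
  refine ⟨max h0 (max h1 h2), ?_⟩
  intro Ω _ γ P l t C L a w q W Wm hX hh ha hW hm hs
  have g0 : h0 ≤ a + w := (le_max_left _ _).trans hh
  have g1 : h1 ≤ a + w := (le_max_left _ _).trans ((le_max_right _ _).trans hh)
  have g2 : h2 ≤ a + w := (le_max_right _ _).trans ((le_max_right _ _).trans hh)
  have e1 : (1 + k) * K ≤ (ηT - ηT / 2) * ((a + w : ℕ) : ℝ) * Real.log 2 := by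
    have g1' : (h1 : ℝ) ≤ ((a + w : ℕ) : ℝ) := by exact_mod_cast g1
    have h3 := (div_lt_iff₀ (by positivity)).1 hh1
    have h4 := mul_le_mul_of_nonneg_right g1' (by positivity : 0 ≤ ηT / 2 * Real.log 2)
    linarith
  have e2 : Kc ≤ ηT / 2 * ((a + w : ℕ) : ℝ) := by
    have g2' : (h2 : ℝ) ≤ ((a + w : ℕ) : ℝ) := by exact_mod_cast g2
    have h3 := (div_lt_iff₀ (by positivity)).1 hh2
    have h4 := mul_le_mul_of_nonneg_right g2' (by positivity : 0 ≤ ηT / 2)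
    linarith
  have hX1 := nex_cls (d' := ηT) hcc1 hl.le hl1.le hk.le hcls hX e1
  -- the boxes
  obtain ⟨Sb, hSb⟩ := sbox hK0 a w q
  have hL : a + q ≤ L := by
    have := hX.hL
    omega
  have hS : ∀ ω, 0 < P.w ω → _ := fun ω hω => hSb L (Wm ω) (l ω) (t ω) (hW ω hω).1 hL (hW ω hω).2.1
  have hWc : ∀ ω, 0 < P.w ω → W0 c (a + w) q (W ω) (l ω) (t ω) := fun ω hω =>
    W0.of (hX.ok ω hω).1 (hX.ok ω hω).2.1 (hX.ok ω hω).2.2 (hX.lb ω hω).1 (hX.lb ω hω).2.1 (hX.lb ω hω).2.2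
  push_cast at e2
  refine hT Ω γ P l t C L (a + w) q a W
    (fun ω => Sb (sk a w q (Wm ω) (l ω) (t ω), pl 0 (bl a (l ω) (t ω)))) hX1 g0 (by push_cast; exact ha) ?_ ?_ ?_ ?_
  · intro ω hω
    obtain ⟨s1, s2, s3, -⟩ := hS ω hω
    exact ⟨H489.LbOk.mono (le_max_right _ _) s1, s2, s3⟩
  · push_cast
    refine le_trans (le_trans (Stk.hc_mono_left P ?_) hs) ?_
    · intro ω ω' _ _ e
      simp only [Prod.mk.injEq] at e ⊢
      obtain ⟨e3, e4, e5, e6⟩ := e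
      rw [e3, e4, bl_eq e5]
    · have : (0 : ℝ) ≤ (a + w : ℕ) := Nat.cast_nonneg _
      push_cast at this
      nlinarith
  · push_cast
    have f1 := Stk.hc_le_add P (fun ω => Sb (sk a w q (Wm ω) (l ω) (t ω), pl 0 (bl a (l ω) (t ω)))) Wm
      (fun ω => (W ω, fl1 (a + w) (t ω), C ω))
    have f2 : Stk.hc P (fun ω => Sb (sk a w q (Wm ω) (l ω) (t ω), pl 0 (bl a (l ω) (t ω))))
        (fun ω => (Wm ω, (W ω, fl1 (a + w) (t ω), C ω))) ≤
        Stk.hc P (fun ω => Sb (sk a w q (Wm ω) (l ω) (t ω), pl 0 (bl a (l ω) (t ω))))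
          (fun ω => (Wm ω, fl1 (a + w) (t ω))) := by
      refine Stk.hc_mono_right P _ ?_
      intro ω ω' _ _ e
      simp only [Prod.mk.injEq] at e ⊢
      exact ⟨e.1, e.2.2.1⟩
    have f3 : Stk.hc P (fun ω => Sb (sk a w q (Wm ω) (l ω) (t ω), pl 0 (bl a (l ω) (t ω))))
          (fun ω => (Wm ω, fl1 (a + w) (t ω))) ≤ Kc := by
      refine le_trans (Stk.hc_mono_left P ?_) (hcell P l t a w (fun _ => q) Wm fun ω hω => (hW ω hω).1)
      intro ω ω' _ _ e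
      simp only [Prod.mk.injEq] at e ⊢
      obtain ⟨e3, e4, e5⟩ := e
      have e6 : Fl a w (Wm ω) (t ω) = Fl a w (Wm ω') (t ω') := by
        unfold Fl
        rw [e4, H513.tau_fn a w _ _ e5]
      have e7 : sk a w q (Wm ω) (l ω) (t ω) = sk a w q (Wm ω') (l ω') (t ω') := by
        unfold sk
        rw [e6, e3]
      rw [e7, e3]
    linarith
  · intro ω ω' hω hω' eW et _ _
    obtain ⟨-, -, -, Λ, hΛ, hn⟩ := hS ω hω
    have h3 := contS (c := c) (K0 := K0) (D := cE K0) hc hK0 hcE hΛ et (hWc ω hω) (eW ▸ hWc ω' hω') (hW ω hω).1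
      (hW ω hω).2.2 hn
    rw [Nat.add_sub_cancel_left]
    exact h3

end Vale.Agent.P106.U.H459
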