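import Vale.Agent.P106.U.H459.ExitRun
import Vale.Agent.P106.U.S5.Run

/-!
# P106 / U / H459 : the record `S5.RR` from a run

* `rr_of_exr` : from the record `ExR2` to `S5.RR`.
* `rr_of_run` : a run with `R.Ok`, stopped by the precision at a level `≤ (1 - θ / 2) h - j`, gives `S5.RR`.
* `rr_small` : small precision `q ≤ C2 δ1 h`.
-/

set_option autoImplicit false

namespace Vale.Agent.P106.U.H459

open Vale.Agent.P127 Vale.Agent.P127.Stk Vale.Agent.P127.U Vale.Agent.P106.W Vale.Agent.P106.K Vale.Agent.P106.U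
open Vale.Agent.P106.U.S5 Vale.Agent.P106.U.H428
open Vale.Agent.P127.U.CellD (q2)

theorem rr_of_exr {σ : Cst} {ε : ℝ} {ρ : Thr} {g : Gv} {m B : ℕ} {Ω : Type} [Fintype Ω] {Q : Law Ω} {l : Ω → Ry} {t : Ω → ℝ}
    {L h q r0 Rn : ℕ} {W : Ω → Cbx} {S : Cbx} {K0 g1 g2 : ℝ} (hK : K0 ≤ ρ.K) (h1 : g1 ≤ σ.C2 * σ.δ1)
    (h2 : g2 ≤ σ.C2 * σ.δ1 + ε) (H : ExR2 K0 g1 g2 (σ.θ / 2) Q l t (fun _ => ()) h q W) :
    RR σ ε ρ g m B Q l t L h q r0 Rn W S := by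
  obtain ⟨a, w, r, Wm, rfl, e2, e3, e4, e5, e6, e7⟩ := H
  have hr : q - (q - r) = r := Nat.sub_sub_self e3
  have hh : (0 : ℝ) ≤ ((a + w : ℕ) : ℝ) := Nat.cast_nonneg _
  refine ⟨a, w, q - r, Wm, rfl, e2, Nat.sub_le _ _, ?_, ?_, ?_, ?_⟩
  · rw [Nat.cast_sub e3]
    have := mul_le_mul_of_nonneg_right h1 hh
    linarith
  · intro ω hω
    rw [hr]
    obtain ⟨f1, f2, f3⟩ := e5 ω hω
    have hr0 : (0 : ℝ) ≤ (1 / 2 : ℝ) ^ r := by positivity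
    obtain ⟨a1, a2, a3, a4, a5, a6, a7, ⟨i1, i2, i3, i4, i5⟩⟩ := f1
    refine ⟨⟨a1, a2, a3, a4, a5, a6.trans hK, a7.trans hK, ⟨?_, ?_, ?_, ?_, ?_⟩⟩, f2, f3.mono hK⟩
    · exact fun k => (i1 k).trans (mul_le_mul_of_nonneg_right hK (by rw [a4]; norm_num))
    · exact fun k => (i2 k).trans (mul_le_mul_of_nonneg_right hK (by rw [a4]; norm_num))
    · exact i3.trans (mul_le_mul_of_nonneg_right hK (le_max_right _ _))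
    · exact i4.trans (mul_le_mul_of_nonneg_right hK (by rw [a5]; exact hr0))
    · exact i5.trans (mul_le_mul_of_nonneg_right hK (by rw [a5]; exact hr0))
  · exact e6.trans (mul_le_mul_of_nonneg_right h2 hh)
  · rw [hr]
    exact e7.trans (mul_le_mul_of_nonneg_right h2 hh)

/-- **a run stopped by the precision gives `RR`** -/
theorem rr_of_run (K : ℝ) (hK : 1 ≤ K) : ∃ (D : ℝ) (j : ℕ), 0 ≤ D ∧ ∀ {σ : Cst} {ε : ℝ} {ρ : Thr} {g : Gv} {m B : ℕ} {Ω : Type}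
    [Fintype Ω] {τ υ : Type} (R : S3.Run Ω τ υ) (p : S3.Run.Num) (c' g' gU lam N k β d : ℝ) (r0 Rn : ℕ) (S : Cbx),
    cM 100 K ≤ ρ.K → 0 ≤ σ.θ → R.Ok p K c' g' gU → NEx 100 lam N k β d R.Q R.ry R.t (fun _ => ()) R.L R.h R.q R.W →
    2 * K ^ 2 * q2 (R.C.rk R.n) ≤ 1 → (R.C.a R.n : ℝ) + j ≤ (1 - σ.θ / 2) * R.h →
    (R.q : ℝ) ≤ R.C.rk R.n + σ.C2 * σ.δ1 * R.h → (R.m * R.b1 + 3 : ℝ) * Real.log 2 + gU ≤ (σ.C2 * σ.δ1 + ε) * R.h →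
    g' + gU + D ≤ (σ.C2 * σ.δ1 + ε) * R.h → RR σ ε ρ g m B R.Q R.ry R.t R.L R.h R.q r0 Rn R.W S := by
  obtain ⟨D, j, hD, h⟩ := exr_run2 100 K (by norm_num) hK
  refine ⟨D, j, hD, ?_⟩
  intro σ ε ρ g m B Ω _ τ υ R p c' g' gU lam N k β d r0 Rn S hKK hθ H hN hr ha hq hb hg
  exact rr_of_exr hKK le_rfl le_rfl (h R p c' g' gU lam N k β d H hN hr _ _ (σ.θ / 2) (by linarith) ha hq hb hg)

/-- **small precision** -/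
theorem rr_small : ∃ K0 D : ℝ, 1 ≤ K0 ∧ K0 ≤ 10 ^ 12 ∧ 0 ≤ D ∧ ∀ {σ : Cst} {ε : ℝ} {ρ : Thr} {g : Gv} {m B : ℕ} {Ω : Type} [Fintype Ω]
    {Q : Law Ω} {l : Ω → Ry} {t : Ω → ℝ} {L h q r0 Rn : ℕ} {W : Ω → Cbx} {S : Cbx} {lam N k β d : ℝ},
    K0 ≤ ρ.K → σ.Ok → 0 ≤ ε → NEx 100 lam N k β d Q l t (fun _ => ()) L h q W → (q : ℝ) ≤ σ.C2 * σ.δ1 * h →
    D ≤ σ.C2 * σ.δ1 * h → RR σ ε ρ g m B Q l t L h q r0 Rn W S := by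
  obtain ⟨K0, D, hK0, hKe, hD, h⟩ := exr_small 100 (by norm_num)
  refine ⟨K0, D, hK0, by rw [hKe]; unfold cS0; norm_num, hD, ?_⟩
  intro σ ε ρ g m B Ω _ Q l t L h' q r0 Rn W S lam N k β d hK hσ hε hN hq hDh
  have hC2 : 0 ≤ σ.C2 := by
    have h1 : 0 ≤ σ.C1 := by
      have := hσ.bs.lam0
      show 0 ≤ 1000 / σ.lam + 1
      positivity
    show 0 ≤ 100 * σ.C1
    positivity
  have hR := h hN (σ.C2 * σ.δ1) (σ.θ / 2) (mul_nonneg hC2 hσ.δ0.le) (by linarith [hσ.θ4]) hq hDh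
  obtain ⟨a, w, r, Wm, e1, e2, e3, e4, e5, e6, e7⟩ := hR
  exact rr_of_exr (K0 := K0) (g1 := σ.C2 * σ.δ1) (g2 := σ.C2 * σ.δ1) hK le_rfl (by linarith)
    ⟨a, w, r, Wm, e1, e2, e3, e4, e5, e6, e7⟩

end Vale.Agent.P106.U.H459
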