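import Vale.Agent.P106.U.H459.ExitF
import Vale.Agent.P106.U.S3.Props

/-!
# P106 / U / H459 : the record of the exit from a run (helper404's `S3.Run`)

`exr_run` : a run with `R.Ok` whose last precision `rk n` is within `g h` of `q` gives `ExR`.
-/

set_option autoImplicit false

namespace Vale.Agent.P106.U.H459

open Finset Vale.Agent.P127 Vale.Agent.P127.Stk Vale.Agent.P127.U Vale.Agent.P106.W Vale.Agent.P106.K Vale.Agent.P106.U.H428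
open Vale.Agent.P106.U.H513 (dn dnB tau)
open Vale.Agent.P127.U.CellD (q2 rd)
open Vale.Agent.P106.U

section

variable {Ω : Type} [Fintype Ω] {τ υ : Type} {R : S3.Run Ω τ υ} {p : S3.Run.Num} {K c' g' gU : ℝ}

/-- price of the ray side -/
theorem run_U (H : R.Ok p K c' g' gU) {i : ℕ} (hi : i ≤ R.n + p.J) :
    Stk.hc R.Q (R.U i) (fun ω => (R.ry ω, fl1 (R.C.a i) (R.t ω))) ≤ gU := by
  have h1 : ∀ i, Stk.hc R.Q (R.U i) (fun ω => (R.ry ω, fl1 (R.C.a i) (R.t ω))) ≤ Stk.hc R.Q (R.U 0) R.ry +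
      ∑ j ∈ range i, Stk.hc R.Q (R.U (j + 1)) (fun ω => (R.Z j ω, fl1 (R.C.a (j + 1)) (R.t ω))) := by
    intro i
    induction i with
    | zero =>
      rw [sum_range_zero, add_zero]
      exact Stk.hc_mono_right R.Q _ fun ω ω' _ _ e => (Prod.mk.inj e).1
    | succ i ih =>
      rw [sum_range_succ]
      have h2 := Stk.hc_le_add R.Q (R.U (i + 1)) (R.U i) (fun ω => (R.ry ω, fl1 (R.C.a (i + 1)) (R.t ω)))
      have h3 : Stk.hc R.Q (R.U i) (fun ω => (R.ry ω, fl1 (R.C.a (i + 1)) (R.t ω))) ≤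
          Stk.hc R.Q (R.U i) (fun ω => (R.ry ω, fl1 (R.C.a i) (R.t ω))) := by
        refine Stk.hc_mono_right R.Q _ fun ω ω' _ _ e => ?_
        simp only [Prod.mk.injEq] at e ⊢
        exact ⟨e.1, CellD.fl1_fl1 (R.C.ha (Nat.le_succ i)) e.2⟩
      have h4 : Stk.hc R.Q (R.U (i + 1)) (fun ω => (R.U i ω, (R.ry ω, fl1 (R.C.a (i + 1)) (R.t ω)))) ≤
          Stk.hc R.Q (R.U (i + 1)) (fun ω => (R.Z i ω, fl1 (R.C.a (i + 1)) (R.t ω))) := by
        refine Stk.hc_mono_right R.Q _ fun ω ω' _ _ e => ?_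
        simp only [Prod.mk.injEq, S3.Run.Z] at e ⊢
        exact ⟨⟨e.2.1, e.1⟩, e.2.2⟩
      linarith
  refine (h1 i).trans (le_trans ?_ H.prU)
  refine add_le_add le_rfl (sum_le_sum_of_subset_of_nonneg (range_mono hi) fun j _ _ => Stk.hc_nonneg R.Q _ _)

/-- price of the letters of the cells given the ray side -/
theorem run_T (H : R.Ok p K c' g' gU) {i : ℕ} (hi : i ≤ R.n + p.J) : Stk.hc R.Q (R.C.T i) (R.Z i) ≤ g' := by
  have h1 : ∀ i, Stk.hc R.Q (R.C.T i) (R.Z i) ≤ Stk.hc R.Q (R.C.T 0) (R.Z 0) +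
      ∑ j ∈ range i, Stk.hc R.Q (R.C.T (j + 1)) (fun ω => (R.C.T j ω, R.Z (j + 1) ω)) := by
    intro i
    induction i with
    | zero => rw [sum_range_zero, add_zero]
    | succ i ih =>
      rw [sum_range_succ]
      have h2 := Stk.hc_le_add R.Q (R.C.T (i + 1)) (R.C.T i) (R.Z (i + 1))
      have h3 : Stk.hc R.Q (R.C.T i) (R.Z (i + 1)) ≤ Stk.hc R.Q (R.C.T i) (R.Z i) :=
        Stk.hc_mono_right R.Q _ (H.Um i (i + 1) (Nat.le_succ i))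
      linarith
  refine (h1 i).trans (le_trans ?_ H.prT)
  refine add_le_add le_rfl (sum_le_sum_of_subset_of_nonneg (range_mono hi) fun j _ _ => Stk.hc_nonneg R.Q _ _)

theorem run_rk (H : R.Ok p K c' g' gU) : R.C.rk R.n ≤ R.q :=
  (R.C.hkf R.n).trans ((H.pth.leF R.n (Nat.le_add_right _ _)).trans H.pth.rF)

/-- the data at the points, with one factor for every value of `F 0` -/
theorem run_pt {c : ℝ} (H : R.Ok p K c' g' gU) (hr : 2 * K ^ 2 * q2 (R.C.rk R.n) ≤ 1)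
    (hW : ∀ ω, 0 < R.Q.w ω → W0 c R.h R.q (R.W ω) (R.ry ω) (R.t ω)) :
    ∃ ρf : (Cbx × ℤ) × ℤ → ℝ, ∀ ω, 0 < R.Q.w ω → Pt c K R.θ (R.C.a R.n) R.h R.q (R.C.rk R.n) (R.W ω) (R.ry ω) (R.t ω)
      (R.FW ω) (ρf (R.F 0 ω)) (R.C.p ω) (R.C.F R.n ω).ka (R.C.F R.n ω).al (R.C.s R.n ω) := by
  have h1 : ∀ v : (Cbx × ℤ) × ℤ, ∃ ρ : ℝ, ∀ ω, 0 < R.Q.w ω → R.F 0 ω = v → 1 ≤ K * |ρ| ∧ |ρ| ≤ K ∧
      R.FW ω = ⟨ρ * (H786.Adp.FW R.θ R.h (R.W ω) (R.t ω)).ga, ρ * (H786.Adp.FW R.θ R.h (R.W ω) (R.t ω)).ph,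
        ρ * (H786.Adp.FW R.θ R.h (R.W ω) (R.t ω)).ka, ρ * (H786.Adp.FW R.θ R.h (R.W ω) (R.t ω)).al⟩ := by
    intro v
    by_cases hv : ∃ ω, 0 < R.Q.w ω ∧ R.F 0 ω = v
    · obtain ⟨ω0, hω0, e0⟩ := hv
      obtain ⟨ρ, r1, r2, r3⟩ := H.FWW ω0 hω0
      refine ⟨ρ, fun ω hω e => ⟨r1, r2, ?_⟩⟩
      have e1 : R.FW ω = R.FW ω0 := H.FWf ω ω0 hω hω0 (e.trans e0.symm)
      have e2 := e.trans e0.symm
      simp only [S3.Run.F, Prod.mk.injEq] at e2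
      obtain ⟨⟨e3, e4⟩, -⟩ := e2
      have e5 : qa R.h (R.t ω) = qa R.h (R.t ω0) := qa_eq e4
      have e6 : H786.Adp.FW R.θ R.h (R.W ω) (R.t ω) = H786.Adp.FW R.θ R.h (R.W ω0) (R.t ω0) := by
        rw [H786.Adp.FW_congr e5, e3]
      rw [e1, e6]
      exact r3
    · exact ⟨0, fun ω hω e => absurd ⟨ω, hω, e⟩ hv⟩
  choose ρf hρf using h1
  refine ⟨ρf, fun ω hω => ?_⟩
  obtain ⟨r1, r2, r3⟩ := hρf _ ω hω rfl
  have hok := H.ok ω hω
  have hag := H.agW ω hω R.n le_rfl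
  have hl := H.Cl ω
  have hq := CellD.q2_pos (R.C.rk R.n)
  have htW : R.tW ω = qa R.h (R.t ω) := rfl
  have hK : 1 ≤ K := by
    have := abs_nonneg (ρf (R.F 0 ω))
    nlinarith
  refine ⟨hW ω hω, r1, r2, r3, ?_, ?_, ?_, ?_, ?_, ?_, hok.a1 R.n, hok.k1 R.n, run_rk H⟩
  · have := H.FWn ω hω
    rw [hl, htW] at this
    exact this
  · have := H.Cp ω hω
    rw [hl, htW] at this
    exact this
  · refine hok.p1.trans ?_
    unfold q2
    exact pow_le_one₀ (by norm_num) (by norm_num)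
  · have e1 := hag.cN
    have e2 : ((R.C.F R.n ω).sh (R.tW ω - R.C.s R.n ω)).cN (R.C.l ω) (R.tW ω) = (R.C.F R.n ω).cN (R.C.l ω) (R.C.s R.n ω) := by
      have := Cell.Fu.cN_sh (R.C.F R.n ω) (R.C.l ω) (R.C.s R.n ω) (R.tW ω - R.C.s R.n ω)
      rwa [add_sub_cancel] at this
    rw [e2, hl, htW] at e1
    have e3 := hok.n1 R.n
    rw [hl] at e3
    have e4 := (abs_le.1 e1).1
    have e5 := mul_le_mul_of_nonneg_left e4 (by linarith : 0 ≤ K)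
    nlinarith
  · have e1 := hag.ka
    rw [htW] at e1
    exact e1
  · have e1 := hag.al
    have e2 : q2 R.h ≤ q2 p.A' := CellD.q2_le H.pth.rA'.2
    exact (mul_le_mul_of_nonneg_left e2 (abs_nonneg _)).trans e1

end

/-- the record with two numbers: missing digits `g1 h`, costs `g2 h` -/
def ExR2 (K0 g1 g2 θ : ℝ) {Ω : Type} [Fintype Ω] {γ : Type} (P : Law Ω) (l : Ω → Ry) (t : Ω → ℝ) (C : Ω → γ) (h q : ℕ)
    (W : Ω → Cbx) : Prop :=
  ∃ (a w r : ℕ) (Wm : Ω → Cbx), a + w = h ∧ (a : ℝ) ≤ (1 - θ) * h ∧ r ≤ q ∧ (q : ℝ) ≤ r + g1 * h ∧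
    (∀ ω, 0 < P.w ω → W0 K0 h r (Wm ω) (l ω) (t ω) ∧ |(Fa h (Wm ω) (t ω)).α| ≤ 2 ^ a ∧
      Cl K0 0 r 1 (W ω) (Wm ω) (bl h (l ω) (t ω))) ∧
    Stk.hc P Wm (fun ω => (W ω, fl1 h (t ω), C ω)) ≤ g2 * h ∧
    Stk.hc P (fun ω => sk a w r (Wm ω) (l ω) (t ω)) (fun ω => (l ω, fl1 a (t ω), C ω)) ≤ g2 * h

/-- **the record of the exit from a run** (constant `cM c K`) -/
theorem exr_run2 (c K : ℝ) (hc : 1 ≤ c) (hK : 1 ≤ K) : ∃ (D : ℝ) (j : ℕ), 0 ≤ D ∧ ∀ {Ω : Type} [Fintype Ω] {τ υ : Type}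
    (R : S3.Run Ω τ υ) (p : S3.Run.Num) (c' g' gU lam N k β d : ℝ), R.Ok p K c' g' gU →
    NEx c lam N k β d R.Q R.ry R.t (fun _ => ()) R.L R.h R.q R.W → 2 * K ^ 2 * q2 (R.C.rk R.n) ≤ 1 → ∀ g1 g2 θ : ℝ, 0 ≤ θ →
    (R.C.a R.n : ℝ) + j ≤ (1 - θ) * R.h → (R.q : ℝ) ≤ R.C.rk R.n + g1 * R.h → (R.m * R.b1 + 3 : ℝ) * Real.log 2 + gU ≤ g2 * R.h →
    g' + gU + D ≤ g2 * R.h → ExR2 (cM c K) g1 g2 θ R.Q R.ry R.t (fun _ => ()) R.h R.q R.W := by
  obtain ⟨j, hj⟩ := pow_unbounded_of_one_lt (K ^ 2) (by norm_num : (1 : ℝ) < 2)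
  obtain ⟨M, hM⟩ := cf_mem (cT c K * (1 + 4 * 3 + 5 * 3 ^ 2))
  obtain ⟨m1, m2, m3, m4, m5⟩ := le_cM hc hK
  refine ⟨Real.log (M + M + 1 : ℕ), j,
    Real.log_nonneg (by push_cast; linarith [(Nat.cast_nonneg M : (0 : ℝ) ≤ M)]), ?_⟩
  intro Ω _ τ υ R p c' g' gU lam N k β d H hN hr g1 g2 θ hθ ha hq hb hg
  have hl2 : 0 < Real.log 2 := Real.log_pos (by norm_num)
  have hW : ∀ ω, 0 < R.Q.w ω → W0 c R.h R.q (R.W ω) (R.ry ω) (R.t ω) := fun ω hω =>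
    W0.of (hN.ok ω hω).1 (hN.ok ω hω).2.1 (hN.ok ω hω).2.2 (hN.lb ω hω).1 (hN.lb ω hω).2.1 (hN.lb ω hω).2.2
  obtain ⟨ρf, hP⟩ := run_pt H hr hW
  set n := R.n with hn
  set r := R.C.rk n with hrr
  set a := R.C.a n + j with haa
  have hah : a ≤ R.h := by
    have h1 : (a : ℝ) ≤ R.h := by
      rw [haa]
      push_cast
      have : (0 : ℝ) ≤ R.h := Nat.cast_nonneg _
      nlinarith
    exact_mod_cast h1
  obtain ⟨w, hw⟩ := Nat.exists_eq_add_of_le hah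
  set Wm : Ω → Cbx := fun ω => bend (ρf (R.F 0 ω)) (R.C.F n ω).al R.h r (R.W ω) with hWm
  have hal : ∀ ω ω', R.C.T n ω = R.C.T n ω' → (R.C.F n ω).al = (R.C.F n ω').al := fun ω ω' e => by
    show R.C.al n (R.C.T n ω) = R.C.al n (R.C.T n ω')
    rw [e]
  have hka : ∀ ω ω', R.C.T n ω = R.C.T n ω' → (R.C.F n ω).ka = (R.C.F n ω').ka := fun ω ω' e => by
    show R.C.ka n (R.C.T n ω) = R.C.ka n (R.C.T n ω')
    rw [e]
  refine ⟨a, w, r, Wm, hw.symm, by rw [haa]; push_cast; exact ha, run_rk H, hq, ?_, ?_, ?_⟩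
  · intro ω hω
    have D := hP ω hω
    refine ⟨D.bend_w0 hc, ?_, (D.bend_cl hc).mono m5⟩
    refine D.bend_fa.trans ?_
    rw [haa, pow_add]
    have h1 := mul_le_mul_of_nonneg_right hj.le (by positivity : (0 : ℝ) ≤ 2 ^ R.C.a n)
    linarith
  · -- the label given the end
    set v : Ω → ℤ := fun ω => fl1 (R.m * R.b1) (R.C.l ω).v with hv
    have e0 := Stk.hc_le_add R.Q Wm (fun ω => (v ω, R.W' ω)) (fun ω => (R.W ω, fl1 R.h (R.t ω), ()))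
    have e0' : Stk.hc R.Q (fun ω => (v ω, R.W' ω)) (fun ω => (R.W ω, fl1 R.h (R.t ω), ())) =
        Stk.hc R.Q v (fun ω => (R.W ω, fl1 R.h (R.t ω), ())) +
          Stk.hc R.Q R.W' (fun ω => (v ω, (R.W ω, fl1 R.h (R.t ω), ()))) := hc_pair R.Q _ _ _
    have e0'' : Stk.hc R.Q R.W' (fun ω => (v ω, (R.W ω, fl1 R.h (R.t ω), ()))) ≤ gU := by
      refine (Stk.hc_mono_right R.Q _ fun ω ω' _ _ e => ?_).trans H.prW
      simp only [Prod.mk.injEq] at e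
      obtain ⟨f1, f2, f3, -⟩ := e
      show ((R.W ω, fl1 R.h (R.t ω)), fl1 (R.m * R.b1) (R.C.l ω).v) = ((R.W ω', fl1 R.h (R.t ω')), fl1 (R.m * R.b1) (R.C.l ω').v)
      rw [f2, f3]
      exact congrArg _ f1
    have e2 : Stk.hc R.Q Wm (fun ω => ((v ω, R.W' ω), (R.W ω, fl1 R.h (R.t ω), ()))) = 0 := by
      refine Stk.hc_zero R.Q fun ω ω' hω hω' e => ?_
      simp only [Prod.mk.injEq] at e
      obtain ⟨⟨f1, f4⟩, f2, f3, -⟩ := e
      have f5 := H.fnT n (Nat.le_add_right _ _) ω ω' hω hω' f4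
      have f6 : R.F 0 ω = R.F 0 ω' := by
        show ((R.W ω, fl1 R.h (R.t ω)), fl1 (R.m * 0) (R.C.l ω).v) = ((R.W ω', fl1 R.h (R.t ω')), fl1 (R.m * 0) (R.C.l ω').v)
        rw [f2, f3, CellD.fl1_fl1 (Nat.mul_le_mul_left R.m (Nat.zero_le R.b1)) f1]
      show bend (ρf (R.F 0 ω)) (R.C.F n ω).al R.h r (R.W ω) = bend (ρf (R.F 0 ω')) (R.C.F n ω').al R.h r (R.W ω')
      rw [f6, f2, hal ω ω' f5]
    have e3 : Stk.hc R.Q v (fun ω => (R.W ω, fl1 R.h (R.t ω), ())) ≤ Real.log ((2 ^ (R.m * R.b1 + 3) : ℕ) : ℝ) := by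
      refine Stk.hc_le_log R.Q _ _ _ fun ω hω => ?_
      refine ⟨Icc (-(2 ^ (R.m * R.b1 + 1) : ℤ)) (2 ^ (R.m * R.b1 + 1)), ?_, fun ω' hω' _ => ?_⟩
      · rw [Int.card_Icc]
        have f1 : ((2 : ℤ) ^ (R.m * R.b1 + 1) + 1 - -(2 ^ (R.m * R.b1 + 1))) ≤ ((2 ^ (R.m * R.b1 + 3) : ℕ) : ℤ) := by
          push_cast
          have f2 : (1 : ℤ) ≤ 2 ^ (R.m * R.b1) := one_le_pow₀ (by norm_num)
          rw [pow_add, pow_add]
          norm_num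
          linarith
        exact Int.toNat_le.2 f1
      · have hv2 := (H.ok ω' hω').v1
        rw [mem_Icc]
        have hp : (0 : ℝ) < 2 ^ (R.m * R.b1) := by positivity
        obtain ⟨b1, b2⟩ := abs_le.1 hv2
        constructor
        · refine Int.le_floor.2 ?_
          push_cast
          rw [pow_succ]
          nlinarith
        · have h3 : ((⌊(2 : ℝ) ^ (R.m * R.b1) * (R.C.l ω').v⌋ : ℤ) : ℝ) ≤ ((2 ^ (R.m * R.b1 + 1) : ℤ) : ℝ) := by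
            refine (Int.floor_le _).trans ?_
            push_cast
            rw [pow_succ]
            nlinarith
          exact Int.cast_le.1 h3
    have e4 : Real.log ((2 ^ (R.m * R.b1 + 3) : ℕ) : ℝ) = (R.m * R.b1 + 3 : ℝ) * Real.log 2 := by
      push_cast
      rw [Real.log_pow]
      push_cast
      ring
    rw [e2, add_zero, e0'] at e0
    rw [e4] at e3
    linarith
  · -- the functional given the ray
    set Y : Ω → Ry × ℤ × Unit := fun ω => (R.ry ω, fl1 a (R.t ω), ()) with hY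
    have hna : R.C.a n ≤ a := Nat.le_add_right _ _
    have e1 := Stk.hc_le_add R.Q (fun ω => sk a w r (Wm ω) (R.ry ω) (R.t ω)) (R.U n) Y
    have e2 : Stk.hc R.Q (R.U n) Y ≤ gU := by
      refine le_trans (Stk.hc_mono_right R.Q _ fun ω ω' _ _ e => ?_) (run_U H (Nat.le_add_right n p.J))
      simp only [hY, Prod.mk.injEq] at e ⊢
      exact ⟨e.1, CellD.fl1_fl1 hna e.2.1⟩
    have e3 := Stk.hc_le_add R.Q (fun ω => sk a w r (Wm ω) (R.ry ω) (R.t ω)) (R.C.T n) (fun ω => (R.U n ω, Y ω))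
    have e4 : Stk.hc R.Q (R.C.T n) (fun ω => (R.U n ω, Y ω)) ≤ g' := by
      refine le_trans (Stk.hc_mono_right R.Q _ fun ω ω' _ _ e => ?_) (run_T H (Nat.le_add_right n p.J))
      simp only [hY, Prod.mk.injEq] at e
      show (R.ry ω, R.U n ω) = (R.ry ω', R.U n ω')
      rw [e.1, e.2.1]
    have e5 : Stk.hc R.Q (fun ω => sk a w r (Wm ω) (R.ry ω) (R.t ω)) (fun ω => (R.C.T n ω, (R.U n ω, Y ω))) ≤
        Real.log (M + M + 1 : ℕ) := by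
      refine Stk.hc_le_log R.Q _ _ _ fun ω hω => ?_
      classical
      have D := hP ω hω
      obtain ⟨S1, hS1, h1⟩ := hM 0 r (Nat.zero_le _) (Fl a w (Wm ω) (R.t ω)) (ctr 0 (pl 0 (bl a (R.ry ω) (R.t ω)))) 1
      obtain ⟨S2, hS2, h2⟩ := hM 0 r (Nat.zero_le _) (Fl a w (Wm ω) (R.t ω)) (ctr 0 (pl 0 (bl a (R.ry ω) (R.t ω)))) (-1)
      refine ⟨S1 ∪ S2, ((card_union_le _ _).trans (add_le_add hS1 hS2)).trans (Nat.le_succ _), fun ω' hω' e => ?_⟩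
      simp only [hY, Prod.mk.injEq] at e
      obtain ⟨f1, f2, f3, f4, -⟩ := e
      have D' := hP ω' hω'
      have f5 : fl1 (R.C.a n) (R.t ω') = fl1 (R.C.a n) (R.t ω) := CellD.fl1_fl1 hna f4
      have f6 : R.C.s n ω' = R.C.s n ω := by
        show rd (R.C.a n) (R.C.t ω') = rd (R.C.a n) (R.C.t ω)
        rw [H.Ct, H.Ct]
        unfold rd
        rw [f5]
      have f7 : |R.C.p ω' - R.C.p ω| ≤ q2 r := by
        have t1 := H.Uf n (Nat.le_add_right _ _) ω' ω hω' hω (by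
          show (R.ry ω', R.U n ω') = (R.ry ω, R.U n ω)
          rw [f2, f3])
        have t2 := fl1_eq_near t1
        exact t2.trans (CellD.q2_le (R.C.hkf n))
      have f8 : |R.C.s n ω' - qa a (R.t ω')| ≤ q2 (R.C.a n) := by
        have t1 := CellD.rd_sub hna (R.t ω')
        rw [abs_sub_comm] at t1
        have t2 : R.C.s n ω' = rd (R.C.a n) (R.t ω') := by
          show rd (R.C.a n) (R.C.t ω') = _
          rw [H.Ct]
        rw [t2]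
        exact t1
      rw [f3, f6, hka ω' ω f1, hal ω' ω f1] at D'
      rw [f6] at f8
      have key : Cl (cT c K) 0 r (sg (ρf (R.F 0 ω')) * sg (ρf (R.F 0 ω))) (Fl a w (Wm ω') (R.t ω')) (Fl a w (Wm ω) (R.t ω))
          (bl a (R.ry ω) (R.t ω')) := by
        have g3 : Wm ω' = bend (ρf (R.F 0 ω')) (R.C.F n ω).al (a + w) r (R.W ω') := by
          show bend (ρf (R.F 0 ω')) (R.C.F n ω').al R.h r (R.W ω') = _
          rw [hal ω' ω f1, hw]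
        have g4 : Wm ω = bend (ρf (R.F 0 ω)) (R.C.F n ω).al (a + w) r (R.W ω) := by
          show bend (ρf (R.F 0 ω)) (R.C.F n ω).al R.h r (R.W ω) = _
          rw [hw]
        rw [g3, g4]
        rw [hw] at D D'
        exact D'.two hc D f7 hna f8 f4
      have ebl : bl a (R.ry ω) (R.t ω') = bl a (R.ry ω) (R.t ω) := bl_eq f4
      rw [ebl] at key
      have hnr := (nr_ctr 0 (bl a (R.ry ω) (R.t ω))).symm' zero_le_one
      norm_num at hnr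
      have hcT : 0 ≤ cT c K := by
        unfold cT cF cE' cM
        positivity
      have key2 := key.move hcT (by norm_num) hnr
      show sk a w r (Wm ω') (R.ry ω') (R.t ω') ∈ S1 ∪ S2
      unfold sk
      rw [f3, ebl]
      have hs : sg (ρf (R.F 0 ω')) * sg (ρf (R.F 0 ω)) = 1 ∨ sg (ρf (R.F 0 ω')) * sg (ρf (R.F 0 ω)) = -1 := by
        rcases sg_or (ρf (R.F 0 ω')) with h3 | h3 <;> rcases sg_or (ρf (R.F 0 ω)) with h4 | h4 <;> rw [h3, h4] <;> norm_num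
      rcases hs with h3 | h3
      · rw [h3] at key2
        exact mem_union_left _ (h1 _ key2)
      · rw [h3] at key2
        exact mem_union_right _ (h2 _ key2)
    linarith

/-- the same with one number -/
theorem exr_run (c K : ℝ) (hc : 1 ≤ c) (hK : 1 ≤ K) : ∃ (K0 D : ℝ) (j : ℕ), 1 ≤ K0 ∧ 0 ≤ D ∧ ∀ {Ω : Type} [Fintype Ω] {τ υ : Type}
    (R : S3.Run Ω τ υ) (p : S3.Run.Num) (c' g' gU lam N k β d : ℝ), R.Ok p K c' g' gU →
    NEx c lam N k β d R.Q R.ry R.t (fun _ => ()) R.L R.h R.q R.W → 2 * K ^ 2 * q2 (R.C.rk R.n) ≤ 1 → ∀ g θ : ℝ, 0 ≤ θ →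
    (R.C.a R.n : ℝ) + j ≤ (1 - θ) * R.h → (R.q : ℝ) ≤ R.C.rk R.n + g * R.h → (R.m * R.b1 + 3 : ℝ) * Real.log 2 + gU ≤ g * R.h →
    g' + gU + D ≤ g * R.h → ExR K0 g θ R.Q R.ry R.t (fun _ => ()) R.h R.q R.W := by
  obtain ⟨D, j, hD, h⟩ := exr_run2 c K hc hK
  refine ⟨cM c K, D, j, (le_cM hc hK).2.2.2.1, hD, ?_⟩
  intro Ω _ τ υ R p c' g' gU lam N k β d H hN hr g θ hθ ha hq hb hg
  exact h R p c' g' gU lam N k β d H hN hr g g θ hθ ha hq hb hg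

end Vale.Agent.P106.U.H459
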