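import Vale.Agent.P106.U.H459.ExitRun
import Vale.Agent.P106.U.H523.TailTop
import Vale.Agent.P106.U.S5.Props

/-!
# P106 / U / H459 : no exit by the precision (`S5.PExR`)

* `RRx Kx Cx` : the record of the exit (`ExR`), constant `Kx σ ε ρ g m B`, loss `Cx b θ (δ1 + ε) h`.
* `pExR_x` : `S5.PExR (RRx Kx Cx)`.
-/

set_option autoImplicit false

namespace Vale.Agent.P106.U.H459

open Vale.Agent.P127 Vale.Agent.P127.Stk Vale.Agent.P127.U Vale.Agent.P106.W Vale.Agent.P106.K Vale.Agent.P106.U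
open Vale.Agent.P106.U.S5

/-- **record of the exit by the precision** -/
def RRx (Kx : Cst → ℝ → Thr → Gv → ℕ → ℕ → ℝ) (Cx : Bs → ℝ → ℝ) : RunP :=
  fun σ ε ρ g m B {_} _ Q l t _ h q _ _ W _ =>
    ExR (Kx σ ε ρ g m B) (Cx σ.toBs σ.θ * (σ.δ1 + ε)) σ.θ Q l t (fun _ => ()) h q W

theorem pExR_x (Kx : Cst → ℝ → Thr → Gv → ℕ → ℕ → ℝ) (Cx : Bs → ℝ → ℝ) : PExR (RRx Kx Cx) := by
  intro b hb θ hθ hθ4
  obtain ⟨η, hη, hE⟩ := exr H523.pTail b.lam b.N b.β0 θ hb.lam0 hb.lam1 hb.lamβ hb.β2 hb.N2 hθ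
  set C : ℝ := max (Cx b θ) 1 with hC
  have hC1 : 1 ≤ C := le_max_right _ _
  refine ⟨η / (2 * C), by positivity, ?_⟩
  intro δ1 hδ hδ1 σ hσ hσO
  subst hσ
  refine ⟨min η (η / (2 * C)), by positivity, ?_⟩
  intro ε hε hε1 ρ hρ g hg
  have hεη : ε ≤ η := hε1.trans (min_le_left _ _)
  have hεC : ε ≤ η / (2 * C) := hε1.trans (min_le_right _ _)
  refine ⟨0, fun m B _ => ?_⟩
  obtain ⟨h0, hE⟩ := hE g.k g.β g.b' 100 (max 1 (Kx ⟨b, θ, δ1⟩ ε ρ g m B)) hg.k0 (hg.kε.trans hεη) hg.β0 hg.βb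
    (hg.bε.trans (by linarith)) hg.fix (by norm_num) (le_max_left _ _)
  refine ⟨h0, ?_⟩
  intro Ω _ Q l t L h q r0 Rn W S hh hN hR
  have hR' : ExR (Kx ⟨b, θ, δ1⟩ ε ρ g m B) (Cx b θ * (δ1 + ε)) θ Q l t (fun _ => ()) h q W := hR
  have hg1 : Cx b θ * (δ1 + ε) ≤ η := by
    have h1 : Cx b θ * (δ1 + ε) ≤ C * (δ1 + ε) := mul_le_mul_of_nonneg_right (le_max_left _ _) (by linarith)
    have h2 : C * (δ1 + ε) ≤ C * (η / (2 * C) + η / (2 * C)) := mul_le_mul_of_nonneg_left (by linarith) (by linarith)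
    have h3 : C * (η / (2 * C) + η / (2 * C)) = η := by
      have : C ≠ 0 := by linarith
      field_simp
      ring
    linarith
  have hN' : NEx 100 b.lam b.N g.k g.β η Q l t (fun _ => ()) L h q W := by
    refine ⟨hN.ok, hN.hL, hN.lb, ?_⟩
    have h1 := hN.ex
    have h2 : (g.β - η) * h * Real.log 2 ≤ (g.β - ε) * h * Real.log 2 := by
      have h3 : 0 < Real.log 2 := Real.log_pos (by norm_num)
      refine mul_le_mul_of_nonneg_right (mul_le_mul_of_nonneg_right (by linarith) (Nat.cast_nonneg _)) h3.le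
    have h4 : XX 100 b.lam g.k 0 Q l t (fun _ => ()) (fun _ => (0, q)) L 0 + (g.β - ε) * h * Real.log 2 +
      b.N * Dd Q l t (fun _ => ()) h ≤ val b.lam Q l t (fun _ => ()) h W := h1
    linarith
  exact hE Ω Unit Q l t (fun _ => ()) L h q W hN' hh (hR'.mono (le_max_right _ _) hg1)

end Vale.Agent.P106.U.H459
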