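import Vale.Agent.P106.U.H459.HLt
import Vale.Agent.P106.U.H471.UN
import Vale.Agent.P106.U.H336.SwS

/-!
# P106 / U / H459 : `HCore` from the sum of the errors of the time steps (helper459)

* `HSum` : there are exceptional steps `X` and reading indices `rx` with `∑ eH ≤ e3 / 2 h`.
* `HCN`, `ev_HCN` : numbers.
* **`hCore_of : HSum → HCore`**.
-/

set_option autoImplicit false

namespace Vale.Agent.P106.U.H459

open Finset Vale.Agent.P127 Vale.Agent.P127.Stk Vale.Agent.P127.U Vale.Agent.P106.W Vale.Agent.P106.K Vale.Agent.P106.U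
open Vale.Agent.P127.U.CellD (q2 q2_pos q2_le)
open Vale.Agent.P106.U.Cell Vale.Agent.P106.U.S3
open Vale.Agent.P106.U.S5
open Vale.Agent.P106.U.H101 (lc low)
open Vale.Agent.P106.U.H823
open Vale.Agent.P106.U.MIC (bc ix nz az rz St Pre Suf eG μS xS KS cμ)
open Vale.Agent.P106.U.H336 (SwL)
open Vale.Agent.P106.U.Top543 (HLet HCore)
open Vale.Agent.P106.U.H118 (Vz Sz Mz Yz xz jmz cJ_nonneg cT_nonneg jmz_nonneg nuM MM nuK usw)
open Vale.Agent.P106.U.H652 (Ev3 ev_nat ev_con ev_q2' ev_q20)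

/-- **the sum of the errors of the time steps** -/
def HSum : Prop :=
  Pre fun _ η x _ e3 σ ε ρ => Suf σ ε fun g m B h => ∀ s : St η x σ ε ρ g m B h, ∃ (X : Finset ℕ) (rx : ℕ → ℕ),
    (∀ j < nz s.R s.i0, az s.R s.i0 (j + 1) = az s.R s.i0 j + 1 → j ∉ X → ix s.R s.i0 (j + 1) ≤ rx j ∧
      s.R.C.a (ix s.R s.i0 (j + 1)) + 4 * μS x m ≤ s.R.C.a (rx j)) ∧
    ∑ j ∈ (range (nz s.R s.i0)).filter (fun j => az s.R s.i0 (j + 1) = az s.R s.i0 j + 1),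
      H357.eH s.R s.F B s.bS s.bV s.Vs s.Xs (μS x m) s.o s.o' (MIC.gS x m) (2 * μS x m) (ix s.R s.i0) rx X
        (Yz s.R s.i0 s.F s.Vs s.Xs (μS x m) s.o s.o') j ≤ e3 / 2 * h

/-- numbers -/
structure HCN (ρ : Thr) (x m B : ℕ) : Prop where
  m1 : 1 ≤ m
  B20 : (100 * ρ.K) ^ 20 ≤ (B : ℝ)
  B2 : 2 ≤ B
  μB : μS x m ≤ B
  B8 : 8 * (cμ * xS x) ≤ B
  q : 640 * (4 * ρ.K) ^ 2 * q2 (μS x m) ≤ 1
  big : 10 * 2 ^ (m + 5 * MIC.gS x m + 4) * (70 * (32 * ρ.K) ^ 4 * q2 (μS x m)) ≤ 1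
  cJ : H624.cJ ρ.K + H624.cT (4 * ρ.K) ≤ 1 / 2 * (m : ℝ)

theorem cμ_ge : 6400000 ≤ cμ := by
  have h1 : 800 ≤ MIC.cN := le_max_left _ _
  unfold cμ
  calc 6400000 = 8000 * 800 := by norm_num
    _ ≤ 8000 * MIC.cN := Nat.mul_le_mul_left _ h1

theorem ev_HCN (ρ : Thr) (x : ℕ) : Ev3 fun m B _ => HCN ρ x m B := by
  have hc := cμ_ge
  have hx : 12 ≤ xS x := by
    unfold xS
    omega
  have a0 : Ev3 fun m _ _ => 1 ≤ m := Ev3.of_m (ev_nat 1)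
  have a1 : Ev3 fun _ B _ => (100 * ρ.K) ^ 20 ≤ (B : ℝ) := by
    refine Ev3.of_B' fun _ => ?_
    obtain ⟨n, hn⟩ := exists_nat_ge ((100 * ρ.K) ^ 20)
    exact (ev_nat n).mono fun B hB => hn.trans (by exact_mod_cast hB)
  have a2 : Ev3 fun _ B _ => 2 ≤ B := Ev3.of_B' fun _ => ev_nat 2
  have a3 : Ev3 fun m B _ => μS x m ≤ B := Ev3.of_B' fun m => ev_nat (μS x m)
  have a4 : Ev3 fun _ B _ => 8 * (cμ * xS x) ≤ B := Ev3.of_B' fun _ => ev_nat (8 * (cμ * xS x))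
  have a5 : Ev3 fun m _ _ => 640 * (4 * ρ.K) ^ 2 * q2 (μS x m) ≤ 1 := by
    refine Ev3.of_m ?_
    filter_upwards [ev_q20 (640 * (4 * ρ.K) ^ 2) 0 (cμ * xS x) (by positivity) (κ := 1) one_pos] with m hm
    rw [pow_zero, mul_one] at hm
    exact hm
  have a6 : Ev3 fun m _ _ => 10 * 2 ^ (m + 5 * MIC.gS x m + 4) * (70 * (32 * ρ.K) ^ 4 * q2 (μS x m)) ≤ 1 := by
    refine Ev3.of_m ?_
    have hab : 1 + 40 * xS x < cμ * xS x := by nlinarith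
    filter_upwards [ev_q2' (11200 * (32 * ρ.K) ^ 4) (1 + 40 * xS x) (cμ * xS x) hab (κ := 1) one_pos] with m hm
    refine le_trans (le_of_eq ?_) hm
    have e1 : m + 5 * MIC.gS x m + 4 = (1 + 40 * xS x) * m + 4 := by
      unfold MIC.gS
      ring
    rw [e1, pow_add]
    show _ = 11200 * (32 * ρ.K) ^ 4 * 2 ^ ((1 + 40 * xS x) * m) * q2 (cμ * xS x * m)
    unfold μS
    ring
  have a7 : Ev3 fun m _ _ => H624.cJ ρ.K + H624.cT (4 * ρ.K) ≤ 1 / 2 * (m : ℝ) :=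
    Ev3.of_m (ev_con _ (by norm_num))
  exact ((a0.and a1).and ((a2.and a3).and ((a4.and a5).and (a6.and a7)))).mono fun m B h H =>
    ⟨H.1.1, H.1.2, H.2.1.1, H.2.1.2, H.2.2.1.1, H.2.2.1.2, H.2.2.2.1, H.2.2.2.2⟩

/-- the factor of the price of a junction -/
noncomputable def jxS (x : ℕ) : ℝ := 27 * (cμ * xS x : ℕ) + 2 * (100 * 10 ^ 15) ^ 20 * ((cμ * xS x : ℕ) + 1) + 1

theorem jxS_nonneg (x : ℕ) : 0 ≤ jxS x := by
  unfold jxS
  positivity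

theorem KS_le {ρ : Thr} (hρ : ρ.Ok) : KS ρ ≤ (100 * 10 ^ 15) ^ 20 := by
  unfold KS
  have h1 := hρ.K1
  have h2 := hρ.K2
  exact pow_le_pow_left₀ (by linarith) (by linarith) 20

theorem KS_nonneg {ρ : Thr} (hρ : ρ.Ok) : 0 ≤ KS ρ := by
  unfold KS
  have h1 := hρ.K1
  positivity

theorem jm_le {ρ : Thr} (hρ : ρ.Ok) {x m B : ℕ} (N : HCN ρ x m B) :
    jmz ρ.K (KS ρ) m (μS x m) ≤ m * Real.log 2 * jxS x := by
  have hl : 1 / 2 ≤ Real.log 2 := by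
    have := Real.log_two_gt_d9
    linarith
  have hm : (0 : ℝ) ≤ m := Nat.cast_nonneg _
  have e1 : ((μS x m : ℕ) : ℝ) = (cμ * xS x : ℕ) * (m : ℝ) := by
    unfold μS
    push_cast
    ring
  unfold jmz jxS
  rw [e1]
  set c : ℝ := ((cμ * xS x : ℕ) : ℝ) with hc
  have hc0 : 0 ≤ c := Nat.cast_nonneg _
  have h1 := KS_le hρ
  have h2 := KS_nonneg hρ
  have h3 := N.cJ
  have h4 : KS ρ * (c * m + m) ≤ m * Real.log 2 * (2 * (100 * 10 ^ 15) ^ 20 * (c + 1)) := by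
    have e2 : KS ρ * (c * m + m) = KS ρ * ((c + 1) * m) := by ring
    rw [e2]
    have h5 : KS ρ * ((c + 1) * m) ≤ (100 * 10 ^ 15) ^ 20 * ((c + 1) * m) := mul_le_mul_of_nonneg_right h1 (by positivity)
    have h6 : (100 * 10 ^ 15 : ℝ) ^ 20 * ((c + 1) * m) * 1 ≤ (100 * 10 ^ 15) ^ 20 * ((c + 1) * m) * (2 * Real.log 2) :=
      mul_le_mul_of_nonneg_left (by linarith) (by positivity)
    linarith
  have h7 : H624.cJ ρ.K + H624.cT (4 * ρ.K) ≤ m * Real.log 2 * 1 := by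
    have h8 := mul_le_mul_of_nonneg_left hl hm
    linarith
  have e3 : m * Real.log 2 * (27 * c + 2 * (100 * 10 ^ 15) ^ 20 * (c + 1) + 1) =
      27 * (c * m) * Real.log 2 + m * Real.log 2 * (2 * (100 * 10 ^ 15) ^ 20 * (c + 1)) + m * Real.log 2 * 1 := by ring
  rw [e3]
  linarith

/-- numbers of the `V`-steps -/
theorem hvN_s {η : ℝ} {x : ℕ} {σ : Cst} {ε : ℝ} {ρ : Thr} {g : Gv} {m B h : ℕ} (s : St η x σ ε ρ g m B h) (hρ : ρ.Ok)
    (N : HCN ρ x m B) : H357.HvN (32 * ρ.K) s.R.m (MIC.gS x m) (μS x m) (2 * μS x m) (s.R.m * s.R.b1) s.bS := by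
  have hK := hρ.K1
  have hm : s.R.m = m := s.run.hm
  have hR := rec_s s hρ N.B20 N.μB N.q
  have h8 := hR.b8
  have h9 : 8 * μS x m ≤ s.R.m * B := by
    rw [hm]
    calc 8 * μS x m = m * (8 * (cμ * xS x)) := by
          unfold μS
          ring
      _ ≤ m * B := Nat.mul_le_mul_left _ N.B8
  have h10 := s.f2.loS
  rw [Nat.mul_add] at h10
  have h11 : (8 * xS x) ≤ cμ * xS x := Nat.mul_le_mul_right _ ((by norm_num : 8 ≤ 6400000).trans cμ_ge)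
  have h12 : 12 ≤ xS x := by
    unfold xS
    omega
  refine ⟨by linarith, s.run.ok.pth.m1, ?_, ?_, by omega, h8, by omega, by omega, ?_⟩
  · rw [hm]
    unfold MIC.gS
    exact Nat.le_mul_of_pos_left m (by omega)
  · unfold MIC.gS μS
    exact Nat.mul_le_mul_right _ h11
  · rw [hm]
    exact N.big

/-- **the letters and the sums of the heavy intervals** -/
theorem hCore_of (HS : HSum) : HCore := by
  refine ⟨jxS, jxS_nonneg, ?_⟩
  intro b hb η hη x δh e3 hx hδh he3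
  obtain ⟨θ0, hθ0, H⟩ := HS b hb η hη x δh e3 hx hδh he3
  refine ⟨θ0, hθ0, fun θ hθ hθ' => ?_⟩
  obtain ⟨δ0, hδ0, H⟩ := H θ hθ hθ'
  refine ⟨δ0, hδ0, fun δ1 hδ hδ' σ hσ hσo => ?_⟩
  obtain ⟨ε0, hε0, H⟩ := H δ1 hδ hδ' σ hσ hσo
  refine ⟨ε0, hε0, fun ε hε hε' ρ hρ => ?_⟩
  have H := H ε hε hε' ρ hρ
  have hM0 : 0 ≤ nuM (4 * ρ.K) (MM ρ.K) := by
    unfold nuM
    have h1 : (0 : ℝ) ≤ Real.log ((2 * MM ρ.K + 3 : ℕ) : ℝ) := Real.log_natCast_nonneg _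
    have h2 := H118.nuK_nonneg (8 * (4 * ρ.K))
    have h3 : 0 ≤ Real.log 45 := Real.log_nonneg (by norm_num)
    positivity
  have hK0 := H118.nuK_nonneg (32 * ρ.K)
  have h45 : 0 ≤ Real.log 45 := Real.log_nonneg (by norm_num)
  refine ⟨nuM (4 * ρ.K) (MM ρ.K) + (nuK (32 * ρ.K) + Real.log 45), by linarith, ?_⟩
  have hN : Suf σ ε fun _ m B _ => HCN ρ x m B := Suf.of_ev3 fun g _ => (ev_HCN ρ x).out
  obtain ⟨κ, hκ⟩ : ∃ κ : ℝ, κ = e3 / (16 * (jxS x + 1)) := ⟨_, rfl⟩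
  have hj0 := jxS_nonneg x
  have hκ0 : 0 < κ := by rw [hκ]; positivity
  have hS := H336.sw_suf' η x σ ε ρ hκ0 1 1
  have hF := H471.US.f2b_suf hσo ε hρ η x 0 (κ := e3 / 16) (by positivity)
  refine (H.and (hN.and (hS.and hF))).mono fun g m B h _ HH s => ?_
  obtain ⟨H1, N, ⟨hB1, H3⟩, H4⟩ := HH
  obtain ⟨X, rx, hx1, hx2⟩ := H1 s
  obtain ⟨xj, x0, x1, x2⟩ := s.f2o.jun
  have hm : s.R.m = m := s.run.hm
  have hP := s.run.ok.pth
  have hl := hlet s hρ N.B20 N.B2 N.μB N.q (ν := nuM (4 * ρ.K) (MM ρ.K) + (nuK (32 * ρ.K) + Real.log 45)) (by linarith)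
    (hvN_s s hρ N) (Lk := 1) le_rfl X rx hx1 (KS_nonneg hρ) x0 x1
  have hjm0 := hl.jm0
  have hjm : jmz ρ.K (KS ρ) s.R.m (μS x m) ≤ m * Real.log 2 * jxS x := by
    rw [hm]
    exact jm_le hρ N
  have hi := s.hi0
  have hst : ∀ k < nz s.R s.i0, az s.R s.i0 (k + 1) = az s.R s.i0 k ∨ az s.R s.i0 (k + 1) = az s.R s.i0 k + 1 := fun k hk => by
    rcases Cmp.step2 (x := s.R.b1) hP (j := s.i0 + k) (by unfold nz at hk; omega) with ⟨_, h2, _⟩ | ⟨_, h2, _⟩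
    · exact Or.inr h2
    · exact Or.inl h2
  have hmono := H471.US.lev_mono hst
  set e : ℕ → ℝ := H357.eH s.R s.F B s.bS s.bV s.Vs s.Xs (μS x m) s.o s.o' (MIC.gS x m) (2 * μS x m) (ix s.R s.i0) rx X
    (Yz s.R s.i0 s.F s.Vs s.Xs (μS x m) s.o s.o') with he
  have he0 : ∀ k, 0 ≤ e k := fun k => H357.eH_nonneg _ _ _ _ _ _ _
  have hz0 : ∀ (f : ℕ → ℝ) (z : ℕ), z ∉ range (az s.R s.i0 (nz s.R s.i0) + 1) →
      H357.uV (nz s.R s.i0) (az s.R s.i0) f z = 0 := fun f z hz =>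
    H357.uV_zero hmono (by rw [Finset.mem_range] at hz ⊢; omega)
  obtain ⟨u1, u2, u3⟩ := H471.US.us_all (N := nz s.R s.i0) (a := az s.R s.i0)
    (u := H357.uV (nz s.R s.i0) (az s.R s.i0) e) (x := xz s.R s.i0 xj) (S := Sz s.R s.i0 B s.Vs s.Xs 1)
    (jm := jmz ρ.K (KS ρ) s.R.m (μS x m)) (U := e3 / 2 * h) (X := e3 / 16 * h) hjm0
    (H357.uV_nonneg he0) (H357.uV_nonneg fun k => x0 _) (fun z hz => hz0 _ z hz) (fun z hz => hz0 _ z hz)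
    (fun T => (H357.uV_sum he0 T).trans hx2)
    (fun T => by
      refine (H357.uV_sum (N := nz s.R s.i0) (a := az s.R s.i0) (e := fun k => xj (ix s.R s.i0 k)) (fun k => x0 _) T).trans ?_
      refine le_trans (H471.US.sum_idx (N := nz s.R s.i0) (n := s.R.n) (f := ix s.R s.i0)
        (fun i k hik hk => Cmp.idx_strict hP (by omega) (by unfold nz at hk; omega)) (fun k _ => Cmp.idx_le _) x0 _) ?_
      exact x2.trans (H4 s))
  refine ⟨_, Vz s.R s.i0 s.Vs s.Xs, (Sz s.R s.i0 B s.Vs s.Xs 1 : Set ℕ), Mz s.R s.i0 s.F (μS x m) s.o s.o',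
    H357.uV (nz s.R s.i0) (az s.R s.i0) e, xz s.R s.i0 xj, jmz ρ.K (KS ρ) s.R.m (μS x m),
    H471.US.TL (nz s.R s.i0) (az s.R s.i0) (Sz s.R s.i0 B s.Vs s.Xs 1), hjm, u2, ?_, hl⟩
  refine u3.trans ?_
  -- numbers
  have c1 : ((Sz s.R s.i0 B s.Vs s.Xs 1).card : ℝ) ≤
      (SwL s.R B s.Vs s.Xs 1 ∪ {az s.R s.i0 (nz s.R s.i0) - 1}).card := by
    have : Sz s.R s.i0 B s.Vs s.Xs 1 ⊆ SwL s.R B s.Vs s.Xs 1 ∪ {az s.R s.i0 (nz s.R s.i0) - 1} := by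
      intro z hz
      unfold Sz at hz
      rw [Finset.mem_insert] at hz
      rw [Finset.mem_union, Finset.mem_singleton]
      exact hz.symm
    exact_mod_cast Finset.card_le_card this
  have c2 := H3 s {az s.R s.i0 (nz s.R s.i0) - 1} (by simp)
  have hl2 : Real.log 2 ≤ 1 := by
    have := Real.log_two_lt_d9
    linarith
  have hl0 : 0 ≤ Real.log 2 := Real.log_nonneg (by norm_num)
  have hm0 : (0 : ℝ) ≤ m := Nat.cast_nonneg _
  have hh0 : (0 : ℝ) ≤ h := Nat.cast_nonneg _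
  have c3 : (m : ℝ) * (Sz s.R s.i0 B s.Vs s.Xs 1).card ≤ κ * h := (mul_le_mul_of_nonneg_left c1 hm0).trans c2
  have c4 : 2 * jmz ρ.K (KS ρ) s.R.m (μS x m) * (Sz s.R s.i0 B s.Vs s.Xs 1).card ≤ e3 / 8 * h := by
    have d1 : 2 * jmz ρ.K (KS ρ) s.R.m (μS x m) * (Sz s.R s.i0 B s.Vs s.Xs 1).card ≤
        2 * (m * jxS x) * (Sz s.R s.i0 B s.Vs s.Xs 1).card := by
      refine mul_le_mul_of_nonneg_right ?_ (Nat.cast_nonneg _)
      have d2 : m * Real.log 2 * jxS x ≤ m * 1 * jxS x :=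
        mul_le_mul_of_nonneg_right (mul_le_mul_of_nonneg_left hl2 hm0) hj0
      linarith
    have d3 : 2 * (m * jxS x) * ((Sz s.R s.i0 B s.Vs s.Xs 1).card : ℝ) =
        2 * jxS x * (m * (Sz s.R s.i0 B s.Vs s.Xs 1).card) := by ring
    have d4 : 2 * jxS x * (m * (Sz s.R s.i0 B s.Vs s.Xs 1).card) ≤ 2 * jxS x * (κ * h) :=
      mul_le_mul_of_nonneg_left c3 (by positivity)
    have d5 : 2 * jxS x * (κ * h) ≤ e3 / 8 * h := by
      have d6 : 2 * jxS x * κ ≤ e3 / 8 := by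
        rw [hκ, mul_div_assoc', div_le_div_iff₀ (by positivity) (by norm_num)]
        nlinarith
      calc 2 * jxS x * (κ * h) = 2 * jxS x * κ * h := by ring
        _ ≤ e3 / 8 * h := mul_le_mul_of_nonneg_right d6 hh0
    linarith
  have c5 : 0 ≤ e3 * h := by positivity
  linarith

end Vale.Agent.P106.U.H459
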