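import Vale.Agent.P106.U.H118.HRec
import Vale.Agent.P106.U.H543.RowH
import Vale.Agent.P106.U.H459.XB

/-!
# P106 / U / H459 : the letters of the heavy intervals at the situation `St` (helper459)

* `v_gen` : helper118's `v_step` for any set `X` of exceptional steps and any reading indices `rx`.
* `rec_s` : helper118's `Rec` at `s`.
* **`hlet`** : helper543's `HLet` with helper118's letters, the error `eH` for any `X`, `rx`.
-/

set_option autoImplicit false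

namespace Vale.Agent.P106.U.H459

open Finset Vale.Agent.P127 Vale.Agent.P127.Stk Vale.Agent.P127.U Vale.Agent.P106.W Vale.Agent.P106.K Vale.Agent.P106.U
open Vale.Agent.P127.U.CellD (q2 q2_pos q2_le)
open Vale.Agent.P106.U.Cell Vale.Agent.P106.U.S3
open Vale.Agent.P106.U.S5
open Vale.Agent.P106.U.H785.Mtr (Mtd Lt YI)
open Vale.Agent.P106.U.H101 (lc low)
open Vale.Agent.P106.U.H833 (aN RN)
open Vale.Agent.P106.U.H823
open Vale.Agent.P106.U.MIC (bc ix nz az rz St Pre Suf eG μS xS KS)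
open Vale.Agent.P106.U.H336 (SwL KR kd Rg)
open Vale.Agent.P106.U.Top543 (HLet)
open Vale.Agent.P106.U.H118 (Rec Vz Sz Mz Yz xz jmz mixY mixY_old mixY_young vz_switch rg_same rg_of cJ_nonneg cT_nonneg
  jmz_nonneg td nuM MM nuK usw)

section rec

variable {Ω : Type} [Fintype Ω] {τ υ π : Type} {R : Run Ω τ υ} {p : Run.Num} {K c' g' gU : ℝ} {B bS bV μ : ℕ}
  {F : Pf R π} {Vs Xs : Finset ℕ} {o : Fin 7 → ℝ} {o' : ℕ → ℝ} {i0 gg pv : ℕ}

/-- **the steps of `(V, Z)` with the mixed letter**, any exceptional steps -/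
theorem v_gen (hR : Rec R p K c' g' gU B bS bV μ F Vs Xs (ix R i0) (az R i0) (nz R i0) (bc R))
    (Nm : H357.HvN (32 * K) R.m gg μ pv (R.m * R.b1) bS) (h100 : 100 * μ ≤ R.r0) (X : Finset ℕ) (rx : ℕ → ℕ)
    (hx : ∀ j < nz R i0, az R i0 (j + 1) = az R i0 j + 1 → j ∉ X → ix R i0 (j + 1) ≤ rx j ∧
      R.C.a (ix R i0 (j + 1)) + 4 * μ ≤ R.C.a (rx j)) :
    ∀ k < nz R i0, az R i0 (k + 1) = az R i0 k + 1 →
      2 * (R.m * Real.log 2) - H357.uV (nz R i0) (az R i0) (H357.eH R F B bS bV Vs Xs μ o o' gg pv (ix R i0) rx X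
          (Yz R i0 F Vs Xs μ o o')) (az R i0 k) ≤
        Stk.hc R.Q ((lc R.C μ o).VZ (ix R i0 (k + 1)) (bc R))
          (fun ω => (td (lc R.C μ o) (ix R i0 (k + 1)) ω,
            (Yz R i0 F Vs Xs μ o o' k ω, (lc R.C μ o).VZ (ix R i0 k) (bc R) ω))) := by
  have hP := hR.ok.pth
  have hK1 := hR.K1
  have hμC := hR.μC
  exact H357.hV_u (R := R) (F := F) (B := B) (bS := bS) (bV := bV) (Vs := Vs) (Xs := Xs) (μ := μ) (o := o) (o' := o')
    (K := 4 * K) (g := gg) (pv := pv) (by linarith)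
    (by rw [show 8 * (4 * K) = 32 * K by ring]; exact Nm) hR.f2.loV
    (fun ω hω => H357.ok_up (by linarith) (by linarith) (H101.lc_Ok o hμC (hR.ok.ok ω hω)))
    (fun J hJ ω hω => by
      rw [show 8 * (4 * K) = 32 * K by ring]
      have h1 := hJ
      unfold IdK at h1
      rw [Finset.mem_filter, Finset.mem_Icc] at h1
      exact H785.Mtr.fz_mt hR.ok hR.f2 hK1 hR.hB hR.hr hR.μB hμC hω ⟨h1.1.2.trans (Nat.le_add_right _ _), h1.2.1⟩ rfl)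
    (fun J hJ ω hω => by
      rw [show 8 * (4 * K) = 32 * K by ring]
      have h1 := hJ
      unfold IdP at h1
      rw [Finset.mem_filter, Finset.mem_Icc] at h1
      exact H785.Mtr.fz_mt0 hR.ok hR.f2 hK1 hR.hB hR.hr hR.μB hμC hω hR.f2.lo0
        ⟨h1.1.2.trans (Nat.le_add_right _ _), h1.2.1⟩ rfl)
    (f := ix R i0) (a := az R i0) (N := nz R i0) (A0 := 0) (fun k _ => H812.a_ix0 hP i0 k)
    (fun j _ _ => by
      have h1 := hR.rk_ge (ix R i0 (j + 1))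
      have h2 := hR.f2.lo0 (ix R i0 (j + 1))
      constructor <;> omega)
    X rx hx
    (Yz R i0 F Vs Xs μ o o')

end rec

section st

variable {η : ℝ} {x : ℕ} {σ : Cst} {ε : ℝ} {ρ : Thr} {g : Gv} {m B h : ℕ}

/-- helper118's `Rec` at `s` -/
theorem rec_s (s : St η x σ ε ρ g m B h) (hρ : ρ.Ok) (hB : (100 * ρ.K) ^ 20 ≤ (B : ℝ)) (hμB : μS x m ≤ B)
    (hq : 640 * (4 * ρ.K) ^ 2 * q2 (μS x m) ≤ 1) :
    Rec s.R s.pn ρ.K ρ.c' s.g' s.gU B s.bS s.bV (μS x m) s.F s.Vs s.Xs (ix s.R s.i0) (az s.R s.i0) (nz s.R s.i0)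
      (bc s.R) := by
  have h1 := H118.rec_of s.run hρ s.f2 hB hμB hq s.i0
  exact ⟨s.run.ok, h1.f2, h1.K1, h1.hB, h1.hr, h1.μB, h1.μC, h1.fm, h1.fn, h1.hA, h1.hb, h1.b8, h1.μq⟩

/-- **the letters of the heavy intervals** -/
theorem hlet (s : St η x σ ε ρ g m B h) (hρ : ρ.Ok) (hB : (100 * ρ.K) ^ 20 ≤ (B : ℝ)) (hB2 : 2 ≤ B) (hμB : μS x m ≤ B)
    (hq : 640 * (4 * ρ.K) ^ 2 * q2 (μS x m) ≤ 1) {ν : ℝ} (hν : nuM (4 * ρ.K) (MM ρ.K) ≤ ν) {gg pv Lk : ℕ}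
    (Nm : H357.HvN (32 * ρ.K) s.R.m gg (μS x m) pv (s.R.m * s.R.b1) s.bS) (hL : 1 ≤ Lk) (X : Finset ℕ) (rx : ℕ → ℕ)
    (hx : ∀ j < nz s.R s.i0, az s.R s.i0 (j + 1) = az s.R s.i0 j + 1 → j ∉ X → ix s.R s.i0 (j + 1) ≤ rx j ∧
      s.R.C.a (ix s.R s.i0 (j + 1)) + 4 * μS x m ≤ s.R.C.a (rx j)) {K' : ℝ} {xj : ℕ → ℝ} (hK' : 0 ≤ K') (hxj : ∀ k, 0 ≤ xj k)
    (hjun : ∀ k ∈ Icc 1 s.R.n, lv s.R k ∈ s.Vs → lv s.R k ∉ s.Xs → s.R.IsA k →
      Stk.hc s.R.Q (s.R.C.T k) ((mt s.R s.F (μS x m) s.o s.o').lt k) ≤ K' * (((μS x m : ℕ) : ℝ) + s.R.m) + xj k) :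
    HLet s ν (Vz s.R s.i0 s.Vs s.Xs) (Sz s.R s.i0 B s.Vs s.Xs Lk : Set ℕ) (Mz s.R s.i0 s.F (μS x m) s.o s.o')
      (H357.uV (nz s.R s.i0) (az s.R s.i0) (H357.eH s.R s.F B s.bS s.bV s.Vs s.Xs (μS x m) s.o s.o' gg pv (ix s.R s.i0) rx X
          (Yz s.R s.i0 s.F s.Vs s.Xs (μS x m) s.o s.o')))
      (xz s.R s.i0 xj) (jmz ρ.K K' s.R.m (μS x m)) ρ.c' := by
  have hmm : s.R.m = m := s.run.hm
  have hP := s.run.ok.pth
  have hR := rec_s s hρ hB hμB hq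
  have Hg := rg_of s.f2 hP (by omega)
  have hAt := H404.az_top (R := s.R) s.hi0
  have hr100 : 100 * μS x m ≤ s.R.r0 := by
    have h1 := hR.hr
    have h2 : B ≤ s.R.m * B := hR.mB
    have h3 : 100 * μS x m ≤ 100 * (s.R.m * B) := Nat.mul_le_mul_left _ (hμB.trans h2)
    exact h3.trans h1
  have hV := v_gen (o := s.o) (o' := s.o') hR Nm hr100 X rx hx
  have huz : ∀ z, 0 ≤ H357.uV (nz s.R s.i0) (az s.R s.i0) (H357.eH s.R s.F B s.bS s.bV s.Vs s.Xs (μS x m) s.o s.o' gg pv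
      (ix s.R s.i0) rx X (Yz s.R s.i0 s.F s.Vs s.Xs (μS x m) s.o s.o')) z := fun z =>
    H357.uV_nonneg (fun k => H357.eH_nonneg _ _ _ _ _ _ _) z
  have hxz : ∀ z, 0 ≤ xz s.R s.i0 xj z := fun z => H357.uV_nonneg (fun k => hxj _) z
  have hjm : 0 ≤ jmz ρ.K K' s.R.m (μS x m) := jmz_nonneg hK' s.R.m (μS x m)
  -- below the last level every last step is an a-step
  have hlast : ∀ k ≤ nz s.R s.i0, az s.R s.i0 k ∈ Vz s.R s.i0 s.Vs s.Xs →
      (k = nz s.R s.i0 ∨ az s.R s.i0 (k + 1) = az s.R s.i0 k + 1) →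
      k < nz s.R s.i0 ∧ az s.R s.i0 (k + 1) = az s.R s.i0 k + 1 := by
    intro k hk hv h1
    have h2 : az s.R s.i0 k < az s.R s.i0 (nz s.R s.i0) := hv.2
    have h3 : k ≠ nz s.R s.i0 := fun h => by rw [h] at h2; omega
    rcases h1 with h1 | h1
    · exact absurd h1 h3
    · exact ⟨by omega, h1⟩
  have h2m : 2 * (m * Real.log 2) = 2 * (s.R.m * Real.log 2) := by rw [hmm]
  refine ⟨fun k _ _ => hR.ml_td (ix s.R s.i0 k), ?_, ?_, huz, hxz, fun z hz => vz_switch Hg hP s.hi0 hL hz, ?_, hjm, ?_, ?_, ?_⟩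
  · -- old steps
    intro k hk hak hv
    rw [h2m]
    refine (hV k hk hak).trans (hc_mono_right s.R.Q _ fun ω ω' _ _ e => ?_)
    simp only [Prod.mk.injEq] at e ⊢
    exact ⟨e.1, (mixY_old (C := fun k => (lc s.R.C (μS x m) s.o).cell (ix s.R s.i0 k) (bc s.R))
      (M := Mz s.R s.i0 s.F (μS x m) s.o s.o') hv ω ω').1 e.2.1, e.2.2⟩
  · -- young steps
    intro k hk hak hv
    rw [h2m]
    refine (hV k hk hak).trans (hc_mono_right s.R.Q _ fun ω ω' _ _ e => ?_)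
    simp only [Prod.mk.injEq] at e ⊢
    exact ⟨e.1, (mixY_young (C := fun k => (lc s.R.C (μS x m) s.o).cell (ix s.R s.i0 k) (bc s.R))
      (M := Mz s.R s.i0 s.F (μS x m) s.o s.o') hv ω ω').1 e.2.1, e.2.2⟩
  · -- nesting
    intro k k2 hk hak hkk hk2 ha2 _ hv hv2 hS
    have hS' : az s.R s.i0 k ∉ SwL s.R B s.Vs s.Xs Lk := fun h => hS (Finset.mem_coe.2 (Finset.mem_insert_of_mem h))
    have h1 : az s.R s.i0 k < az s.R s.i0 (nz s.R s.i0) := hv.2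
    have hsame := rg_same Hg hP hL hS' (k := ix s.R s.i0 k) (k2 := ix s.R s.i0 k2) (by omega) rfl ha2
      (H812.ix_le_n s.R s.i0 k) (H812.ix_le_n s.R s.i0 k2)
    exact (hR.ml_near hkk.le hk2 hv.1 hv2.1 hsame).trans hν
  · -- J1
    intro k hk hv h1
    obtain ⟨h2, h3⟩ := hlast k hk hv h1
    have h4 := hR.ml_J1 (o := s.o) (o' := s.o') hk hv.1
    have h5 := hjun (ix s.R s.i0 k) (Finset.mem_Icc.2 ⟨hR.one hk hv.1, H812.ix_le_n s.R s.i0 k⟩)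
      (by rw [hR.lv hk]; exact hv.1.2.1) (by rw [hR.lv hk]; exact hv.1.2.2) (H812.ix_isA hP h2 h3)
    have h6 := H357.uV_le (N := nz s.R s.i0) (a := az s.R s.i0) (e := fun k => xj (ix s.R s.i0 k)) (fun k => hxj _) h2 h3
    have h7 := cT_nonneg (4 * ρ.K)
    have h8 : xj (ix s.R s.i0 k) ≤ xz s.R s.i0 xj (az s.R s.i0 k) := h6
    unfold jmz
    refine h4.trans ?_
    linarith
  · -- J2
    intro k hk hv h1
    have h4 := hR.ml_J2 (o := s.o) (o' := s.o') hk hv.1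
    refine h4.trans ?_
    unfold jmz
    have h5 : 0 ≤ K' * (((μS x m : ℕ) : ℝ) + s.R.m) := by positivity
    have h6 : 0 ≤ ((μS x m : ℕ) : ℝ) * Real.log 2 := by positivity
    linarith
  · -- YMod
    intro k hk _ hv
    refine hR.ml_ymod (z := 2 * m) ?_ hk.le hv.1
    have h1 : 2 * (s.R.m * 2) ≤ 2 * (s.R.m * B) := Nat.mul_le_mul_left 2 (Nat.mul_le_mul_left s.R.m hB2)
    have h2 : B ≤ s.R.m * B := hR.mB
    omega

end st

end Vale.Agent.P106.U.H459
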