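import Vale.Agent.P106.U.H459.HCr
import Vale.Agent.P106.U.H357.USb
import Vale.Agent.P106.U.H471.UE3
import Vale.Agent.P106.U.H931.HO2
import Vale.Agent.P106.U.H118.HSt

/-!
# P106 / U / H459 : the sum of the errors of the time steps of the heavy intervals (helper459)

* `dS`, `qS`, `LS` : reading distance, telescoping distance, reach, in levels.
* `ush_s` : helper357's `UsH` at `St`.
* `ub_suf` : `Ub ≤ e3 / 2 h` (from helper471's `ue3`).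
* `us_s` : the sum of `eH` at `St` with helper118's letters.
* **`hSum_of`** : `HSum` from the collisions of the young levels.
-/

set_option autoImplicit false

namespace Vale.Agent.P106.U.H459

open Finset Vale.Agent.P127 Vale.Agent.P127.Stk Vale.Agent.P127.U Vale.Agent.P106.W Vale.Agent.P106.K Vale.Agent.P106.U
open Vale.Agent.P127.U.CellD (q2 q2_pos q2_le)
open Vale.Agent.P106.U.Cell Vale.Agent.P106.U.S3
open Vale.Agent.P106.U.S5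
open Vale.Agent.P106.U.H101 (lc low)
open Vale.Agent.P106.U.H823
open Vale.Agent.P106.U.MIC (bc ix nz az rz St Pre Suf eG gdR μS xS KS cμ MuS)
open Vale.Agent.P106.U.H336 (SwL)
open Vale.Agent.P106.U.H118 (Yz nuK cM yz_O yz_K yz_P)
open Vale.Agent.P106.U.H357 (UsH XLv XS AK mem_AK cTL cYL Ub S1b)
open Vale.Agent.P106.U.H471.US (XL0 xlv0 xl0_le ue3)
open Vale.Agent.P106.U.H513 (cNe cSl cNe_nonneg cSl_nonneg)

/-- reading distance, in levels -/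
noncomputable def dS (x : ℕ) : ℕ := 4 * (cμ * xS x)

/-- telescoping distance, in levels -/
noncomputable def qS (ρ : Thr) (x : ℕ) : ℕ := dS x + ρ.J * dS x

/-- reach of the exceptional levels -/
noncomputable def LS (ρ : Thr) (x : ℕ) : ℕ := (ρ.J + 1) * MuS x + 2

section st

variable {η : ℝ} {x : ℕ} {σ : Cst} {ε : ℝ} {ρ : Thr} {g : Gv} {m B h : ℕ}

theorem dS_pos (x : ℕ) : 1 ≤ dS x := by
  have h1 := cμ_ge
  have h2 : 1 ≤ xS x := by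
    unfold xS
    omega
  have h3 : 1 * 1 ≤ cμ * xS x := Nat.mul_le_mul (by omega) h2
  unfold dS
  omega

theorem mu8 (s : St η x σ ε ρ g m B h) (N : HCN ρ x m B) : 8 * μS x m ≤ s.R.m * B := by
  rw [s.run.hm]
  calc 8 * μS x m = m * (8 * (cμ * xS x)) := by
        unfold μS
        ring
    _ ≤ m * B := Nat.mul_le_mul_left _ N.B8

/-- helper357's situation -/
theorem ush_s (s : St η x σ ε ρ g m B h) (hρ : ρ.Ok) (N : HCN ρ x m B) {L : ℕ} {XL : Finset ℕ} (hL : qS ρ x + 1 ≤ L)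
    (hX : XLv s.R B s.Vs s.Xs s.i0 L XL) :
    UsH s.R s.pn ρ.K ρ.c' s.g' s.gU B s.bS s.bV s.F s.Vs s.Xs (μS x m) (KS ρ) s.o s.o' s.i0 L (dS x) (qS ρ x) (dS x)
      (gdR s.R s.pn (eG ε ρ) s.i0) XL := by
  have hR := rec_s s hρ N.B20 N.μB N.q
  have h1 := dS_pos x
  have h2 := mu8 s N
  have hJ : 1 ≤ ρ.J := by
    rw [← s.run.hJ]
    exact s.run.ok.pth.J1
  have h3 : 1 * 1 ≤ ρ.J * dS x := Nat.mul_le_mul hJ h1
  have h4 : 4 * μS x m = dS x * s.R.m := by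
    rw [s.run.hm]
    unfold μS dS
    ring
  refine ⟨s.run.ok, s.f2, s.f2o, hρ.K1, N.B20, hR.hr, N.μB, hR.μC, le_rfl, hR.b8, s.word.sd, hX, h1, ?_, hL, ?_, h4.le, ?_, ?_,
    by omega⟩
  · unfold qS
    omega
  · have := N.B8
    unfold dS
    omega
  · rw [s.run.hJ]
    exact le_rfl
  · exact h4.le.trans (le_of_eq (Nat.mul_comm _ _))

/-- the sum of the errors with helper118's letters -/
theorem us_s (s : St η x σ ε ρ g m B h) (hρ : ρ.Ok) (N : HCN ρ x m B) {L : ℕ} {XL : Finset ℕ} (hL : qS ρ x + 1 ≤ L)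
    (hX : XLv s.R B s.Vs s.Xs s.i0 L XL) {cc : ℝ}
    (hcO : (m : ℝ) * ∑ j ∈ AK s.R s.Vs s.i0 XL {0, 3} \ XB s.R s.i0 s.E,
      (cTL s.R.Q (lc s.R.C (μS x m) s.o) (s.R.m * s.R.b1) (ix s.R s.i0 (j + 1)) (MIC.gS x m) +
        cYL s.R.Q (lc s.R.C (μS x m) s.o) (s.R.m * s.R.b1) (ix s.R s.i0 (j + 1)) (MIC.gS x m)) ≤ cc)
    (hcK : (m : ℝ) * ∑ j ∈ AK s.R s.Vs s.i0 XL {1} \ XB s.R s.i0 s.E,
      (cTL s.R.Q ((mt s.R s.F (μS x m) s.o s.o').fz (ix s.R s.i0 (j + 1)) (ix s.R s.i0 (j + 1))) (s.R.m * s.R.b1)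
          (ix s.R s.i0 (j + 1)) (MIC.gS x m) +
        cYL s.R.Q ((mt s.R s.F (μS x m) s.o s.o').fz (ix s.R s.i0 (j + 1)) (ix s.R s.i0 (j + 1))) (s.R.m * s.R.b1)
          (ix s.R s.i0 (j + 1)) (MIC.gS x m)) ≤ cc)
    (hcP : (m : ℝ) * ∑ j ∈ AK s.R s.Vs s.i0 XL {2} \ XB s.R s.i0 s.E,
      (cTL s.R.Q ((mt0 s.R s.F (μS x m) s.o s.o').fz (ix s.R s.i0 (j + 1)) (ix s.R s.i0 (j + 1))) (s.R.m * s.R.b1)
          (ix s.R s.i0 (j + 1)) (MIC.gS x m) +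
        cYL s.R.Q ((mt0 s.R s.F (μS x m) s.o s.o').fz (ix s.R s.i0 (j + 1)) (ix s.R s.i0 (j + 1))) (s.R.m * s.R.b1)
          (ix s.R s.i0 (j + 1)) (MIC.gS x m)) ≤ cc) :
    (∀ j < nz s.R s.i0, az s.R s.i0 (j + 1) = az s.R s.i0 j + 1 → j ∉ XS s.R s.i0 XL ∪ XB s.R s.i0 s.E →
      ix s.R s.i0 (j + 1) ≤ rxI s.R s.i0 (dS x) j ∧
        s.R.C.a (ix s.R s.i0 (j + 1)) + 4 * μS x m ≤ s.R.C.a (rxI s.R s.i0 (dS x) j)) ∧
    ∑ j ∈ (range (nz s.R s.i0)).filter (fun j => az s.R s.i0 (j + 1) = az s.R s.i0 j + 1),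
      H357.eH s.R s.F B s.bS s.bV s.Vs s.Xs (μS x m) s.o s.o' (MIC.gS x m) (2 * μS x m) (ix s.R s.i0) (rxI s.R s.i0 (dS x))
        (XS s.R s.i0 XL ∪ XB s.R s.i0 s.E) (Yz s.R s.i0 s.F s.Vs s.Xs (μS x m) s.o s.o') j ≤
      Ub s.R s.pn ρ.K (KS ρ) B (μS x m) s.i0 (dS x) (qS ρ x) (MIC.gS x m) (2 * μS x m) XL (XB s.R s.i0 s.E)
        (|nuK ρ.K| + |cM ρ.K|) (3 * cc / m) := by
  have H := ush_s s hρ N hL hX
  have hR := rec_s s hρ N.B20 N.μB N.q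
  have hm0 : (0 : ℝ) < m := by exact_mod_cast N.m1
  have hB1 : 1 ≤ B := by have := N.B2; omega
  have hr100 : 100 * μS x m ≤ s.R.r0 := by
    have h1 := hR.hr
    have h2 : B ≤ s.R.m * B := hR.mB
    have h3 : 100 * μS x m ≤ 100 * (s.R.m * B) := Nat.mul_le_mul_left _ (N.μB.trans h2)
    exact h3.trans h1
  have D := s.word.sd
  have geo : ∀ {c : Finset (Fin 4)} {j : ℕ}, j ∈ AK s.R s.Vs s.i0 XL c \ XB s.R s.i0 s.E → j < nz s.R s.i0 ∧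
      az s.R s.i0 (j + 1) = az s.R s.i0 j + 1 ∧ az s.R s.i0 j + 1 < az s.R s.i0 (nz s.R s.i0) ∧
      az s.R s.i0 j ∉ SwL s.R B s.Vs s.Xs L ∧ H336.kd s.R s.Vs (az s.R s.i0 j) ∈ c := by
    intro c j hj
    rw [Finset.mem_sdiff] at hj
    obtain ⟨h1, h2, h3, h4⟩ := mem_AK.1 hj.1
    have h5 : az s.R s.i0 0 ≤ az s.R s.i0 j := D.am (Nat.zero_le _) h1.le
    have h6 : az s.R s.i0 (j + 1) ≤ az s.R s.i0 (nz s.R s.i0) := D.am h1 le_rfl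
    obtain ⟨x1, x2, x3⟩ := hX _ h5 (by omega) h3
    exact ⟨h1, h2, by omega, x2, h4⟩
  have hL1 : 1 ≤ L := by omega
  have hcase : ∀ S : ℝ, (m : ℝ) * S ≤ cc → S ≤ cc / m := fun S hS => by
    rw [le_div_iff₀ hm0]
    linarith
  have e3 : 3 * cc / m = cc / m + cc / m + cc / m := by ring
  refine ⟨fun j hj ha hXj => H.hxU _ hj ha hXj, ?_⟩
  rw [e3]
  refine H.us1 (XB s.R s.i0 s.E) (Yz s.R s.i0 s.F s.Vs s.Xs (μS x m) s.o s.o') (by positivity) ?_ ?_ ?_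
    (hcase _ hcO) (hcase _ hcK) (hcase _ hcP)
  · intro j hj
    obtain ⟨h1, h2, h3, h4, h5⟩ := geo hj
    refine (yz_O hR hB1 hr100 s.hi0 hL1 h2 h3 h4 (by simpa using h5)).trans ?_
    exact (le_abs_self _).trans (le_add_of_nonneg_right (abs_nonneg _))
  · intro j hj
    obtain ⟨h1, h2, h3, h4, h5⟩ := geo hj
    refine (yz_K hR hB1 s.hi0 hL1 h1 h2 h3 h4 (by simpa using h5)).trans ?_
    exact (le_abs_self _).trans (le_add_of_nonneg_left (abs_nonneg _))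
  · intro j hj
    obtain ⟨h1, h2, h3, h4, h5⟩ := geo hj
    refine (yz_P hR hB1 s.hi0 hL1 h1 h2 h3 h4 (by simpa using h5)).trans ?_
    exact (le_abs_self _).trans (le_add_of_nonneg_left (abs_nonneg _))

end st

/-- **`Ub ≤ e3 / 2 h`** -/
theorem ub_suf {σ : Cst} (hσ : σ.Ok) {ε : ℝ} {ρ : Thr} (hρ : ρ.Ok) (η : ℝ) (x : ℕ) {cY : ℝ} (hY : 0 ≤ cY) {e3 : ℝ}
    (he3 : 0 < e3) (hε : 1280 * ε ≤ e3) (L : ℕ) :
    Suf σ ε fun g m B h => ∀ s : St η x σ ε ρ g m B h, ∀ cc : ℝ, (m : ℝ) * cc ≤ e3 / 250 * h →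
      Ub s.R s.pn ρ.K (KS ρ) B (μS x m) s.i0 (dS x) (qS ρ x) (MIC.gS x m) (2 * μS x m)
        (XL0 s.R B s.Vs s.Xs s.i0 L) (XB s.R s.i0 s.E) cY cc ≤ e3 / 2 * h := by
  have hK1 := hσ.bs.K10
  have c1 := cNe_nonneg ρ.K
  have c2 := cSl_nonneg ρ.K
  have c3 := H357.cF_nonneg ρ.K
  have hC1 : (0 : ℝ) ≤ 2 * (((L : ℝ) + 1) * (4 + (L + 1) * (2 * σ.K1 + 3))) := by positivity
  have hC2 : (0 : ℝ) ≤ 2 * (((L : ℝ) + 1) * (L + 2)) + (L + 2) := by positivity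
  have hKS : 0 ≤ KS ρ := KS_nonneg hρ
  have key := ue3 hσ (ε := ε) hρ η x (dS x) (C1 := 2 * (((L : ℝ) + 1) * (4 + (L + 1) * (2 * σ.K1 + 3))))
    (C2 := 2 * (((L : ℝ) + 1) * (L + 2)) + (L + 2)) (Cp := 2 * (cμ * xS x : ℕ)) (Q := qS ρ x) (cYY := 30 + 3 * cY)
    (cSO := 4 * (cNe ρ.K + cSl ρ.K) + 8 * H958.cF ρ.K) (cSF := 4 * (cNe ρ.K + cSl ρ.K) + 8 * H958.cF ρ.K)
    (D0 := ((dS x : ℝ) + 1) * (KS ρ ^ 2 * ((dS x : ℝ) + 1) ^ 2)) (D1 := ((dS x : ℝ) + 1) * (KS ρ ^ 2 * ((dS x : ℝ) + 1) ^ 2))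
    hC1 hC2 (by positivity) (by positivity) (by positivity) (by positivity) (by positivity) (by positivity) (by positivity)
    he3 hε
  have hB1 : Suf σ ε fun _ _ B _ => 1 ≤ B := Suf.of_ev3 fun g _ => (H652.Ev3.of_B' fun _ => H652.ev_nat 1).out
  refine (key.and hB1).mono fun g m B h _ H s cc hcc => ?_
  obtain ⟨H, hB⟩ := H
  have hm : s.R.m = m := s.run.hm
  have h1 := H s ((XL0 s.R B s.Vs s.Xs s.i0 L).card : ℝ) ((2 * μS x m : ℕ) : ℝ) cc (Nat.cast_nonneg _) (Nat.cast_nonneg _)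
    (xl0_le s hB L) (by
      unfold μS
      push_cast
      exact le_of_eq (by ring)) hcc
  refine le_trans (le_of_eq ?_) h1
  unfold Ub S1b H958.xF
  rw [hm]
  show _ = 2 * (m * Real.log 2) * (((XL0 s.R B s.Vs s.Xs s.i0 L).card : ℝ) + (XB s.R s.i0 s.E).card) +
    (15 + (30 + 3 * cY)) * (az s.R s.i0 (nz s.R s.i0) : ℝ) + 13 * m * cc + 2 ^ (22 * MIC.gS x m) *
      (Real.sqrt ((az s.R s.i0 (nz s.R s.i0) : ℝ) * (qS ρ x * (((XL0 s.R B s.Vs s.Xs s.i0 L).card : ℝ) + 1) *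
          (((2 * μS x m : ℕ) : ℝ) * Real.log 2) +
            (4 * (cNe ρ.K + cSl ρ.K) + 8 * H958.cF ρ.K) * Real.sqrt ((az s.R s.i0 (nz s.R s.i0) : ℝ) *
              (((dS x : ℝ) + 1) * (KS ρ ^ 2 * ((dS x : ℝ) + 1) ^ 2) * ((s.R.n : ℝ) + s.pn.J + 1) * q2 (μS x m / 4))))) +
          2 * Real.sqrt ((az s.R s.i0 (nz s.R s.i0) : ℝ) * (qS ρ x * (((XL0 s.R B s.Vs s.Xs s.i0 L).card : ℝ) + 1) *
          (((2 * μS x m : ℕ) : ℝ) * Real.log 2) +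
            (4 * (cNe ρ.K + cSl ρ.K) + 8 * H958.cF ρ.K) * Real.sqrt ((az s.R s.i0 (nz s.R s.i0) : ℝ) *
              (((dS x : ℝ) + 1) * (KS ρ ^ 2 * ((dS x : ℝ) + 1) ^ 2) * ((s.R.n : ℝ) + s.pn.J + 1) * q2 (μS x m / 4))))) +
          3 * Real.sqrt ((az s.R s.i0 (nz s.R s.i0) : ℝ) * (S3.F2b s.R s.pn B (μS x m) (KS ρ) (dS x))))
  have e1 : ((dS x : ℝ) + 1) * (KS ρ ^ 2 * ((dS x : ℝ) + 1) ^ 2 * ((s.R.n : ℝ) + s.pn.J + 1) * q2 (μS x m / 4)) =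
      ((dS x : ℝ) + 1) * (KS ρ ^ 2 * ((dS x : ℝ) + 1) ^ 2) * ((s.R.n : ℝ) + s.pn.J + 1) * q2 (μS x m / 4) := by ring
  rw [e1]
  ring

/-- **the sum of the errors of the time steps**, from the collisions at the young levels -/
theorem hSum_of
    (hY : Pre fun _ η x _ e3 σ ε ρ => Suf σ ε fun g m B h => ∀ s : St η x σ ε ρ g m B h, ∀ (L : ℕ) (XL : Finset ℕ),
      ρ.J * MuS x + 2 ≤ L → XLv s.R B s.Vs s.Xs s.i0 L XL →
      (m : ℝ) * ∑ j ∈ AK s.R s.Vs s.i0 XL {1} \ XB s.R s.i0 s.E,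
        (cTL s.R.Q ((mt s.R s.F (μS x m) s.o s.o').fz (ix s.R s.i0 (j + 1)) (ix s.R s.i0 (j + 1))) (s.R.m * s.R.b1)
            (ix s.R s.i0 (j + 1)) (MIC.gS x m) +
          cYL s.R.Q ((mt s.R s.F (μS x m) s.o s.o').fz (ix s.R s.i0 (j + 1)) (ix s.R s.i0 (j + 1))) (s.R.m * s.R.b1)
            (ix s.R s.i0 (j + 1)) (MIC.gS x m)) ≤ e3 / 750 * h ∧
      (m : ℝ) * ∑ j ∈ AK s.R s.Vs s.i0 XL {2} \ XB s.R s.i0 s.E,
        (cTL s.R.Q ((mt0 s.R s.F (μS x m) s.o s.o').fz (ix s.R s.i0 (j + 1)) (ix s.R s.i0 (j + 1))) (s.R.m * s.R.b1)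
            (ix s.R s.i0 (j + 1)) (MIC.gS x m) +
          cYL s.R.Q ((mt0 s.R s.F (μS x m) s.o s.o').fz (ix s.R s.i0 (j + 1)) (ix s.R s.i0 (j + 1))) (s.R.m * s.R.b1)
            (ix s.R s.i0 (j + 1)) (MIC.gS x m)) ≤ e3 / 750 * h) : HSum := by
  have hO := H931.cc_OB (κ := fun _ _ _ _ e3 => e3 / 750) (fun b η x δh e3 _ _ he => by positivity)
  have HH := hO.and hY
  intro b hb η hη x δh e3 hx hδh he3
  obtain ⟨θ0, hθ0, H⟩ := HH b hb η hη x δh e3 hx hδh he3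
  refine ⟨θ0, hθ0, fun θ hθ hθ' => ?_⟩
  obtain ⟨δ0, hδ0, H⟩ := H θ hθ hθ'
  refine ⟨δ0, hδ0, fun δ1 hδ hδ' σ hσ hσo => ?_⟩
  obtain ⟨ε0, hε0, H⟩ := H δ1 hδ hδ' σ hσ hσo
  refine ⟨min ε0 (e3 / 1280), lt_min hε0 (by positivity), fun ε hε hε' ρ hρ => ?_⟩
  obtain ⟨HO, HY⟩ := H ε hε (hε'.trans (min_le_left _ _)) ρ hρ
  have hε2 : 1280 * ε ≤ e3 := by
    have := hε'.trans (min_le_right _ _)
    linarith
  have hN : Suf σ ε fun _ m B _ => HCN ρ x m B := Suf.of_ev3 fun g _ => (ev_HCN ρ x).out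
  have hU := ub_suf hσo hρ η x (cY := |nuK ρ.K| + |cM ρ.K|) (by positivity) he3 hε2 (LS ρ x)
  refine ((HO.and HY).and (hN.and hU)).mono fun g m B h _ P s => ?_
  obtain ⟨⟨P1, P2⟩, N, P3⟩ := P
  have hX := xlv0 s.R B s.Vs s.Xs s.i0 (LS ρ x)
  have hMu : MuS x = 2 * dS x := by
    unfold MuS dS
    ring
  have hL : qS ρ x + 1 ≤ LS ρ x := by
    unfold qS LS
    rw [hMu]
    have : (ρ.J + 1) * (2 * dS x) = 2 * (dS x + ρ.J * dS x) := by ring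
    omega
  have hL2 : ρ.J * MuS x + 2 ≤ LS ρ x := by
    unfold LS
    have : (ρ.J + 1) * MuS x = ρ.J * MuS x + MuS x := by ring
    omega
  obtain ⟨k1, k2⟩ := P2 s _ _ hL2 hX
  have k0 := P1 s (XL0 s.R B s.Vs s.Xs s.i0 (LS ρ x)) {0, 3}
  obtain ⟨u1, u2⟩ := us_s s hρ N hL hX k0 k1 k2
  refine ⟨_, _, u1, u2.trans (P3 s _ ?_)⟩
  have hm0 : (0 : ℝ) < m := by exact_mod_cast N.m1
  have e1 : (m : ℝ) * (3 * (e3 / 750 * h) / m) = e3 / 250 * h := by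
    field_simp
    ring
  exact e1.le

end Vale.Agent.P106.U.H459
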