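import Vale.Agent.P106.U.H459.ExitRR
import Vale.Agent.P106.U.H565.RunF

/-!
# P106 / U / H459 : [EXR] the exit by the precision of the concrete run (helper459)

* `rk_n`, `fin_rk` : a run which stops at a level `< (1 - θ) h` stops by the precision.
* `rr_c` : `C2.Hyp`, `R.Ok`, `NEx`, `a_n < (1 - θ) h` give `S5.RR` for the run of helper565.
-/

set_option autoImplicit false

namespace Vale.Agent.P106.U.H459

open Finset Vale.Agent.P127 Vale.Agent.P127.Stk Vale.Agent.P127.U Vale.Agent.P106.W Vale.Agent.P106.K Vale.Agent.P106.U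
open Vale.Agent.P106.U.S5 Vale.Agent.P106.U.H565
open Vale.Agent.P127.U.CellD (q2 q2_pos q2_le q2_add)

variable {Ω : Type} [Fintype Ω] {c : C2 Ω} {Rm : ℕ} {cc : ℝ} {Ac rc : ℕ}

/-- the stop is by the precision -/
theorem fin_rk (H : c.Hyp Rm cc Ac rc) {σ : Cst} (hσ : σ.Ok) (hδ : c.I.δ1 = σ.δ1) (hh : 0 < c.I.h)
    (ha : (c.run.C.a c.run.n : ℝ) < (1 - σ.θ) * c.I.h) : c.I.num.QK ≤ c.run.C.rk c.run.n := by
  have hP := C2.path H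
  rcases hP.fin with h1 | h1
  · exfalso
    have h2 : (c.I.num.A : ℝ) ≤ c.run.C.a c.run.n := by exact_mod_cast h1
    have h3 := c.good.A2
    rw [hδ] at h3
    have hhr : (0 : ℝ) < c.I.h := by exact_mod_cast hh
    have h4 : (1 - σ.θ) * c.I.h ≤ (1 - 5 * σ.δ1) * c.I.h :=
      mul_le_mul_of_nonneg_right (by linarith [hσ.δθ, hσ.δ0]) hhr.le
    linarith
  · exact h1

/-- the last precision is deep -/
theorem rk_deep (H : c.Hyp Rm cc Ac rc) (h : c.I.num.QK ≤ c.run.C.rk c.run.n) :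
    2 * (648 : ℝ) ^ 2 * q2 (c.run.C.rk c.run.n) ≤ 1 := by
  have h1 := c.good.kQK
  have h2 := H.st.m6
  have h3 : 4 ≤ c.N0 := by have := H.N0s; omega
  have h4 : 24 ≤ c.I.m * c.N0 := Nat.mul_le_mul h2 h3
  have h5 : c.I.m * (c.I.kb - 2) ≤ c.I.m * c.I.kb := Nat.mul_le_mul_left _ (Nat.sub_le _ _)
  have h6 : q2 (c.run.C.rk c.run.n) ≤ q2 (c.I.m * (c.I.kb - 2)) * q2 24 := by
    rw [← q2_add]
    exact q2_le (by omega)
  have h7 := H.st.r0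
  have h8 := q2_pos (c.I.m * (c.I.kb - 2))
  have h9 : q2 24 = 1 / 16777216 := by
    unfold q2
    norm_num
  rw [h9] at h6
  linarith

/-- **[EXR]** -/
theorem rr_c : ∃ (D : ℝ) (j : ℕ), 0 ≤ D ∧ ∀ {σ : Cst} {ε : ℝ} {ρ : Thr} {g : Gv} {m B : ℕ} {Ω : Type} [Fintype Ω] (c : C2 Ω)
    {Rm : ℕ} {cc : ℝ} {Ac rc : ℕ} {g' gU lam N k β d : ℝ} (r0 Rn : ℕ) (S : Cbx), c.Hyp Rm cc Ac rc →
    c.run.Ok c.num 648 cc g' gU → NEx 100 lam N k β d c.Q c.l c.t (fun _ => ()) c.L c.I.h c.I.q c.W →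
    σ.Ok → c.I.C1 = σ.C1 → c.I.δ1 = σ.δ1 → cM 100 648 ≤ ρ.K → c.b1 ≤ c.I.B1b →
    (c.run.C.a c.run.n : ℝ) < (1 - σ.θ) * c.I.h → (j : ℝ) ≤ σ.θ / 2 * c.I.h → D + 3 ≤ σ.δ1 * c.I.h →
    g' ≤ σ.δ1 * c.I.h → gU ≤ ε * c.I.h → RR σ ε ρ g m B c.Q c.l c.t c.L c.I.h c.I.q r0 Rn c.W S := by
  obtain ⟨D, j, hD, h⟩ := rr_of_run 648 (by norm_num)
  refine ⟨D, j, hD, ?_⟩
  intro σ ε ρ g m B Ω _ c Rm cc Ac rc g' gU lam N k β d r0 Rn S H hR hN hσ hC hδ hK hb ha hj hDh hg' hgU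
  have hhr0 : (0 : ℝ) ≤ c.I.h := Nat.cast_nonneg _
  have hh : 0 < c.I.h := by
    rcases Nat.eq_zero_or_pos c.I.h with h1 | h1
    · exfalso
      rw [h1, Nat.cast_zero, mul_zero] at hDh
      linarith
    · exact h1
  have hhr : (0 : ℝ) < c.I.h := by exact_mod_cast hh
  have hfin := fin_rk H hσ hδ hh ha
  have hdeep := rk_deep H hfin
  have hδ0 := hσ.δ0
  have hC1 : 1 ≤ σ.C1 := by
    have := hσ.bs.lam0
    show (1 : ℝ) ≤ 1000 / σ.lam + 1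
    have : 0 < 1000 / σ.lam := by positivity
    linarith
  have hC2 : σ.C2 = 100 * σ.C1 := rfl
  have hδh : 0 < σ.δ1 * c.I.h := mul_pos hδ0 hhr
  have hCδ : 100 * (σ.δ1 * c.I.h) ≤ σ.C2 * σ.δ1 * c.I.h := by
    rw [hC2]
    nlinarith
  have l2 : Real.log 2 ≤ 1 := by
    have := Real.log_two_lt_d9
    linarith
  have l0 : 0 ≤ Real.log 2 := Real.log_nonneg (by norm_num)
  refine h c.run c.num cc g' gU lam N k β d r0 Rn S hK hσ.θ0.le hR hN hdeep ?_ ?_ ?_ ?_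
  · show (c.run.C.a c.run.n : ℝ) + j ≤ (1 - σ.θ / 2) * c.I.h
    linarith
  · show (c.I.q : ℝ) ≤ c.run.C.rk c.run.n + σ.C2 * σ.δ1 * c.I.h
    have h1 : (c.I.num.QK : ℝ) ≤ c.run.C.rk c.run.n := by exact_mod_cast hfin
    have h2 := c.good.QK2
    rw [hδ, hC] at h2
    have h3 : 5 * σ.C1 * σ.δ1 * c.I.h ≤ σ.C2 * σ.δ1 * c.I.h := by
      rw [hC2]
      have : 0 ≤ σ.C1 * (σ.δ1 * c.I.h) := by positivity
      nlinarith
    linarith
  · show (c.I.m * c.b1 + 3 : ℝ) * Real.log 2 + gU ≤ (σ.C2 * σ.δ1 + ε) * c.I.h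
    have h1 : ((c.I.m * c.b1 : ℕ) : ℝ) ≤ c.I.num.B₁ := by exact_mod_cast Nat.mul_le_mul_left c.I.m hb
    have h2 := c.good.B1
    rw [hδ] at h2
    push_cast at h1
    have h3 : (c.I.m * c.b1 + 3 : ℝ) * Real.log 2 ≤ (c.I.m * c.b1 + 3 : ℝ) * 1 :=
      mul_le_mul_of_nonneg_left l2 (by positivity)
    nlinarith
  · show g' + gU + D ≤ (σ.C2 * σ.δ1 + ε) * c.I.h
    nlinarith

end Vale.Agent.P106.U.H459
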