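import Vale.Agent.P106.U.H459.HSm
import Vale.Agent.P106.U.H786.HO1
import Vale.Agent.P106.U.H364.HO2
import Vale.Agent.P106.U.H543.RowH

/-!
# P106 / U / H459 : the row of the heavy intervals is a theorem (helper459)

* **`hSum : HSum`** : from helper786's `cc_K` and helper364's `cc_PB`.
* **`row_h : MIC.RowH`** : `Top543.rowH_of (hCore_of hSum)`.
-/

set_option autoImplicit false

namespace Vale.Agent.P106.U.H459

open Finset Vale.Agent.P127 Vale.Agent.P127.Stk Vale.Agent.P127.U Vale.Agent.P106.W Vale.Agent.P106.K Vale.Agent.P106.U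
open Vale.Agent.P106.U.S5
open Vale.Agent.P106.U.MIC (bc ix nz az rz St Pre Suf eG gdR μS xS KS cμ MuS)
open Vale.Agent.P106.U.H357 (UsH XLv XS AK mem_AK cTL cYL Ub S1b)

/-- **the sum of the errors of the time steps of the heavy intervals** -/
theorem hSum : HSum := by
  have h1 := H786.SC.cc_K (κ := fun _ _ _ _ e3 => e3 / 750) (fun b η x δh e3 _ _ he => by positivity)
  have h2 := H364.HO2.cc_PB (κ := fun _ _ _ _ e3 => e3 / 750) (fun b η x δh e3 _ _ he => by positivity)
  refine hSum_of ((h1.and h2).mono ?_)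
  rintro b η x δh e3 σ ε ρ hb hη hx hδh he3 hσ hσo hε hρ ⟨a1, a2⟩
  refine (a1.and a2).mono fun g m B h _ P => ?_
  obtain ⟨P1, P2⟩ := P
  intro s L XL hL hX
  have M1 : 1 ≤ MuS x := by
    unfold MuS MIC.xS cμ MIC.cN
    have := le_max_left 800 MIC.cφ
    have h1 : 0 < 8 * (8000 * max 800 MIC.cφ) * (x + 12) := by positivity
    omega
  have J1 : 1 ≤ ρ.J := by
    have := s.run.ok.pth.J1
    rw [s.run.hJ] at this
    exact this
  have d1 : 1 ≤ ρ.J * MuS x := Nat.mul_pos J1 M1
  exact ⟨P1 s L XL hX (by omega), P2 s L XL hL hX⟩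

/-- **row [H]** -/
theorem row_h : MIC.RowH := Top543.rowH_of (hCore_of hSum)

end Vale.Agent.P106.U.H459
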