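import Vale.Agent.P106.U.H565.SelA

/-!
# P106 / U / H459 : choice of a pair (cap `k`, value of the letter `Pt k`) (helper459)

* `selGenK` : Markov over the pairs, weights `1/K P (Pt k = z)`.
* `nex_selK` : the same for near-extremal systems: one pair `(k, z)` with all costs small, `log (1 / P (Pt k = z))` small and
  `NEx d'` for the law conditioned to `Pt k = z`.  The letters `Pt k` enter with their entropy only.
-/

set_option autoImplicit false

namespace Vale.Agent.P106.U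

open Finset Vale.Agent.P127 Vale.Agent.P127.Stk Vale.Agent.P127.U Vale.Agent.P106.W Vale.Agent.P106.K
open Vale.Agent.P127.U.Nonat Vale.Agent.P127.U.JSB H565

namespace H459

/-- **selection of a pair `(k, value of Pt k)`**, events and averages -/
theorem selGenK {Ω : Type} [Fintype Ω] {S ι : Type} (P : Law Ω) {K : ℕ} (hK : 0 < K) (Pt : ℕ → Ω → S) (A : ℕ → S → Prop)
    (s : Finset ι) (F : ι → ℕ → S → ℝ) (c : ι → ℝ) {g : ℝ} (hg : 0 < g)
    (hF0 : ∀ j ∈ s, ∀ k < K, ∀ ω, 0 < P.w ω → 0 ≤ F j k (Pt k ω)) (hc : ∀ j ∈ s, 0 < c j)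
    (hF : ∀ j ∈ s, ∑ k ∈ range K, P.ex (fun ω => F j k (Pt k ω)) ≤ c j * K)
    (hA : g * K ≤ ∑ k ∈ range K, prE P (fun ω => A k (Pt k ω))) :
    ∃ k < K, ∃ ω, 0 < P.w ω ∧ A k (Pt k ω) ∧ ∀ j ∈ s, F j k (Pt k ω) ≤ (s.card + 1) * c j / g := by
  classical
  by_contra hcon
  push Not at hcon
  have hKr : (0 : ℝ) < K := by exact_mod_cast hK
  set G : ℕ → Ω → ℝ := fun k ω => ∑ j ∈ s, F j k (Pt k ω) / c j with hG
  have hG2 : ∀ k < K, ∀ ω, 0 < P.w ω → ∀ j ∈ s, 0 ≤ F j k (Pt k ω) / c j := fun k hk ω hω j hj =>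
    div_nonneg (hF0 j hj k hk ω hω) (hc j hj).le
  have hG0 : ∀ k < K, ∀ ω, 0 < P.w ω → 0 ≤ G k ω := fun k hk ω hω => Finset.sum_nonneg (hG2 k hk ω hω)
  have e1 : ∑ k ∈ range K, P.ex (G k) ≤ s.card * K := by
    have b0 : ∀ k, P.ex (G k) = ∑ j ∈ s, P.ex (fun ω => F j k (Pt k ω)) / c j := by
      intro k
      rw [hG]
      rw [ex_sum' P s (fun j ω => F j k (Pt k ω) / c j)]
      refine Finset.sum_congr rfl fun j _ => ?_
      unfold Law.ex
      rw [Finset.sum_div]
      exact Finset.sum_congr rfl fun ω _ => by ring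
    rw [Finset.sum_congr rfl fun k _ => b0 k, Finset.sum_comm]
    have b1 : ∑ j ∈ s, ∑ k ∈ range K, P.ex (fun ω => F j k (Pt k ω)) / c j ≤ ∑ _j ∈ s, (K : ℝ) := by
      refine Finset.sum_le_sum fun j hj => ?_
      rw [← Finset.sum_div, div_le_iff₀ (hc j hj)]
      linarith [hF j hj]
    refine b1.trans (le_of_eq ?_)
    rw [Finset.sum_const, nsmul_eq_mul]
  have e2 : ∀ k < K, ∀ ω, 0 < P.w ω → ((s.card : ℝ) + 1) / g * Law.ind (A k (Pt k ω)) ≤ G k ω := by
    intro k hk ω hω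
    by_cases hAω : A k (Pt k ω)
    · rw [Law.ind_of hAω, mul_one]
      obtain ⟨j, hj, hj2⟩ := hcon k hk ω hω hAω
      have a1 : ((s.card : ℝ) + 1) / g ≤ F j k (Pt k ω) / c j := by
        rw [le_div_iff₀ (hc j hj)]
        refine le_trans (le_of_eq ?_) hj2.le
        ring
      exact a1.trans (Finset.single_le_sum (f := fun j => F j k (Pt k ω) / c j) (hG2 k hk ω hω) hj)
    · rw [Law.ind_not hAω, mul_zero]
      exact hG0 k hk ω hω
  have e3 : ∑ k ∈ range K, P.ex (fun ω => ((s.card : ℝ) + 1) / g * Law.ind (A k (Pt k ω))) ≤ ∑ k ∈ range K, P.ex (G k) :=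
    Finset.sum_le_sum fun k hk => P.ex_mono (e2 k (Finset.mem_range.1 hk))
  have e4 : ∀ k, P.ex (fun ω => ((s.card : ℝ) + 1) / g * Law.ind (A k (Pt k ω))) =
      ((s.card : ℝ) + 1) / g * prE P (fun ω => A k (Pt k ω)) := by
    intro k
    rw [prE_eq_ex]
    unfold Law.ex
    rw [Finset.mul_sum]
    exact Finset.sum_congr rfl fun ω _ => by ring
  rw [Finset.sum_congr rfl fun k _ => e4 k, ← Finset.mul_sum] at e3
  have h1 : (0 : ℝ) ≤ s.card := Nat.cast_nonneg _
  have e5 : ((s.card : ℝ) + 1) * K ≤ ((s.card : ℝ) + 1) / g * ∑ k ∈ range K, prE P (fun ω => A k (Pt k ω)) := by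
    calc ((s.card : ℝ) + 1) * K = ((s.card : ℝ) + 1) / g * (g * K) := by field_simp
      _ ≤ _ := mul_le_mul_of_nonneg_left hA (by positivity)
  nlinarith

end H459

/-- **selection of a pair `(k, value of Pt k)` for near-extremal systems** : events `A k` of average probability `≥ g`, finitely
many nonnegative functions `F j k` with averages `≤ cs j` -/
theorem nex_selK {c lam N k β β' : ℝ} (hc : 1 ≤ c) (h0 : 0 ≤ lam) (h1 : lam ≤ 1) (hN : 0 ≤ N) (hk : 0 ≤ k)
    (hββ : β ≤ β') (hF : FIX c lam N k β') {ε : ℝ} (hε : 0 < ε) :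
    ∃ K : ℝ, 0 ≤ K ∧ ∀ (Ω : Type) [Fintype Ω] (γ : Type) (P : Law Ω) (l : Ω → Ry) (t : Ω → ℝ) (C : Ω → γ)
      (L h q : ℕ) (W : Ω → Cbx) (d : ℝ), NEx c lam N k β d P l t C L h q W →
      ∀ (S ι : Type) (Kn : ℕ) (Pt : ℕ → Ω → S) (A : ℕ → S → Prop) (s : Finset ι) (F : ι → ℕ → S → ℝ) (cs : ι → ℝ)
        (g HM : ℝ), 0 < Kn → 0 < g → 0 < HM → ∑ κ ∈ range Kn, P.H (Pt κ) ≤ HM * Kn →
        (∀ j ∈ s, ∀ κ < Kn, ∀ ω, 0 < P.w ω → 0 ≤ F j κ (Pt κ ω)) → (∀ j ∈ s, 0 < cs j) →
        (∀ j ∈ s, ∑ κ ∈ range Kn, P.ex (fun ω => F j κ (Pt κ ω)) ≤ cs j * Kn) →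
        g * Kn ≤ ∑ κ ∈ range Kn, prE P (fun ω => A κ (Pt κ ω)) →
        ∀ d' : ℝ, (s.card + 3) / g * ((β' - β + d + ε) * h * Real.log 2 + (N + 1) * HM + K) ≤
            d' * h * Real.log 2 →
        ∃ κ < Kn, ∃ ω, 0 < P.w ω ∧ A κ (Pt κ ω) ∧ Real.log (1 / P.pr (Pt κ) (Pt κ ω)) ≤ (s.card + 3) * HM / g ∧
          (∀ j ∈ s, F j κ (Pt κ ω) ≤ (s.card + 3) * cs j / g) ∧
          NEx c lam N k β d' (P.cond (Pt κ) (Pt κ ω)) l t C L h q W := by
  classical
  obtain ⟨K, hK⟩ := hF ε hε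
  refine ⟨max K 0 + 2, by positivity, ?_⟩
  intro Ω _ γ P l t C L h q W d hP S ι Kn Pt A s F cs g HM hKn hg hHM hM hF0 hcs hFa hA d' hd'
  have hlog : 0 < Real.log 2 := Real.log_pos (by norm_num)
  have hKr : (0 : ℝ) < Kn := by exact_mod_cast hKn
  have hh : (0 : ℝ) ≤ h := Nat.cast_nonneg _
  have hc0 : 0 ≤ c := by linarith
  set F₁ : ℝ := (β' + ε) * h * Real.log 2 + max K 0 with hF₁
  set D : ℝ := (β' - β + d + ε) * h * Real.log 2 + (N + 1) * HM + (max K 0 + 2) with hD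
  have hup : ∀ κ, ∀ ω, 0 < P.w ω → Phi c lam N k (P.cond (Pt κ) (Pt κ ω)) l t C L h (0, q) W ≤ F₁ := by
    intro κ ω _
    have hsy : SyOk (P.cond (Pt κ) (Pt κ ω)) l t := fun ω' hω' => hP.ok ω' (cond_supp P (Pt κ) _ hω')
    have a1 := hK Ω γ (P.cond (Pt κ) (Pt κ ω)) l t C L h (0, q) W (by have := hP.hL; omega) hsy (by
      intro ω' hω'
      obtain ⟨b1, b2, b3⟩ := hP.lb ω' (cond_supp P (Pt κ) _ hω')
      refine ⟨b1, ?_, b3⟩
      rw [b2, pow_zero])
    have a2 := le_max_left K 0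
    unfold Phi
    rw [hF₁]
    linarith
  have hav1 : ∀ κ, P.ex (fun ω => F₁ - Phi c lam N k (P.cond (Pt κ) (Pt κ ω)) l t C L h (0, q) W) ≤
      (β' - β + d + ε) * h * Real.log 2 + (N + 1) * P.H (Pt κ) + (max K 0 + 1) := by
    intro κ
    rw [P.ex_sub, P.ex_const]
    have a1 := Phi_avg (c := c) (lam := lam) (k := k) (N := N) hc0 h0 h1 hk hN P l t C L h (0, q) W (Pt κ)
    have a3 := hP.phi
    have a4 : (β' + ε) * h * Real.log 2 - (β - d) * h * Real.log 2 = (β' - β + d + ε) * h * Real.log 2 := by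
      ring
    rw [hF₁]
    linarith
  have hsum : ∀ a b : ℝ, ∑ κ ∈ range Kn, (a + (N + 1) * P.H (Pt κ) + b) ≤ (a + (N + 1) * HM + b) * Kn := by
    intro a b
    rw [Finset.sum_add_distrib, Finset.sum_add_distrib, Finset.sum_const, Finset.sum_const, Finset.card_range, nsmul_eq_mul,
      nsmul_eq_mul]
    have a1 : ∑ κ ∈ range Kn, (N + 1) * P.H (Pt κ) = (N + 1) * ∑ κ ∈ range Kn, P.H (Pt κ) := (Finset.mul_sum ..).symm
    have a2 := mul_le_mul_of_nonneg_left hM (by linarith : 0 ≤ N + 1)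
    rw [a1]
    nlinarith
  have hav : ∑ κ ∈ range Kn, P.ex (fun ω => F₁ - Phi c lam N k (P.cond (Pt κ) (Pt κ ω)) l t C L h (0, q) W) ≤ D * Kn := by
    refine ((Finset.sum_le_sum fun κ _ => hav1 κ).trans (hsum _ _)).trans ?_
    rw [hD]
    nlinarith
  have hD0 : 0 < D := by
    have h2 : 0 ≤ ∑ κ ∈ range Kn, P.ex (fun ω => F₁ - Phi c lam N k (P.cond (Pt κ) (Pt κ ω)) l t C L h (0, q) W) :=
      Finset.sum_nonneg fun κ _ => H565.ex_nonneg' P fun ω hω => sub_nonneg.2 (hup κ ω hω)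
    have h3 : ∑ κ ∈ range Kn, P.ex (fun ω => F₁ - Phi c lam N k (P.cond (Pt κ) (Pt κ ω)) l t C L h (0, q) W) ≤
        (D - 1) * Kn := by
      refine ((Finset.sum_le_sum fun κ _ => hav1 κ).trans (hsum _ _)).trans (le_of_eq ?_)
      rw [hD]
      ring
    have h4 := h2.trans h3
    have h5 : 0 ≤ D - 1 := nonneg_of_mul_nonneg_left h4 hKr
    linarith
  obtain ⟨κ, hκ, ω, w1, w2, w4⟩ := H459.selGenK P hKn Pt A (Finset.insertNone (Finset.insertNone s))
    (fun o κ e => o.elim (F₁ - Phi c lam N k (P.cond (Pt κ) e) l t C L h (0, q) W)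
      (fun o' => o'.elim (Real.log (1 / P.pr (Pt κ) e)) (fun j => F j κ e)))
    (fun o => o.elim D (fun o' => o'.elim HM cs)) hg (by
      intro o ho κ hκ ω hω
      cases o with
      | none => exact sub_nonneg.2 (hup κ ω hω)
      | some o' =>
        cases o' with
        | none =>
          refine Real.log_nonneg ?_
          rw [le_div_iff₀ (P.pr_pos (Pt κ) hω), one_mul]
          exact P.pr_le_one (Pt κ) _
        | some j =>
          exact hF0 j (Finset.some_mem_insertNone.1 (Finset.some_mem_insertNone.1 ho)) κ hκ ω hω) (by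
      intro o ho
      cases o with
      | none => exact hD0
      | some o' =>
        cases o' with
        | none => exact hHM
        | some j =>
          exact hcs j (Finset.some_mem_insertNone.1 (Finset.some_mem_insertNone.1 ho))) (by
      intro o ho
      cases o with
      | none => exact hav
      | some o' =>
        cases o' with
        | none =>
          refine le_trans (le_of_eq (Finset.sum_congr rfl fun κ _ => ?_)) hM
          show P.ex (fun ω => Real.log (1 / P.pr (Pt κ) (Pt κ ω))) = P.ex (fun ω => -Real.log (P.pr (Pt κ) (Pt κ ω)))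
          simp only [one_div, Real.log_inv]
        | some j =>
          exact hFa j (Finset.some_mem_insertNone.1 (Finset.some_mem_insertNone.1 ho))) hA
  have hcard : (((Finset.insertNone (Finset.insertNone s)).card : ℕ) : ℝ) + 1 = s.card + 3 := by
    rw [Finset.card_insertNone, Finset.card_insertNone]
    push_cast
    ring
  rw [hcard] at w4
  have hs0 : (0 : ℝ) ≤ s.card := Nat.cast_nonneg _
  refine ⟨κ, hκ, ω, w1, w2, w4 (some none) (Finset.some_mem_insertNone.2 Finset.none_mem_insertNone), fun j hj => w4 (some (some j))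
    (Finset.some_mem_insertNone.2 (Finset.some_mem_insertNone.2 hj)),
    hP.of_phi (fun ω' hω' => cond_supp P (Pt κ) _ hω') ?_⟩
  have w5 := w4 none Finset.none_mem_insertNone
  have w6 : F₁ - Phi c lam N k (P.cond (Pt κ) (Pt κ ω)) l t C L h (0, q) W ≤ (s.card + 3) * D / g := w5
  have w7 : β * h * Real.log 2 ≤ F₁ := by
    have e1 : 0 ≤ ε * h * Real.log 2 := by positivity
    have e2 : β * h * Real.log 2 ≤ β' * h * Real.log 2 := by
      have := mul_le_mul_of_nonneg_right hββ (mul_nonneg hh hlog.le)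
      linarith [this, mul_assoc β (h : ℝ) (Real.log 2), mul_assoc β' (h : ℝ) (Real.log 2)]
    have e3 := le_max_right K 0
    rw [hF₁]
    linarith [show (β' + ε) * h * Real.log 2 = β' * h * Real.log 2 + ε * h * Real.log 2 by ring]
  have e4 : (s.card + 3) * D / g = (s.card + 3) / g * D := by ring
  have e5 : (β - d') * h * Real.log 2 = β * h * Real.log 2 - d' * h * Real.log 2 := by ring
  rw [e5]
  rw [e4] at w6
  linarith

end Vale.Agent.P106.U
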