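import Vale.Agent.P106.U.H357.HV
import Vale.Agent.P106.U.MIC.Scale

/-!
# P106 / U / H459 : [UE], the exceptional levels in the heavy intervals (helper459)

Over `H118.Sdat`, all a-steps outside `E` are good.

* `Lb n a Sw E` : the exceptional LEVELS = `Sw`, the levels of the steps of `E`, the last level; `card_Lb`; `good_of`, `good_lm`
  (the a-step of a level outside is good), `thk_of` (a level outside `thk (Lb ..) L`: all levels up to `z + L` are below the last one,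
  outside `Sw`, and their a-steps are good).
* `uU n a X mm e` : the function `u1` of helper118's heavy intervals: `2 mm` at the levels of `X`, the error `e` of the time step
  elsewhere; `uU_nonneg`, `uU_step` (its use), `uU_sum`, `uU_zero`.
* `wU X c` : the function `u2` (junctions): `wU_nonneg`, `wU_step`, `wU_sum`, `wU_zero`.
* `us_sum` : both together.
-/

set_option autoImplicit false

namespace Vale.Agent.P106.U.H459

open Finset
open Vale.Agent.P106.U.H118 (Sdat)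
open Vale.Agent.P106.U.H495 (Lvl)
open Vale.Agent.P106.U.H357 (uV uV_nonneg uV_le uV_sum uV_zero)
open Vale.Agent.P106.U.MIC (thk thk_card not_thk)

/-- the exceptional levels -/
def Lb (n : ℕ) (a : ℕ → ℕ) (Sw E : Finset ℕ) : Finset ℕ := Sw ∪ E.image a ∪ {a n}

section

variable {n : ℕ} {g : ℕ → Prop} {a R : ℕ → ℕ} {Sw E : Finset ℕ}

theorem mem_Lb {z : ℕ} : z ∈ Lb n a Sw E ↔ (z ∈ Sw ∨ ∃ i ∈ E, a i = z) ∨ z = a n := by
  unfold Lb
  rw [Finset.mem_union, Finset.mem_union, Finset.mem_image, Finset.mem_singleton]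

theorem card_Lb : (Lb n a Sw E).card ≤ Sw.card + E.card + 1 := by
  unfold Lb
  have h1 := Finset.card_union_le (Sw ∪ E.image a) {a n}
  have h2 := Finset.card_union_le Sw (E.image a)
  have h3 : (E.image a).card ≤ E.card := Finset.card_image_le
  rw [Finset.card_singleton] at h1
  omega

theorem good_of (hE : ∀ i < n, a (i + 1) = a i + 1 → ¬ g i → i ∈ E) {k : ℕ} (hk : k < n) (ha : a (k + 1) = a k + 1)
    (h : a k ∉ Lb n a Sw E) : g k := by
  by_contra hg
  exact h (mem_Lb.2 (Or.inl (Or.inr ⟨k, hE k hk ha hg, rfl⟩)))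

theorem good_lm {lm : ℕ → ℕ} (hl : Lvl n a lm) (hE : ∀ i < n, a (i + 1) = a i + 1 → ¬ g i → i ∈ E) {z : ℕ}
    (h0 : a 0 ≤ z) (hz : z < a n) (h : z ∉ Lb n a Sw E) : g (lm z) := by
  have h1 := hl.lt z h0 hz
  have h2 := hl.eq z h0 hz
  have h3 := hl.st z h0 hz
  exact good_of (Sw := Sw) hE h1 (by omega) (by rwa [h2])

/-- a level outside the thickened exceptional levels -/
theorem thk_of {lm : ℕ → ℕ} (hl : Lvl n a lm) (hE : ∀ i < n, a (i + 1) = a i + 1 → ¬ g i → i ∈ E) {L z : ℕ}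
    (h0 : a 0 ≤ z) (hz : z < a n) (h : z ∉ thk (Lb n a Sw E) L) :
    z + L < a n ∧ ∀ w, z ≤ w → w ≤ z + L → w ∉ Sw ∧ g (lm w) := by
  have h1 : z + L < a n := by
    by_contra hcon
    exact not_thk h hz.le (by omega) (mem_Lb.2 (Or.inr rfl))
  refine ⟨h1, fun w w1 w2 => ?_⟩
  have h2 := not_thk h w1 w2
  exact ⟨fun h3 => h2 (mem_Lb.2 (Or.inl (Or.inl h3))), good_lm hl hE (by omega) (by omega) h2⟩

theorem card_thk_Lb (L : ℕ) : (((thk (Lb n a Sw E) L).card : ℕ) : ℝ) ≤ (L + 1) * ((Sw.card : ℝ) + E.card + 1) := by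
  have h1 := thk_card (Lb n a Sw E) L
  have h2 : (Lb n a Sw E).card ≤ Sw.card + E.card + 1 := card_Lb
  have h3 := h1.trans (Nat.mul_le_mul_left (L + 1) h2)
  exact_mod_cast h3

/-- two a-steps of one level -/
theorem step_inj (D : Sdat n g a R) {j k : ℕ} (hj : j < n) (hk : k < n) (h1 : a (j + 1) = a j + 1)
    (h2 : a (k + 1) = a k + 1) (h : a j = a k) : j = k := by
  rcases lt_trichotomy j k with h3 | h3 | h3
  · have := D.am (by omega : j + 1 ≤ k) hk.le
    omega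
  · exact h3
  · have := D.am (by omega : k + 1 ≤ j) hj.le
    omega

/-- the a-steps on the levels of `X` -/
theorem card_steps (D : Sdat n g a R) (X : Finset ℕ) :
    ((range n).filter fun k => a (k + 1) = a k + 1 ∧ a k ∈ X).card ≤ X.card := by
  refine Finset.card_le_card_of_injOn a ?_ ?_
  · intro k hk
    rw [Finset.mem_coe, Finset.mem_filter] at hk
    exact hk.2.2
  · intro j hj k hk h
    rw [Finset.mem_coe, Finset.mem_filter, Finset.mem_range] at hj hk
    exact step_inj D hj.1 hk.1 hj.2.1 hk.2.1 h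

/-- error of a time step: `2 mm` on the levels of `X` -/
def eU (a : ℕ → ℕ) (X : Finset ℕ) (mm : ℝ) (e : ℕ → ℝ) (k : ℕ) : ℝ := if a k ∈ X then 2 * mm else e k

theorem eU_nonneg {X : Finset ℕ} {mm : ℝ} (hm : 0 ≤ mm) {e : ℕ → ℝ} (he : ∀ k, 0 ≤ e k) (k : ℕ) : 0 ≤ eU a X mm e k := by
  unfold eU
  split_ifs
  · positivity
  · exact he k

/-- **the function `u1`** -/
noncomputable def uU (n : ℕ) (a : ℕ → ℕ) (X : Finset ℕ) (mm : ℝ) (e : ℕ → ℝ) (z : ℕ) : ℝ := uV n a (eU a X mm e) z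

theorem uU_nonneg {X : Finset ℕ} {mm : ℝ} (hm : 0 ≤ mm) {e : ℕ → ℝ} (he : ∀ k, 0 ≤ e k) (z : ℕ) : 0 ≤ uU n a X mm e z :=
  uV_nonneg (eU_nonneg hm he) z

/-- **its use** : outside `X` the inequality with the error, on `X` nothing -/
theorem uU_step {X : Finset ℕ} {mm : ℝ} (hm : 0 ≤ mm) {e : ℕ → ℝ} (he : ∀ k, 0 ≤ e k) {k : ℕ} (hk : k < n)
    (ha : a (k + 1) = a k + 1) {x : ℝ} (hx0 : 0 ≤ x) (hx : a k ∉ X → 2 * mm - e k ≤ x) :
    2 * mm - uU n a X mm e (a k) ≤ x := by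
  have h1 := uV_le (N := n) (eU_nonneg (a := a) (X := X) hm he) hk ha
  unfold uU
  by_cases h : a k ∈ X
  · have h2 : eU a X mm e k = 2 * mm := if_pos h
    rw [h2] at h1
    linarith
  · have h2 : eU a X mm e k = e k := if_neg h
    rw [h2] at h1
    have := hx h
    linarith

/-- **its sum** -/
theorem uU_sum (D : Sdat n g a R) {X : Finset ℕ} {mm : ℝ} (hm : 0 ≤ mm) {e : ℕ → ℝ} (he : ∀ k, 0 ≤ e k) (T : Finset ℕ) :
    ∑ z ∈ T, uU n a X mm e z ≤
      2 * mm * X.card + ∑ k ∈ (range n).filter (fun k => a (k + 1) = a k + 1 ∧ a k ∉ X), e k := by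
  refine (uV_sum (eU_nonneg (a := a) (X := X) hm he) T).trans ?_
  rw [← Finset.sum_filter_add_sum_filter_not ((range n).filter fun k => a (k + 1) = a k + 1) (fun k => a k ∈ X)]
  rw [Finset.filter_filter, Finset.filter_filter]
  have h1 : ∑ k ∈ (range n).filter (fun k => a (k + 1) = a k + 1 ∧ a k ∈ X), eU a X mm e k ≤ 2 * mm * X.card := by
    have h2 : ∑ k ∈ (range n).filter (fun k => a (k + 1) = a k + 1 ∧ a k ∈ X), eU a X mm e k =
        ∑ _k ∈ (range n).filter (fun k => a (k + 1) = a k + 1 ∧ a k ∈ X), 2 * mm :=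
      Finset.sum_congr rfl fun k hk => if_pos (Finset.mem_filter.1 hk).2.2
    rw [h2, Finset.sum_const, nsmul_eq_mul]
    have h3 : ((((range n).filter fun k => a (k + 1) = a k + 1 ∧ a k ∈ X).card : ℕ) : ℝ) ≤ X.card := by
      exact_mod_cast card_steps D X
    nlinarith
  have h2 : ∑ k ∈ (range n).filter (fun k => a (k + 1) = a k + 1 ∧ a k ∉ X), eU a X mm e k =
      ∑ k ∈ (range n).filter (fun k => a (k + 1) = a k + 1 ∧ a k ∉ X), e k :=
    Finset.sum_congr rfl fun k hk => if_neg (Finset.mem_filter.1 hk).2.2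
  rw [h2]
  linarith

theorem uU_zero (D : Sdat n g a R) {X : Finset ℕ} {mm : ℝ} {e : ℕ → ℝ} {z : ℕ} (hz : z ∉ range (a n)) :
    uU n a X mm e z = 0 :=
  uV_zero (fun _ _ h1 h2 => D.am h1 h2) hz

/-- **the function `u2`** : junctions -/
def wU (X : Finset ℕ) (c : ℝ) (z : ℕ) : ℝ := if z ∈ X then c else 0

theorem wU_nonneg {X : Finset ℕ} {c : ℝ} (hc : 0 ≤ c) (z : ℕ) : 0 ≤ wU X c z := by
  unfold wU
  split_ifs
  · exact hc
  · exact le_rfl

theorem wU_step {X : Finset ℕ} {c ν : ℝ} {z : ℕ} {x : ℝ} (h1 : x ≤ ν + c) (h2 : z ∉ X → x ≤ ν) : x ≤ ν + wU X c z := by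
  unfold wU
  split_ifs with h
  · exact h1
  · rw [add_zero]
    exact h2 h

theorem wU_sum {X : Finset ℕ} {c : ℝ} (hc : 0 ≤ c) (T : Finset ℕ) : ∑ z ∈ T, wU X c z ≤ c * X.card := by
  unfold wU
  rw [← Finset.sum_filter, Finset.sum_const, nsmul_eq_mul, mul_comm]
  refine mul_le_mul_of_nonneg_left ?_ hc
  have : (T.filter fun z => z ∈ X).card ≤ X.card :=
    Finset.card_le_card fun z hz => (Finset.mem_filter.1 hz).2
  exact_mod_cast this

theorem wU_zero {X : Finset ℕ} {c : ℝ} {z : ℕ} (hz : z ∉ X) : wU X c z = 0 := if_neg hz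

/-- **both functions**, over `T = range (a n) ∪ X'` -/
theorem us_sum (D : Sdat n g a R) {X X' : Finset ℕ} {mm c : ℝ} (hm : 0 ≤ mm) (hc : 0 ≤ c) {e : ℕ → ℝ} (he : ∀ k, 0 ≤ e k) :
    (∀ z, z ∉ range (a n) ∪ X' → uU n a X mm e z + wU X' c z = 0) ∧
      ∑ z ∈ range (a n) ∪ X', (uU n a X mm e z + wU X' c z) ≤
        2 * mm * X.card + c * X'.card + ∑ k ∈ (range n).filter (fun k => a (k + 1) = a k + 1 ∧ a k ∉ X), e k := by
  constructor
  · intro z hz
    rw [Finset.mem_union, not_or] at hz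
    rw [uU_zero D hz.1, wU_zero hz.2, add_zero]
  · rw [Finset.sum_add_distrib]
    have h1 := uU_sum D (X := X) hm he (range (a n) ∪ X')
    have h2 := wU_sum (X := X') hc (range (a n) ∪ X')
    linarith

end

end Vale.Agent.P106.U.H459
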